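import Vale.Agent.P014Z.Su.Defs
import Vale.Agent.P004R.St2

/-! # P014Z, block TZ: trivial zeros at the primes of the tower (words and rows) -/

set_option autoImplicit false
set_option linter.all false

open UpperHalfPlane NumberField
open scoped MatrixGroups Classical

noncomputable section

namespace Vale.Agent.P014Z.Tz

open Vale.Agent.P022 (Qb GQ GK)
open P027H P027M.M P004K
open Vale.Agent.P022K.G2 (Tv)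
open P004F.Qx (Ty Vp)
open P004R (Vn)
open P014T.Sg (ee)
open Su (g12 us)

/-- functions of the points `(x, y) / d` on `Γ₀(l)` with a distribution law -/
structure Sy (l d : ℕ) (Ψ : ℤ → ℤ → ℍ → ℂ) : Prop where
  law : ∀ γ : SL(2, ℤ), (l : ℤ) ∣ γ 1 0 → ∀ x y τ,
    Ψ x y (γ • τ) = Ψ (x * γ 0 0 + y * γ 1 0) (x * γ 0 1 + y * γ 1 1) τ
  per : ∀ x y s t τ, Ψ (x + d * s) (y + d * t) τ = Ψ x y τ
  dis : ∀ n e : ℕ, d = n * e → n.Coprime l → ∀ (x y : ℤ) (τ τ' : ℍ), (τ' : ℂ) = n * τ →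
    Ψ x (n * y) τ' = ∏ k ∈ Finset.range n, Ψ x (y + k * e) τ

/-- powers of Siegel functions -/
def pg (d : ℕ) (x y : ℤ) (τ : ℍ) : ℂ := g12 (x / d) (y / d) τ ^ d

/-- the quotient by the Frobenius lift -/
def pd (p d : ℕ) (x y : ℤ) (τ : ℍ) : ℂ :=
  (g12 (x / d) (y / d) τ ^ p / g12 (x / d) (p * y / d) (p * τ)) ^ d

/-- the product over the points `(x, y) / f + (r, s) / c` with exponents `ν (x y)` -/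
def yr (Ψ : ℤ → ℤ → ℍ → ℂ) (f c : ℕ) [NeZero f] (ν : (ZMod f)ˣ → ℤ) (r s : ℤ) (τ : ℍ) : ℂ :=
  ∏ x : (ZMod f)ˣ, ∏ y : (ZMod f)ˣ,
    Ψ (c * (x : ZMod f).val + f * r) (c * (y : ZMod f).val + f * s) τ ^ ν (x * y)

/-- `ν' a = ν (n a)` -/
def Sh {f : ℕ} (n : ℕ) (ν ν' : (ZMod f)ˣ → ℤ) : Prop :=
  ∀ a a' : (ZMod f)ˣ, (a : ZMod f) = n * a' → ν' a' = ν a

/-- `τ' = m τ`, `m` has determinant `n`, its rows are multiples of `w` modulo `n` -/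
structure Mv (n : ℕ) (A B C D w₁ w₂ : ℤ) (τ τ' : ℍ) : Prop where
  det : A * D - B * C = n
  eq : (C * τ + D : ℂ) * τ' = A * τ + B
  pr : ∃ u v : ℤ, (n : ℤ) ∣ u * w₁ + v * w₂ - 1
  r1 : ∃ a : ℤ, (n : ℤ) ∣ A - a * w₁ ∧ (n : ℤ) ∣ B - a * w₂
  r2 : ∃ a : ℤ, (n : ℤ) ∣ C - a * w₁ ∧ (n : ℤ) ∣ D - a * w₂

/-- the two systems -/
def SYS : Prop := ∀ d : ℕ, 0 < d → Sy 1 d (pg d) ∧ ∀ p : ℕ, 0 < p → Sy p d (pd p d)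

/-- the law for a cyclic isogeny -/
def DIS : Prop := ∀ l d Ψ, Sy l d Ψ → ∀ n e : ℕ, d = n * e → 0 < n → 0 < l → n.Coprime l →
  ∀ A B C D w₁ w₂ τ τ', Mv n A B C D w₁ w₂ τ τ' → (l : ℤ) ∣ C → ∀ x y x₀ y₀ : ℤ,
  x * A + y * C = n * x₀ → x * B + y * D = n * y₀ →
  Ψ x y τ' = ∏ k ∈ Finset.range n, Ψ (x₀ + k * e * w₁) (y₀ + k * e * w₂) τ

/-- the same for the products -/
def YD : Prop := ∀ (l f c : ℕ) [NeZero f] Ψ, Sy l (f * c) Ψ → f.Coprime c →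
  (∀ ν r s u v τ, yr Ψ f c ν (r + c * u) (s + c * v) τ = yr Ψ f c ν r s τ) ∧
  ∀ n e : ℕ, c = n * e → 0 < n → 0 < l → n.Coprime l → ∀ A B C D w₁ w₂ τ τ',
  Mv n A B C D w₁ w₂ τ τ' → (l : ℤ) ∣ C → (f : ℤ) ∣ B → (f : ℤ) ∣ C → ∀ ν ν', Sh n ν ν' →
  ∀ r' s' r s : ℤ, r' * A + s' * C = n * r → r' * B + s' * D = n * s →
  yr Ψ f c ν r' s' τ' = ∏ k ∈ Finset.range n, yr Ψ f c ν' (r + k * e * w₁) (s + k * e * w₂) τ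

/-- coordinates of the integers in the lattice of a point of conductor one -/
structure Co {K : Type} [Field K] (j : K →+* Qb) (M c : ℕ) (τ₀ : ℍ) (s t : 𝓞 K →+ ℤ) : Prop where
  mul : ∀ π : 𝓞 K, ∃ A B C D : ℤ, (M : ℤ) ∣ C ∧ JJ j π * τ₀ = A * τ₀ + B ∧ JJ j π = C * τ₀ + D ∧
    ∀ β, s (β * π) = s β * A + t β * C ∧ t (β * π) = s β * B + t β * D
  onto : ∀ u v : ℤ, ∃ β, (c : ℤ) ∣ s β - u ∧ (c : ℤ) ∣ t β - v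

/-- **the points of conductor `c` over a point of conductor one** -/
def GEO : Prop := ∀ (K : Type) [Field K] [NumberField K] (j : K →+* Qb), Iq K →
  ∀ (M c : ℕ) (I b : Ideal (𝓞 K)), 0 < M → 0 < c → c.Coprime M → Cn M I → Cop c b →
  ∀ g₀ σ₀ τ₁ τ₀, Ar j 1 b g₀ → Ex σ₀ g₀ → Hp (JJ j) M I 1 τ₁ → Cj0 σ₀ M τ₁ τ₀ →
  ∃ s t, Co j M c τ₀ s t ∧ ∀ (β : 𝓞 K) g σ τ τ', Cop c (Ideal.span {β}) →
    Ar j c (b * Ideal.span {β}) g → Ex σ g → Hp (JJ j) M I c τ → Cj0 σ M τ τ' →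
    ∃ A B C D, (M : ℤ) ∣ C ∧ Mv c A B C D (s β) (t β) τ₀ τ'

/-- multiplication by a split prime element -/
def SPL : Prop := ∀ (K : Type) [Field K] [NumberField K] (j : K →+* Qb), Iq K →
  ∀ (M c q : ℕ) τ₀ s t, Co j M c τ₀ s t → q.Prime → q ∣ c → ∀ π π' : 𝓞 K, π * π' = q →
  ¬ IsUnit π → ¬ IsUnit π' → (∀ a : 𝓞 K, ∃ k : ℤ, π ∣ a - k) ∧
    ∃ A B C D, (M : ℤ) ∣ C ∧ Mv q A B C D (s π') (t π') τ₀ τ₀ ∧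
    ∀ β, s (π * β) * A + t (π * β) * C = q * s β ∧ s (π * β) * B + t (π * β) * D = q * t β

/-- sums over lines -/
def GRP : Prop := ∀ (X A κ : Type) [CommRing X] [Fintype X] [CommRing A] [Fintype κ] (c m : ℕ)
  (η L : X → A) (β : κ → X) (T : A), 0 < c → (∀ n : ℤ, (n : X) = 0 ↔ (c : ℤ) ∣ n) →
  (∀ x y, IsUnit x → IsUnit y → η (x * y) = η x * η y) → (∀ n : ℤ, IsUnit (n : X) → η n = 1) →
  (∀ k, IsUnit (β k)) → (∀ x, IsUnit x → ∃! k, ∃ n : ℤ, x = n * β k) →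
  (∀ a, T * a = 0 → T ^ m ∣ a) → (∀ q e : ℕ, q.Prime → c = q * e →
    ∃ (u y : X) (v : A), IsUnit u ∧ u = 1 + e * y ∧ IsUnit v ∧ η u - 1 = T * v) →
  T ^ m ∣ ∑ k, η (β k) * ∑ n ∈ Finset.range c, L (n * β k) - ∑ x with IsUnit x, η x * L x

/-- **one zero for every place** -/
def LOC : Prop := ∀ (O A ι : Type) [CommRing O] [IsDomain O] [CommRing A] [Fintype ι] (c c₀ : O)
  [Fintype (O ⧸ Ideal.span {c})] (π ρ : ι → O) (q : ι → ℕ) (η L : O ⧸ Ideal.span {c} → A) (T : A),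
  c ≠ 0 → c = c₀ * ∏ i, π i → Pairwise (fun i i' => IsCoprime (π i) (π i')) →
  (∀ i, IsCoprime c₀ (π i) ∧ (q i).Prime ∧ π i ∣ q i ∧ ¬ IsUnit (π i) ∧ ρ i * π i = c ∧
    ∀ a : O, ∃ k : ℤ, π i ∣ a - k) →
  η 1 = 1 → (∀ x y, IsUnit x → IsUnit y → η (x * y) = η x * η y) →
  (∀ x, IsUnit x → T ∣ η x - 1) →
  (∀ i x, L (Ideal.Quotient.mk (Ideal.span {c}) (π i) * x) =
    ∑ k ∈ Finset.range (q i), L (x + Ideal.Quotient.mk (Ideal.span {c}) (k * ρ i))) →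
  T ^ Fintype.card ι ∣ ∑ x with IsUnit x, η x * L x

/-- **the core** -/
def COR : Prop := ∀ (K : Type) [Field K] [NumberField K] (j : K →+* Qb), Iq K → Upm K →
  ∀ (p k M c f l : ℕ) [NeZero f] (I : Ideal (𝓞 K)) (e : GQ → ZMod (p ^ k)) (R : Finset GQ)
    (P : Ideal (𝓞 Qb)) (V : AbsoluteValue ℂ ℝ) (w : ℂ) Ψ (ν ν' : (ZMod f)ˣ → ℤ) (Q : Finset ℕ)
    (h : GQ → Qb), p.Prime → 0 < M → Cn M I → Squarefree c → c.Coprime M → f * f ∣ M → l * f ∣ M →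
  (∀ g ∈ GK j, ∀ g' ∈ GK j, e (g * g') = e g + e g') → (∀ g ∈ Hc j c, e g = 0) →
  (∀ q n : ℕ, q.Prime → c = q * n → ∃ t ∈ Hc j n, e t = 1) → Tv (GK j) (Hc j c) R →
  (p : 𝓞 Qb) ∈ P → Vp V P → w ≠ 0 → V w < 1 → Sy l (f * c) Ψ → Sh c ν ν' →
  (∀ q ∈ Q, q.Prime ∧ q ∣ c ∧ Sh q ν' ν' ∧ ∃ π π' : 𝓞 K, π * π' = q ∧ IsCoprime π π' ∧
    ¬ IsUnit π ∧ ¬ IsUnit π') →
  (∀ g ∈ GK j, ∀ σ (τ₁ τ₀ τ' : ℍ), Ex σ g → Hp (JJ j) M I 1 τ₁ → Cj0 σ M τ₁ τ₀ → (τ' : ℂ) = f * τ₀ →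
    ∀ r s, V (yr Ψ f c ν' r s τ' - 1) ≤ V w) →
  (∀ g ∈ R, ∃ σ, ∃ τ τ₀ τ' : ℍ, Ex σ g ∧ Hp (JJ j) M I c τ ∧ Cj0 σ M τ τ₀ ∧ (τ' : ℂ) = f * τ₀ ∧
    V (w * io (h g) - (yr Ψ f c ν 0 0 τ' - 1)) < V w) →
  2 * Q.card < p ^ k → Vn P R e h (2 * Q.card)

/-- integrality, the level is prime to `p` -/
def IND : Prop := ∀ (V : AbsoluteValue ℂ ℝ) (p M f d : ℕ), P004Z.Fin.Ov V p → p ≠ 2 → 1 < f →
  f ∣ d → 0 < d → ¬ p ∣ d → 0 < M → p * f * f ∣ M → ∀ D (τ τ' : ℍ), Ty V M D τ →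
  (τ' : ℂ) = f * τ → ∀ x y : ℤ, IsCoprime x f → V (pd p d x y τ' - 1) ≤ V p

/-- integrality, `p` divides the level -/
def ING : Prop := ∀ (V : AbsoluteValue ℂ ℝ) (p M f c : ℕ) [NeZero f] (ν : (ZMod f)ˣ → ℤ) (w : ℂ),
  P004Z.Fin.Ov V p → p ≠ 2 → p ∣ f → 0 < c → f.Coprime c → 0 < M → f * f ∣ M → V p ≤ V w →
  (∀ (a : (ZMod f)ˣ) (z : ZMod f), ∑ y : (ZMod f)ˣ with (p : ZMod f) * y.1 = z, ν (a * y) = 0) →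
  ∑ a : (ZMod f)ˣ, (ν a : ZMod f) * a = 0 → (∀ (a : (ZMod f)ˣ) (m : ℕ),
    V (∑ y : (ZMod f)ˣ, (ν (a * y) : ℂ) * ee (y.1.val * m / f)) ≤ V w) →
  ∀ D (τ τ' : ℍ), Ty V M D τ → (τ' : ℂ) = f * τ → ∀ r s,
    V (yr (pg (f * c)) f c ν r s τ' - 1) ≤ V (p * w)

/-- the link with the units of block SU -/
def LNK : Prop := ∀ (f c c₀ m : ℕ) [NeZero f] (n ν : (ZMod f)ˣ → ℤ) (u : (ZMod f)ˣ), 1 < f → 0 < c →
  (u : ZMod f) = c₀ → (∀ a, ν a = m * (c₀ * n a - n (u⁻¹ * a))) → ∀ τ τ' : ℍ, (τ' : ℂ) = f * τ →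
  (∏ a : (ZMod f)ˣ, us f c₀ m a τ ^ n a) ^ (f * c) = yr (pg (f * c)) f c ν 0 0 τ' ∧
  ∀ (p : ℕ) (τp : ℍ), p.Coprime f → (τp : ℂ) = p * τ →
    (∏ a : (ZMod f)ˣ, (us f c₀ m a τ ^ p / us f c₀ m (p * a) τp) ^ n a) ^ (f * c) =
      yr (pd p (f * c)) f c ν 0 0 τ'

end Vale.Agent.P014Z.Tz
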