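import Vale.Agent.P014Z.Tz.St2
import Vale.Agent.P004K.Bas

/-! # P014Z, block TZ: the abstract core -/

set_option autoImplicit false
set_option linter.all false

open UpperHalfPlane NumberField Polynomial Finset
open scoped MatrixGroups Classical

noncomputable section

namespace Vale.Agent.P014Z.Tz

open Vale.Agent.P022 (Qb GQ GK)
open P027H P027M.M P004K
open Vale.Agent.P022K.G2 (Tv)

namespace Cr

theorem mvf {n f : ℕ} {A B C D w₁ w₂ : ℤ} {τ τ' σ σ' : ℍ} (h : Mv n A B (f * C) D w₁ w₂ τ τ')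
    (co : f.Coprime n) (e : (σ : ℂ) = f * τ) (e' : (σ' : ℂ) = f * τ') :
    Mv n A (f * B) C D w₁ (f * w₂) σ σ' := by
  obtain ⟨a, b, k⟩ := Nat.isCoprime_iff_coprime.2 co
  refine ⟨by linear_combination h.det, ?_, ?_, ?_, ?_⟩
  · have := h.eq
    push_cast at this ⊢
    rw [e, e']
    linear_combination f * this
  · obtain ⟨u, v, z, hz⟩ := h.pr
    exact ⟨u, v * a, z - v * w₂ * b, by linear_combination hz + v * w₂ * k⟩
  · obtain ⟨u, x, y⟩ := h.r1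
    exact ⟨u, x, by rw [show f * B - u * (f * w₂) = f * (B - u * w₂) by ring]; exact y.mul_left _⟩
  · obtain ⟨u, ⟨x, hx⟩, y, hy⟩ := h.r2
    exact ⟨u * a, ⟨a * x + C * b, by linear_combination a * hx - C * k⟩, y + u * w₂ * b,
      by linear_combination hy - u * w₂ * k⟩

theorem ex_mul {f : ℕ} (h : 0 < f) (τ : ℍ) : ∃ σ : ℍ, (σ : ℂ) = f * τ :=
  ⟨⟨f * τ, by simpa using mul_pos (Nat.cast_pos.2 h : (0 : ℝ) < f) τ.im_pos⟩, rfl⟩

theorem lp {A ι : Type} [CommRing A] {S : Submonoid ℂ} {ℓ : ℂ → A}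
    (h : ∀ z ∈ S, ∀ w ∈ S, ℓ (z * w) = ℓ z + ℓ w) (s : Finset ι) (y : ι → ℂ) (m : ∀ i, y i ∈ S) :
    ℓ (∏ i ∈ s, y i) = ∑ i ∈ s, ℓ (y i) := by
  induction s using Finset.induction_on with
  | empty =>
    have := h 1 S.one_mem 1 S.one_mem
    rw [mul_one] at this
    simpa using this
  | insert i s n k => rw [prod_insert n, sum_insert n, h _ (m i) _ (S.prod_mem fun i _ => m i), k]

variable {A : Type} [CommRing A]

/-- truncated polynomials -/
abbrev Tp (A : Type) [CommRing A] (m : ℕ) : Type := A[X] ⧸ Ideal.span {(X : A[X]) ^ (m + 1)}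

/-- the projection -/
abbrev pj (A : Type) [CommRing A] (m : ℕ) : A[X] →+* Tp A m := Ideal.Quotient.mk _

theorem tors (m : ℕ) (a : Tp A m) (h : pj A m X * a = 0) : pj A m X ^ m ∣ a := by
  obtain ⟨a, rfl⟩ := Ideal.Quotient.mk_surjective a
  rw [← map_mul, Ideal.Quotient.eq_zero_iff_mem, Ideal.mem_span_singleton, pow_succ'] at h
  obtain ⟨b, hb⟩ := h
  rw [mul_assoc] at hb
  rw [monic_X.isRegular.left hb, ← map_pow]
  exact map_dvd _ (dvd_mul_right _ _)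

theorem pw {m p k : ℕ} (hp : p.Prime) (h0 : (p : A) = 0) (l : m < p ^ k) :
    (1 + pj A m X) ^ p ^ k = 1 := by
  obtain ⟨r, hr⟩ := exists_add_pow_prime_pow_eq hp 1 (pj A m X) k
  have a : ((p : ℕ) : Tp A m) = 0 := by
    rw [← map_natCast ((pj A m).comp C), h0, map_zero]
  have b : pj A m X ^ p ^ k = 0 := by
    rw [← map_pow, Ideal.Quotient.eq_zero_iff_mem, Ideal.mem_span_singleton]
    exact pow_dvd_pow _ l
  rw [hr, a, b]
  simp

theorem read {m : ℕ} {ι : Type} (R : Finset ι) (n : ι → ℕ) (h : ι → A)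
    (d : pj A m X ^ m ∣ ∑ g ∈ R, (1 + pj A m X) ^ n g * pj A m (C (h g))) (i : ℕ) (l : i < m) :
    ∑ g ∈ R, ((n g).choose i : A) * h g = 0 := by
  obtain ⟨a, ha⟩ := d
  obtain ⟨a, rfl⟩ := Ideal.Quotient.mk_surjective a
  have e : pj A m (∑ g ∈ R, (1 + X) ^ n g * C (h g)) = pj A m (X ^ m * a) := by
    simpa [map_sum] using ha
  rw [Ideal.Quotient.eq, Ideal.mem_span_singleton] at e
  have : X ^ m ∣ ∑ g ∈ R, (1 + X : A[X]) ^ n g * C (h g) := by
    have := dvd_add ((pow_dvd_pow _ m.le_succ).trans e) (dvd_mul_right (X ^ m) a)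
    rwa [sub_add_cancel] at this
  have := X_pow_dvd_iff.1 this i l
  simpa [finset_sum_coeff, coeff_mul_C, coeff_one_add_X_pow] using this

theorem ch_add {N : ℕ} [NeZero N] {x : A} (h : x ^ N = 1) (a b : ZMod N) :
    x ^ (a + b).val = x ^ a.val * x ^ b.val := by
  rw [ZMod.val_add, ← pow_eq_pow_mod _ h, pow_add]

theorem sm {K : Type} [Field K] (s : 𝓞 K →+ ℤ) (n : ℤ) (β : 𝓞 K) : s (n * β) = n * s β := by
  rw [← zsmul_eq_mul, map_zsmul, smul_eq_mul]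

theorem sn {K : Type} [Field K] (s : 𝓞 K →+ ℤ) (n : ℕ) (β : 𝓞 K) : s (n * β) = n * s β := by
  simpa using sm s n β

end Cr

open Cr

theorem cr0 (hg : HG1) (cj : CJ0) (par : PAR) (geo : GEO) (yd : YD) (spl : SPL) (grp : GRP)
    (loc : LOC) : CR0 := by
  intro K _ _ j iq up p k M c f l _ I e R A _ S ℓ Ψ ν ν' Q h hp M0 cn sq cM fM lM ea e0 ine tv p0
    la sy sh hQ hS hR lt
  have c0 : 0 < c := Nat.pos_of_ne_zero sq.ne_zero
  have f0 : 0 < f := Nat.pos_of_ne_zero (NeZero.ne f)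
  have l0 : 0 < l := Nat.pos_of_ne_zero fun z => M0.ne' (by simpa [z] using lM)
  have fc : f.Coprime c := (cM.coprime_dvd_right ((Dvd.intro _ rfl).trans fM)).symm
  have cl : c.Coprime l := cM.coprime_dvd_right ((Dvd.intro _ rfl).trans lM)
  intro i hi
  have one : 1 < p ^ k := by omega
  haveI : NeZero (p ^ k) := ⟨by omega⟩
  haveI : Fact (1 < p ^ k) := ⟨one⟩
  obtain ⟨ι, κ, _, _, B, g₀, β, G, hB, hβ, hG, hu, he⟩ := par K j iq up c R c0 tv
  obtain ⟨e₀, ε, εa, εn, εG, εt⟩ := he _ e ea e0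
  obtain ⟨τ₁, h₁⟩ := (hg K j iq M 1 I M0 one_pos (Nat.coprime_one_left _) cn).1
  obtain ⟨y1, y2⟩ := yd l f c Ψ sy fc
  have cz : (c : 𝓞 K) ≠ 0 := Nat.cast_ne_zero.2 c0.ne'
  haveI : Finite (Xc K c) := Ideal.finiteQuotientOfFreeOfNeBot _ (by simpa using c0.ne')
  haveI : Fintype (Xc K c) := Fintype.ofFinite _
  refine read R (fun g => (e g).val) h ?_ i hi
  generalize hm : 2 * Q.card = m at *
  have P := pw (m := m) hp p0 lt
  have tr := tors (A := A) m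
  generalize (pj A m X) = T at *
  set φ : A →+* Tp A m := (pj A m).comp C
  change T ^ m ∣ ∑ g ∈ R, (1 + T) ^ (e g).val * φ (h g)
  rw [← sum_coe_sort R, ← G.sum_comp, Fintype.sum_prod_type]
  refine dvd_sum fun a _ => ?_
  simp only [εG, ch_add P, mul_assoc]
  rw [← mul_sum]
  refine Dvd.dvd.mul_left ?_ _
  obtain ⟨σ₀, x₀⟩ := ex_ex (g₀ a)
  obtain ⟨τ₀, j₀⟩ := (cj σ₀ M M0).1 τ₁
  obtain ⟨τ₂, h₂⟩ := ex_mul f0 τ₀
  obtain ⟨s, t, co, mv⟩ := geo K j iq M c I (B a) M0 c0 cM cn (hB a).1 _ _ _ _ (hB a).2 x₀ h₁ j₀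
  have mS := hS _ (hB a).2.1 _ _ _ _ x₀ h₁ j₀ h₂
  choose o ho using Ideal.Quotient.mk_surjective (I := Ideal.span {(c : 𝓞 K)})
  obtain ⟨L, hL⟩ : ∃ L : Xc K c → Tp A m,
      ∀ b, L (mc c b) = φ (ℓ (yr Ψ f c ν' (s b) (f * t b) τ₂)) := by
    refine ⟨fun x => φ (ℓ (yr Ψ f c ν' (s (o x)) (f * t (o x)) τ₂)), fun b => ?_⟩
    obtain ⟨z, hz⟩ := Ideal.mem_span_singleton.1 (Ideal.Quotient.eq.1 (ho (mc c b)))
    rw [sub_eq_iff_eq_add'] at hz
    simp only [hz, map_add, sn]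
    rw [mul_add, mul_left_comm, y1]
  have lv {C : ℤ} (d : (M : ℤ) ∣ C) : ∃ C', C = f * C' ∧ (f : ℤ) ∣ C' ∧ (l : ℤ) ∣ C' := by
    have fz : (f : ℤ) ≠ 0 := Nat.cast_ne_zero.2 f0.ne'
    obtain ⟨u, hu⟩ := (Int.natCast_dvd_natCast.2 fM).trans d
    obtain ⟨v, hv⟩ := (Int.natCast_dvd_natCast.2 lM).trans d
    push_cast at hu hv
    exact ⟨f * u, by linear_combination hu, Dvd.intro _ rfl, v,
      mul_left_cancel₀ fz (by linear_combination hv - hu)⟩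
  have D1 (b : κ) : φ (h (G (a, b))) = ∑ n ∈ range c, L (n * mc c (β b)) := by
    obtain ⟨σ, τ, τ', τ'', x1, x2, x3, x4, x5⟩ := hR _ (G (a, b)).2
    obtain ⟨A', B', C', D', d, w⟩ := mv _ _ _ _ _ (hβ b) (hG a b) x1 x2 x3
    obtain ⟨C', rfl, d1, d2⟩ := lv d
    rw [x5, y2 c 1 (mul_one c).symm c0 l0 cl _ _ _ _ _ _ _ _ (mvf w fc h₂ x4) d2 (Dvd.intro _ rfl) d1
      ν ν' sh 0 0 0 0 (by simp) (by simp), lp la _ _ fun _ => mS _ _, map_sum]
    refine sum_congr rfl fun n _ => ?_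
    rw [← map_natCast (mc c), ← map_mul, hL, sn, sn]
    congr 3 <;> push_cast <;> ring
  simp only [D1]
  have un {x : Xc K c} : T ∣ (1 + T) ^ (ε x).val - 1 := by
    simpa using sub_dvd_pow_sub_pow (1 + T) 1 (ε x).val
  have ηm : ∀ x y, IsUnit x → IsUnit y → (1 + T) ^ (ε (x * y)).val =
      (1 + T) ^ (ε x).val * (1 + T) ^ (ε y).val := fun x y u v => by rw [εa x y u v, ch_add P]
  have ηn : ∀ n : ℤ, IsUnit (n : Xc K c) → (1 + T) ^ (ε n).val = 1 := fun n u => by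
    rw [εn n u, ZMod.val_zero, pow_zero]
  have g1 := grp (Xc K c) _ κ c m (fun x => (1 + T) ^ (ε x).val) L (fun b => mc c (β b)) T c0
    (fun n => by
      rw [← map_intCast (mc c), Ideal.Quotient.eq_zero_iff_mem, Ideal.mem_span_singleton]
      refine ⟨fun ⟨z, hz⟩ => ?_, fun ⟨z, hz⟩ => ⟨z, by exact_mod_cast congrArg (Int.cast : ℤ → 𝓞 K) hz⟩⟩
      obtain ⟨b, ⟨u, hu⟩, -⟩ := co.onto 1 0
      have := sm s n b
      rw [hz, mul_assoc, sn] at this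
      exact ⟨s (z * b) - n * u, by linear_combination -this - n * hu⟩)
    ηm ηn (fun b => by
      obtain ⟨u, hu, v, hv, w⟩ := Submodule.mem_sup.1 ((Ideal.eq_top_iff_one _).1 (hβ b).2)
      obtain ⟨z, rfl⟩ := Ideal.mem_span_singleton.1 hu
      refine IsUnit.of_mul_eq_one (mc c z) ?_
      rw [← map_mul, ← map_one (mc c), ← w, map_add, Ideal.Quotient.eq_zero_iff_mem.2 hv, add_zero])
    hu tr fun q n hq cq => by
      obtain ⟨t, ht, t1⟩ := ine q n hq cq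
      obtain ⟨u, y, u1, u2, u3⟩ := εt n (Dvd.intro_left _ cq.symm) t ht
      exact ⟨u, y, 1, u1, u2, isUnit_one, by simp [u3, t1, ZMod.val_one]⟩
  refine (dvd_iff_dvd_of_dvd_sub g1).2 ?_
  choose! π π' m1 m2 m3 m4 using fun q hq => (hQ q hq).2.2.2
  obtain ⟨c₀, hc⟩ := prod_primes_dvd c (fun q hq => (hQ q hq).1.prime) fun q hq => (hQ q hq).2.1
  let U : Q × Bool → 𝓞 K := fun x => cond x.2 (π x.1) (π' x.1)
  let U' : Q × Bool → 𝓞 K := fun x => cond x.2 (π' x.1) (π x.1)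
  have u1 (x : Q × Bool) : U x * U' x = (x.1 : ℕ) ∧ ¬ IsUnit (U x) ∧ ¬ IsUnit (U' x) := by
    obtain ⟨q, _ | _⟩ := x
    · exact ⟨(mul_comm _ _).trans (m1 _ q.2), m4 _ q.2, m3 _ q.2⟩
    · exact ⟨m1 _ q.2, m3 _ q.2, m4 _ q.2⟩
  have ud (x : Q × Bool) : U x ∣ ((x.1 : ℕ) : 𝓞 K) := Dvd.intro _ (u1 x).1
  have sp (x : Q × Bool) := spl K j iq M c x.1 τ₀ s t co (hQ _ x.1.2).1 (hQ _ x.1.2).2.1 _ _
    (u1 x).1 (u1 x).2.1 (u1 x).2.2
  have ce (x : Q × Bool) : c = x.1 * (c / x.1) := (Nat.mul_div_cancel' (hQ _ x.1.2).2.1).symm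
  have := loc (𝓞 K) _ (Q × Bool) c c₀ U (fun x => (c / x.1 : ℕ) * U' x) (fun x => x.1)
    (fun x => (1 + T) ^ (ε x).val) L T cz ?_ ?_ ?_ (by simpa using ηn 1 (by simp)) ηm
    (fun _ _ => un) ?_
  · rwa [Fintype.card_prod, Fintype.card_coe, Fintype.card_bool, mul_comm, hm] at this
  · rw [Fintype.prod_prod_type, prod_congr rfl fun q _ => (Fintype.prod_bool _).trans (m1 _ q.2),
      prod_coe_sort Q fun q => (q : 𝓞 K), ← Nat.cast_prod, ← Nat.cast_mul, mul_comm, ← hc]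
  · rintro ⟨q, b⟩ ⟨q', b'⟩ ne
    by_cases w : q = q'
    · subst w
      cases b <;> cases b'
      · exact absurd rfl ne
      · exact (m2 _ q.2).symm
      · exact m2 _ q.2
      · exact absurd rfl ne
    · exact ((((Nat.coprime_primes (hQ _ q.2).1 (hQ _ q'.2).1).2 fun z =>
        w (Subtype.ext z)).cast).of_isCoprime_of_dvd_left (ud (q, b))).of_isCoprime_of_dvd_right
        (ud (q', b'))
  · intro x
    refine ⟨?_, (hQ _ x.1.2).1, ud x, (u1 x).2.1, ?_, (sp x).1⟩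
    · rw [hc] at sq
      exact (((Nat.squarefree_mul_iff.1 sq).1.coprime_dvd_left
        (dvd_prod_of_mem _ x.1.2)).symm.cast).of_isCoprime_of_dvd_right (ud x)
    · rw [mul_assoc, mul_comm (U' x), (u1 x).1, ← Nat.cast_mul, mul_comm, ← ce x]
  · intro x y
    obtain ⟨b, rfl⟩ := Ideal.Quotient.mk_surjective y
    obtain ⟨A', B', C', D', d, w, r⟩ := (sp x).2
    obtain ⟨C', rfl, d1, d2⟩ := lv d
    have q := hQ _ x.1.2
    rw [← map_mul, hL, y2 _ _ (ce x) q.1.pos l0 (cl.coprime_dvd_left q.2.1) _ _ _ _ _ _ _ _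
      (mvf w (fc.coprime_dvd_right q.2.1) h₂ h₂) d2 (Dvd.intro _ rfl) d1 ν' ν' q.2.2.1 _ _ (s b)
      (f * t b) (by linear_combination (r b).1) (by linear_combination f * (r b).2),
      lp la _ _ fun _ => mS _ _, map_sum]
    refine sum_congr rfl fun n _ => ?_
    rw [← map_add, hL, map_add, map_add, sn, sn, sn, sn]
    congr 3 <;> ring

end Vale.Agent.P014Z.Tz
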