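import Vale.Agent.P014Z.Tz.St

/-! # P014Z, block TZ: the row `LNK` (helper93) -/

set_option autoImplicit false
set_option linter.all false

open UpperHalfPlane

noncomputable section

namespace Vale.Agent.P014Z.Tz

open P014T.Sg (ee ee_nat ee_int)
open Su

namespace Lq

theorem rei {Γ : Type} [CommGroup Γ] [Fintype Γ] (G : Γ → Γ → ℂ) (h : ∀ x y, G x y ≠ 0) (u : Γ)
    (c m : ℕ) (n : Γ → ℤ) : ∏ a, (∏ x, (G x (a * x⁻¹) ^ c / G x (u * (a * x⁻¹))) ^ m) ^ n a =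
      ∏ x, ∏ y, G x y ^ (m * (c * n (x * y) - n (u⁻¹ * (x * y)))) := by
  simp only [← Finset.prod_zpow, mul_sub, zpow_sub₀ (h _ _), div_pow, div_zpow]
  rw [Finset.prod_comm]
  refine Finset.prod_congr rfl fun x _ => ?_
  rw [Finset.prod_div_distrib, Finset.prod_div_distrib]
  congr 1
  · refine (Fintype.prod_equiv (Equiv.mulLeft x) _ _ fun y => ?_).symm
    simp only [Equiv.coe_mulLeft, mul_inv_cancel_comm, ← zpow_natCast, ← zpow_mul]
    congr 1; ring
  · refine (Fintype.prod_equiv (Equiv.mulLeft (u⁻¹ * x)) _ _ fun y => ?_).symm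
    simp only [Equiv.coe_mulLeft, ← zpow_natCast, ← zpow_mul, mul_assoc u⁻¹, mul_inv_cancel_left,
      mul_inv_cancel_comm]

variable {f : ℕ} [NeZero f] {τ : ℂ}

/-- the power depends on the classes only -/
def G (c : ℕ) (τ : ℂ) (x y : ZMod f) : ℂ := g12 (x.val / f) (y.val / f) τ ^ (f * c)

theorem per (h : 0 < τ.im) (c : ℕ) (x y : ZMod f) {Y : ℤ} (e : (Y : ZMod f) = y) :
    g12 (x.val / f) (Y / f) τ ^ (f * c) = G c τ x y := by
  have f0 : (f : ℂ) ≠ 0 := Nat.cast_ne_zero.2 (NeZero.ne f)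
  obtain ⟨t, e⟩ := (ZMod.intCast_eq_intCast_iff_dvd_sub (y.val : ℕ) Y f).1 (by simp [e])
  have := g12_lat h (x.val / f) (y.val / f) 0 t
  rw [Int.cast_zero, add_zero] at this
  rw [sub_eq_iff_eq_add'.1 e, G, show ((y.val + f * t : ℤ) : ℂ) / f = y.val / f + t by
    push_cast; field_simp, this, mul_pow, ← ee_nat, show ((f * c : ℕ) : ℂ) * (6 * (t * (x.val / f) -
      0 * (y.val / f))) = (6 * c * t * x.val : ℤ) by push_cast; field_simp; ring, ee_int, one_mul]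

theorem G_ne (hf : 1 < f) (h : 0 < τ.im) (c : ℕ) (x : (ZMod f)ˣ) (y : ZMod f) : G c τ x y ≠ 0 := by
  have := Fact.mk hf
  refine pow_ne_zero _ (g12_ne h ?_)
  simpa using nl (x := (x : ZMod f).val) (y := y.val) h (NeZero.ne f) fun k => x.ne_zero (by
    simpa using (ZMod.intCast_zmod_eq_zero_iff_dvd _ f).2 k.1)

theorem us_pow (c c₀ m : ℕ) (a : ZMod f) (τ : ℍ) {τ' : ℂ} (e : τ' = f * τ) (h : 0 < τ'.im) :
    us f c₀ m a τ ^ (f * c) = ∏ x : (ZMod f)ˣ,
      (G c τ' x.1 (a * x⁻¹.1) ^ c₀ / G c τ' x.1 (c₀ * (a * x⁻¹.1))) ^ m := by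
  rw [us, ← Finset.prod_pow, ← e]
  refine Finset.prod_congr rfl fun x _ => ?_
  rw [pow_right_comm, Rc, div_pow, pow_right_comm, ← per h c x.1 (c₀ * _)
    (Y := c₀ * (yy f a x).val) (by simp [yy])]
  simp only [G, yy, Int.cast_natCast, Int.cast_mul]

end Lq

open Lq in
theorem lnk : LNK := by
  intro f c c₀ m _ n ν u hf hc hu hν τ τ' e
  have c0 : (c : ℂ) ≠ 0 := Nat.cast_ne_zero.2 hc.ne'
  have q : ∀ x : ℕ, ((c * x + f * 0 : ℤ) : ℂ) / (f * c : ℕ) = x / f := fun x => by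
    push_cast; rw [mul_zero, add_zero, mul_comm (f : ℂ), mul_div_mul_left _ _ c0]
  have z : ∀ (F : (ZMod f)ˣ → ℂ) k, (∏ a, F a ^ n a) ^ k = ∏ a, (F a ^ k) ^ n a := fun F k => by
    rw [← Finset.prod_pow]
    simp only [← zpow_natCast, ← zpow_mul, mul_comm]
  refine ⟨?_, fun p τp _ ep => ?_⟩
  · simp only [z, us_pow c c₀ m _ τ e τ'.2, ← hu, yr, hν, pg, q]
    exact rei (fun x y : (ZMod f)ˣ => G c τ' x.1 y.1) (fun x y => G_ne hf τ'.2 c x y) u c₀ m n
  · have e' : (p * τ' : ℂ) = f * τp := by rw [e, ep]; ring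
    have h' : 0 < (p * τ' : ℂ).im := by
      simpa [e'] using mul_pos (by exact_mod_cast NeZero.pos f : (0 : ℝ) < f) τp.2
    have r : ∀ x y : (ZMod f)ˣ, pd p (f * c) (c * (x : ZMod f).val + f * 0)
        (c * (y : ZMod f).val + f * 0) τ' = G c τ' x.1 y.1 ^ p / G c (p * τ') x.1 (p * y.1) :=
        fun x y => by
      rw [pd, mul_div_assoc, q, q, div_pow, pow_right_comm, ← per h' c x.1 (p * y.1)
        (Y := p * (y : ZMod f).val) (by simp), G]
      push_cast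
      rw [mul_div_assoc]
    simp only [z, div_pow, pow_right_comm _ p, us_pow c c₀ m _ τ e τ'.2, us_pow c c₀ m _ τp e' h',
      ← hu, yr, hν, r]
    refine Eq.trans (Finset.prod_congr rfl fun a _ => congrArg (· ^ n a) ?_)
      (rei (fun x y : (ZMod f)ˣ => G c τ' x.1 y.1 ^ p / G c (p * τ') x.1 (p * y.1)) (fun x y =>
        div_ne_zero (pow_ne_zero _ (G_ne hf τ'.2 c x y)) (G_ne hf h' c x _)) u c₀ m n)
    rw [← Finset.prod_pow, ← Finset.prod_div_distrib]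
    refine Finset.prod_congr rfl fun x _ => ?_
    simp only [Units.val_mul, mul_assoc, mul_left_comm (p : ZMod f)]
    ring

end Vale.Agent.P014Z.Tz
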