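import Vale.Agent.P014Z.Tz.St
import Vale.Agent.P014Z.Su.Dis

/-! # P014Z, block TZ: the row `SYS` -/

set_option autoImplicit false
set_option linter.all false

open UpperHalfPlane Finset
open scoped MatrixGroups

noncomputable section

namespace Vale.Agent.P014Z.Tz

open P014T.Sg Su

namespace Ss

theorem sy1 {d : ℕ} (d0 : 0 < d) : Sy 1 d (pg d) := by
  have D : (d : ℂ) ≠ 0 := Nat.cast_ne_zero.2 d0.ne'
  refine ⟨fun γ _ x y τ => ?_, fun x y s t τ => ?_, fun n e h _ x y τ τ' k => ?_⟩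
  · rw [pg, pg, g12_law]
    push_cast
    congr 2 <;> ring
  · have e : ∀ u v : ℤ, ((u + d * v : ℤ) : ℂ) / d = u / d + v := fun u v => by
      push_cast
      field_simp
    rw [pg, pg, e, e, g12_lat τ.2, mul_pow, ← ee_nat,
      ee_one.2 ⟨6 * (t * x - s * y), by push_cast; field_simp⟩, one_mul]
  · simp only [pg]
    rw [prod_pow, dis1_pow τ.2 d0 h, k]

/-- multiplication by `p` permutes the residues -/
theorem perm {n p : ℕ} (c : n.Coprime p) (F : ℤ → ℂ) (h : ∀ k t : ℤ, F (k + n * t) = F k) :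
    ∏ k ∈ range n, F k = ∏ k ∈ range n, F (p * k) := by
  have i : Set.InjOn (fun k => p * k % n) (range n) := fun a m b m' e =>
    (Nat.ModEq.cancel_left_of_coprime c e).eq_of_lt_of_lt (mem_range.1 m) (mem_range.1 m')
  have e : (range n).image (fun k => p * k % n) = range n := eq_of_subset_of_card_le
    (fun a m => by
      obtain ⟨k, m', rfl⟩ := mem_image.1 m
      exact mem_range.2 (Nat.mod_lt _ (Nat.zero_lt_of_lt (mem_range.1 m'))))
    (card_image_of_injOn i).ge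
  conv_lhs => rw [← e, prod_image i]
  refine prod_congr rfl fun k _ => ?_
  rw [← h _ (p * k / n : ℕ)]
  congr 1
  exact_mod_cast Nat.mod_add_div _ _

/-- the point `p τ` -/
def mu {p : ℕ} (p0 : 0 < p) (τ : ℍ) : ℍ := ⟨p * τ, by
  simpa using mul_pos (Nat.cast_pos.2 p0 : (0 : ℝ) < p) τ.im_pos⟩

theorem pd_eq {p : ℕ} (p0 : 0 < p) (d : ℕ) (x y : ℤ) (τ : ℍ) :
    pd p d x y τ = pg d x y τ ^ p / pg d x (p * y) (mu p0 τ) := by
  rw [pd, pg, pg, div_pow, pow_right_comm, Int.cast_mul, Int.cast_natCast]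
  rfl

theorem mu_smul {p : ℕ} (p0 : 0 < p) (γ : SL(2, ℤ)) {c : ℤ} (h : γ 1 0 = p * c) :
    ∃ γ' : SL(2, ℤ), γ' 0 0 = γ 0 0 ∧ γ' 0 1 = p * γ 0 1 ∧ γ' 1 0 = c ∧ γ' 1 1 = γ 1 1 ∧
      ∀ τ, mu p0 (γ • τ) = γ' • mu p0 τ := by
  have d := (Matrix.det_fin_two _).symm.trans γ.det_coe
  obtain ⟨γ', e⟩ : ∃ γ' : SL(2, ℤ), γ'.1 = !![γ 0 0, p * γ 0 1; c, γ 1 1] := ⟨⟨_, by
    rw [Matrix.det_fin_two_of]
    rw [h] at d
    linear_combination d⟩, rfl⟩
  have a1 : γ' 0 0 = γ 0 0 := congrFun₂ e 0 0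
  have a2 : γ' 0 1 = p * γ 0 1 := congrFun₂ e 0 1
  have a3 : γ' 1 0 = c := congrFun₂ e 1 0
  have a4 : γ' 1 1 = γ 1 1 := congrFun₂ e 1 1
  refine ⟨γ', a1, a2, a3, a4, fun τ => UpperHalfPlane.ext ?_⟩
  show (p : ℂ) * (γ • τ : ℍ) = _
  rw [coe_specialLinearGroup_apply, coe_specialLinearGroup_apply, h, a1, a2, a3, a4]
  show _ = ((_ : ℂ) * (p * τ) + _) / ((_ : ℂ) * (p * τ) + _)
  simp only [eq_intCast]
  push_cast
  rw [← mul_div_assoc]
  congr 1 <;> ring

end Ss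

open Ss in
theorem sys : SYS := fun d d0 => ⟨sy1 d0, fun p p0 => by
  have S := sy1 d0
  refine ⟨fun γ ⟨c, h⟩ x y τ => ?_, fun x y s t τ => ?_, fun n e h c x y τ τ' k => ?_⟩
  · obtain ⟨γ', a1, a2, a3, a4, a5⟩ := mu_smul p0 γ h
    rw [pd_eq p0, pd_eq p0, a5, S.law γ (one_dvd _), S.law γ' (one_dvd _), a1, a2, a3, a4, h]
    congr 2 <;> ring
  · rw [pd_eq p0, pd_eq p0, S.per, mul_add, mul_left_comm, S.per]
  · simp only [pd_eq p0]
    rw [prod_div_distrib, prod_pow, ← S.dis n e h (Nat.coprime_one_right n) x y τ τ' k,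
      mul_left_comm, S.dis n e h (Nat.coprime_one_right n) x (p * y) (mu p0 τ) (mu p0 τ') (by
        show (p : ℂ) * τ' = n * (p * τ)
        rw [k, mul_left_comm]),
      perm c (fun k => pg d x (p * y + k * e) (mu p0 τ)) fun k t => by
        rw [← S.per x (p * y + k * e) 0 t, mul_zero, add_zero, h]
        congr 1
        push_cast
        ring]
    congr 1
    refine prod_congr rfl fun k _ => ?_
    congr 1
    ring⟩

end Vale.Agent.P014Z.Tz
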