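import Vale.Agent.P014Z.Tz.St

/-! # P014Z, block TZ: the distribution law for a cyclic isogeny (helper4) -/

set_option autoImplicit false
set_option linter.all false

open UpperHalfPlane
open scoped MatrixGroups Classical

noncomputable section

namespace Vale.Agent.P014Z.Tz

theorem Dis.ex_cop {c d n : ℤ} (c0 : c ≠ 0)
    (h : ∀ q : ℕ, q.Prime → (q : ℤ) ∣ c → (q : ℤ) ∣ d → ¬ (q : ℤ) ∣ n) :
    ∃ t, IsCoprime (d + t * n) c := by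
  refine ⟨∏ p ∈ c.natAbs.primeFactors.filter fun p : ℕ => ¬ (p : ℤ) ∣ d, (p : ℤ),
    Int.isCoprime_iff_gcd_eq_one.2 <|
    Nat.Coprime.gcd_eq_one (Nat.coprime_of_dvd fun q hq a b => ?_)⟩
  have i := Nat.prime_iff_prime_int.1 hq
  replace a := Int.natCast_dvd.2 a
  by_cases e : (q : ℤ) ∣ d
  · rcases i.dvd_or_dvd ((dvd_add_right e).1 a) with k | k
    · obtain ⟨p, m, k⟩ := (i.dvd_finset_prod_iff _).1 k
      obtain ⟨m, m'⟩ := Finset.mem_filter.1 m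
      rw [← (Nat.prime_dvd_prime_iff_eq hq (Nat.prime_of_mem_primeFactors m)).1
        (Int.natCast_dvd_natCast.1 k)] at m'
      exact m' e
    · exact h q hq (Int.natCast_dvd.2 b) e k
  · exact e ((dvd_add_left (Dvd.dvd.mul_right (Finset.dvd_prod_of_mem _ (Finset.mem_filter.2
      ⟨Nat.mem_primeFactors.2 ⟨hq, b, Int.natAbs_ne_zero.2 c0⟩, e⟩)) _)).1 a)

/-- a row of `Γ₀(l)` congruent to `w` modulo `n` -/
theorem Dis.row {n l : ℕ} (n0 : 0 < n) (l0 : 0 < l) (h : n.Coprime l) {w₁ w₂ : ℤ}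
    (pr : ∃ u v : ℤ, (n : ℤ) ∣ u * w₁ + v * w₂ - 1) :
    ∃ a b s t : ℤ, a * (w₂ + n * t) - b * (w₁ + n * s) = 1 ∧ (l : ℤ) ∣ w₁ + n * s := by
  obtain ⟨u, v, pr⟩ := pr
  obtain ⟨α, β, e⟩ := Nat.isCoprime_iff_coprime.2 h
  obtain ⟨s, s0, hs⟩ : ∃ s : ℤ, w₁ + n * s ≠ 0 ∧ (l : ℤ) ∣ w₁ + n * s := by
    by_cases z : w₁ + n * (-α * w₁) = 0
    · refine ⟨-α * w₁ + l, ?_, n, by linear_combination z⟩
      rw [mul_add, ← add_assoc, z, zero_add]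
      positivity
    · exact ⟨_, z, β * w₁, by linear_combination (-w₁) * e⟩
  obtain ⟨t, a, b, k⟩ := Dis.ex_cop (d := w₂) (n := n) s0 fun q hq h1 h2 h3 =>
    (Nat.prime_iff_prime_int.1 hq).not_dvd_one (by
      have := ((((dvd_add_left (h3.mul_right s)).1 h1).mul_left u).add (h2.mul_left v)).sub
        (h3.trans pr)
      rwa [sub_sub_cancel] at this)
  exact ⟨a, -b, s, t, by linear_combination k, hs⟩

theorem Dis.den {a b c d : ℤ} (h : a * d - b * c ≠ 0) (z : ℍ) : (c * z + d : ℂ) ≠ 0 := fun k => by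
  have i := congrArg Complex.im k
  have r := congrArg Complex.re k
  simp [z.im_ne_zero] at i
  simp [i] at r
  simp [i, r] at h

theorem Dis.sm {a b c d : ℤ} (h : a * d - b * c = 1) :
    ∃ γ : SL(2, ℤ), γ 0 0 = a ∧ γ 0 1 = b ∧ γ 1 0 = c ∧ γ 1 1 = d ∧
      ∀ z : ℍ, ((γ • z : ℍ) : ℂ) * (c * z + d) = a * z + b := by
  obtain ⟨γ, e1, e2, e3, e4⟩ : ∃ γ : SL(2, ℤ), γ 0 0 = a ∧ γ 0 1 = b ∧ γ 1 0 = c ∧ γ 1 1 = d :=
    ⟨⟨!![a, b; c, d], by rw [Matrix.det_fin_two_of, h]⟩, rfl, rfl, rfl, rfl⟩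
  refine ⟨γ, e1, e2, e3, e4, fun z => ?_⟩
  rw [coe_specialLinearGroup_apply, ← eq_div_iff (Dis.den (by rw [h]; exact one_ne_zero) z),
    e1, e2, e3, e4]
  simp

theorem dis : DIS := by
  rintro l d Ψ S n e hd n0 l0 hc A B C D w₁ w₂ τ τ'
    ⟨det, eq, pr, ⟨α, ⟨A₁, hA⟩, ⟨B₁, hB⟩⟩, ⟨β, ⟨C₁, hC⟩, ⟨D₁, hD⟩⟩⟩ lC x y x₀ y₀ hx hy
  obtain ⟨a, b, s, t, k, ls⟩ := Dis.row n0 l0 hc pr
  have nz : (n : ℤ) ≠ 0 := by positivity
  obtain ⟨c₂, hc₂⟩ : ∃ c₂, c₂ = w₁ + n * s := ⟨_, rfl⟩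
  obtain ⟨d₂, hd₂⟩ : ∃ d₂, d₂ = w₂ + n * t := ⟨_, rfl⟩
  rw [← hc₂] at k ls
  rw [← hd₂] at k
  obtain ⟨A', hA'⟩ : ∃ A', n * A' = A * d₂ - B * c₂ :=
    ⟨A₁ * d₂ - B₁ * c₂ + α * (w₁ * t - w₂ * s), by
      rw [hc₂, hd₂]; linear_combination (-(w₂ + n * t)) * hA + (w₁ + n * s) * hB⟩
  obtain ⟨C', hC'⟩ : ∃ C', n * C' = C * d₂ - D * c₂ :=
    ⟨C₁ * d₂ - D₁ * c₂ + β * (w₁ * t - w₂ * s), by
      rw [hc₂, hd₂]; linear_combination (-(w₂ + n * t)) * hC + (w₁ + n * s) * hD⟩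
  have k' : A' * (D * a - C * b) - (B * a - A * b) * C' = 1 := mul_left_cancel₀ nz (by
    linear_combination (D * a - C * b) * hA' - (B * a - A * b) * hC' + (A * D - B * C) * k + det)
  obtain ⟨γ₂, e1, e2, e3, e4, h2⟩ := Dis.sm k
  obtain ⟨γ₁, f1, f2, f3, f4, h1⟩ := Dis.sm k'
  let τ₃ : ℍ := ⟨n * ((γ₂ • τ : ℍ) : ℂ), by
    simpa using mul_pos (Nat.cast_pos.2 n0 : (0 : ℝ) < n) (γ₂ • τ).im_pos⟩
  have t3 : (τ₃ : ℂ) = n * ((γ₂ • τ : ℍ) : ℂ) := rfl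
  have et : τ' = γ₁ • τ₃ := by
    apply UpperHalfPlane.ext
    apply mul_left_cancel₀ (Dis.den (a := A) (b := B) (c := C) (d := D) (by rw [det]; exact nz) τ)
    have h1 := h1 τ₃
    have h2 := h2 τ
    have kc := congrArg (Int.cast : ℤ → ℂ) k
    have ha := congrArg (Int.cast : ℤ → ℂ) hA'
    have hc := congrArg (Int.cast : ℤ → ℂ) hC'
    rw [t3] at h1
    generalize ((γ₁ • τ₃ : ℍ) : ℂ) = Z at h1 ⊢
    generalize ((γ₂ • τ : ℍ) : ℂ) = W at h1 h2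
    push_cast at h1 kc ha hc
    linear_combination eq - (c₂ * τ + d₂) * h1 + (Z * C' * n - A' * n) * h2 +
      (a * τ + b) * (Z * hc - ha) + (Z * (C * τ + D) - (A * τ + B)) * kc
  have lC' : (l : ℤ) ∣ C' := (Nat.isCoprime_iff_coprime.2 hc).symm.dvd_of_dvd_mul_left
    (hC' ▸ (lC.mul_right _).sub (ls.mul_left _))
  rw [et, S.law γ₁ (f3 ▸ lC'), f1, f2, f3, f4,
    show x * (B * a - A * b) + y * (D * a - C * b) = n * (y₀ * a - x₀ * b) by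
      linear_combination a * hy - b * hx, S.dis n e hd hc _ _ _ _ t3]
  refine Finset.prod_congr rfl fun i _ => ?_
  have hx' : x * A' + y * C' = x₀ * d₂ - y₀ * c₂ := mul_left_cancel₀ nz (by
    linear_combination x * hA' + y * hC' + d₂ * hx - c₂ * hy)
  rw [S.law γ₂ (e3 ▸ ls), e1, e2, e3, e4, hx', ← S.per (x₀ + i * e * w₁) _ (i * s) (i * t), hd]
  congr 1
  · push_cast
    linear_combination x₀ * k + (i * e : ℤ) * hc₂
  · push_cast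
    linear_combination y₀ * k + (i * e : ℤ) * hd₂

end Vale.Agent.P014Z.Tz
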