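import Vale.Agent.P014Z.Gl.Dat
import Vale.Agent.P014Z.Rp.Fac0
import Vale.Agent.P014T.Kx.Tr1
import Vale.Agent.P004R.Ly

/-! # P014Z, block TZ: the frame of a level (helper29) -/

set_option autoImplicit false
set_option linter.all false

noncomputable section

namespace Vale.Agent.P014Z.Tz.Fr

open NumberField
open Vale.Agent.P022 (Qb GQ GK below)
open Vale.Agent.P027M.S (Inert)
open Vale.Agent.P022D.W (dec)
open Vale.Agent.P022E.GW (Ov Fb)
open Vale.Agent.P014U P004K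
open P014Y.F (Crv Fld)
open P004F.Qx (Sp)
open Gl

section

variable {K : Type} [Field K] [NumberField K] {j : K →+* Qb} {q c : ℕ} {P : Ideal (𝓞 Qb)} {g : GQ}

theorem nm (o : Ov q P) (n : ¬ q ∣ c) : P ≠ ⊥ ∧ (c : 𝓞 Qb) ∉ P :=
  have l0 : (q : 𝓞 Qb) ≠ 0 := by exact_mod_cast o.1.ne_zero
  ⟨fun k => l0 (by simpa [k] using o.2.2),
    fun k => n (by exact_mod_cast P004S.ov_dvd o (a := c) (by exact_mod_cast k))⟩

/-- ring class fields are unramified outside the conductor -/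
theorem unr (r2 : RC2) (iq : Iq K) (c0 : 0 < c) (o : Ov q P) (n : ¬ q ∣ c) (m : g ∈ GK j)
    (i : Inert P g) : g ∈ Hc j c := by
  obtain ⟨-, -, -, -, a, -, b⟩ := r2 K j iq c c0
  have d := b P o.2.1 (nm o n).1 (nm o n).2 g m 0 fun x => by rw [pow_zero, pow_one]; exact i x
  rw [pow_zero, Ideal.one_eq_top] at d
  exact (a _ g (P004R.cop_top c) d).2 ⟨1, 0, by simp⟩

/-- **a split prime with Frobenius element in the group of the class field is principal** -/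
theorem prin (r2 : RC2) (iq : Iq K) {n : ℕ} (ty : Typ K q n) (o : Ov q P) (f : Fb q P g)
    (m : g ∈ Hc j 1) : ∃ π π' : 𝓞 K, π * π' = q ∧ IsCoprime π π' ∧ ¬ IsUnit π ∧ ¬ IsUnit π' := by
  obtain ⟨N, L', h1, h2, h3, h4⟩ := P014T.Kx.T1.split j iq o f m.1 ty
  obtain ⟨-, -, -, -, a, -, b⟩ := r2 K j iq 1 one_pos
  have q0 : (q : 𝓞 K) ≠ 0 := by exact_mod_cast o.1.ne_zero
  have n1 := nm o o.1.not_dvd_one
  have d := b P o.2.1 n1.1 n1.2 g m.1 1 fun x => by rw [pow_one, N]; exact f x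
  rw [pow_one] at d
  obtain ⟨k, x, e⟩ := (a _ g ⟨fun k => q0 (by
    rwa [k, Ideal.bot_mul, eq_comm, Ideal.span_singleton_eq_bot] at h4), by simp⟩ d).1 m
  generalize (k : 𝓞 K) + (1 : ℕ) * x = π at e
  rw [e] at h1 h2 h4
  obtain ⟨π', p⟩ := Ideal.mem_span_singleton.1
    ((h4.ge.trans Ideal.mul_le_left) (Ideal.mem_span_singleton_self _))
  have π0 : π ≠ 0 := fun k => q0 (by rw [p, k, zero_mul])
  obtain rfl : L' = Ideal.span {π'} := mul_left_cancel₀ (mt Ideal.span_singleton_eq_bot.1 π0)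
    (by rw [h4, p, Ideal.span_singleton_mul_span_singleton])
  exact ⟨π, π', p.symm, (Ideal.isCoprime_span_singleton_iff _ _).1
    (Ideal.isCoprime_iff_sup_eq.2 h1), mt Ideal.span_singleton_eq_top.2 h2,
    mt Ideal.span_singleton_eq_top.2 h3⟩

end

variable [Pp] {e : Crv} {D : Da e} {b : Fld e} {n : ℕ}

/-- the primes of `f p` -/
theorem sup (D : Da e) (l : ℕ) (p : l.Prime) (d : l ∣ D.f * pp) : l ∈ e.S :=
  (p.dvd_mul.1 d).elim (D.dc.sup l p) fun k =>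
    (Nat.prime_dvd_prime_iff_eq p pp_prime).1 k ▸ e.pm

theorem sp1 (D : Da e) (b : Fld e) : ∃ I', Sp (D.f ^ 2) (Fi b D.f) I' :=
  ⟨_, Dt.sp_fi b (NeZero.ne _) D.dc.sup⟩

theorem sp2 (D : Da e) (b : Fld e) : ∃ I', Sp ((D.f * pp) ^ 2) (Fi b (D.f * pp)) I' :=
  ⟨_, Dt.sp_fi b (mul_ne_zero (NeZero.ne _) pp_prime.ne_zero) (sup D)⟩

/-- the ideal of the level lies below the chosen places -/
theorem fi_le (b : Fld e) {f l : ℕ} (f0 : f ≠ 0) (p : l.Prime) (d : l ∣ f) :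
    Fi b f ≤ below b.j (e.P l) :=
  (Ideal.le_of_dvd (Finset.dvd_prod_of_mem _ (Nat.mem_primeFactors.2 ⟨p, d, f0⟩))).trans
    (Ideal.pow_le_self (mul_ne_zero two_ne_zero (p.factorization_pos_of_dvd f0 d).ne'))

theorem le2 (D : Da e) (b : Fld e) : Fi b (D.f * pp) ≤ below b.j (e.P pp) :=
  fi_le b (mul_ne_zero (NeZero.ne _) pp_prime.ne_zero) pp_prime (dvd_mul_left _ _)

variable {η : Ch} {c : ℕ} {χ : GQ → ZMod (pp ^ (n + 1))} {γ : GQ}

theorem cop (z : Lz b D.η n c χ γ) : c.Coprime (D.f * pp) := Dt.cop z (sup D)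

/-- total ramification -/
theorem ram (r2 : RC2) (z : Lz b η n c χ γ) (q m : ℕ) (p : q.Prime) (h : c = q * m) :
    ∃ t ∈ Hc b.j m, χ t = 1 := by
  obtain ⟨P, hP, a⟩ := P022.H916.exists_prime p
  have o : Ov q P := ⟨p, hP, a⟩
  obtain ⟨t, i, k⟩ := z.ly.ram q P o ⟨m, h⟩
  refine ⟨t, unr r2 b.iq (Nat.pos_of_ne_zero fun e => z.ly.c0 (by rw [h, e, mul_zero])) o
    (fun ⟨u, e⟩ => p.one_lt.ne' (Nat.isUnit_iff.1 (z.sq q ⟨u, by rw [h, e, mul_assoc]⟩)))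
    (z.hc q P o ⟨m, h⟩ (P004R.inert_dec hP i)).1.1 i, ?_⟩
  simpa using (ZMod.natCast_eq_natCast_iff _ _ _).2 k

/-- **the primes of the conductor** -/
theorem prm (r2 : RC2) (z : Lz b D.η n c χ γ) (q : ℕ) (p : q.Prime) (d : q ∣ c) :
    D.ψ q = 1 ∧ ∃ π π' : 𝓞 b.K, π * π' = q ∧ IsCoprime π π' ∧ ¬ IsUnit π ∧ ¬ IsUnit π' := by
  obtain ⟨P, hP, a⟩ := P022.H916.exists_prime p
  have o : Ov q P := ⟨p, hP, a⟩
  obtain ⟨-, φ, -, f, m⟩ := P004R.Mu.ex_st o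
  have s : q ∉ e.S := fun k => (z.ly.out q p d).1 (List.mem_toFinset.2 k)
  have le := z.hc q P o d
  exact ⟨(D.dc.eq φ q fun ζ => P014T.Dr.root_cong o (fun k => s (D.dc.sup q p k)) f).symm.trans
    (le m).2, prin r2 b.iq (Rp.Fc.typ b o (fun k => s (k ▸ e.two)) fun g k => (le k).1.1).2 o f
      (le m).1⟩

theorem psi (r2 : RC2) (z : Lz b D.η n c χ γ) {m : ℕ} (d : m ∣ c) : D.ψ m = 1 := by
  induction m using Nat.recOnMul with
  | zero => exact absurd (zero_dvd_iff.1 d) z.ly.c0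
  | one => rw [Nat.cast_one, map_one]
  | prime q p => exact (prm r2 z q p d).1
  | mul x y hx hy => rw [Nat.cast_mul, map_mul, hx ((dvd_mul_right x y).trans d),
      hy ((dvd_mul_left y x).trans d), one_mul]

end Vale.Agent.P014Z.Tz.Fr
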