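import Vale.Agent.P014Z.Tz.St
import Vale.Agent.P004K.Hg.He

/-! # P014Z, block TZ, row GEO: the points of conductor `c` over a point of conductor one
(helper29) -/

set_option autoImplicit false
set_option linter.all false

open UpperHalfPlane NumberField

noncomputable section

namespace Vale.Agent.P014Z.Tz

open Vale.Agent.P022 (Qb GQ GK)
open P027H P027M.M P004K P004K.Hg

namespace Geo

variable {O : Type} [CommRing O] {J : O →+* ℂ} {b I : Ideal O} {β : O} {c M : ℕ} {z ω : ℂ}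
  {Λ : Submodule ℤ ℂ} {τ τ' : ℍ}

theorem j_O (a : O) : J a ∈ Oc J 1 := ⟨0, a, by simp⟩

theorem mul_O {x : ℂ} (a : O) (h : x ∈ Oc J 1) : J a * x ∈ Oc J 1 := mul_Oc (j_O a) h

theorem le_O (h : z ∈ Oc J c) : z ∈ Oc J 1 := Oc_le (l := c) (by rwa [one_mul])

theorem mem_L : z ∈ st J b (Oc J 1) ↔ ∀ a ∈ b, J a * z ∈ Oc J 1 :=
  forall₂_congr fun a _ => ⟨fun h => h fun _ => mul_O a, fun h _ => h⟩

theorem mul_L (a : O) (h : z ∈ st J b (Oc J 1)) : J a * z ∈ st J b (Oc J 1) :=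
  st_end (fun _ => mul_O a) _ h

theorem one_of (h : Cop c b) : ∃ y : O, 1 + c * y ∈ b := by
  obtain ⟨a, m, _, n, e⟩ := Submodule.mem_sup.1 (h.2.ge Submodule.mem_top : (1 : O) ∈ _)
  obtain ⟨y, rfl⟩ := Ideal.mem_span_singleton'.1 n
  exact ⟨-y, by rwa [show 1 + c * -y = a by linear_combination -e]⟩

/-- `β (b β)⁻¹ O_c = ℤ β + c b⁻¹` -/
theorem key (h : Cop c b) (h' : Cop c (Ideal.span {β})) (b0 : J β ≠ 0) :
    z ∈ st J (b * Ideal.span {β}) (Oc J c) ↔
      ∃ k : ℤ, ∃ x ∈ st J b (Oc J 1), J β * z = k * J β + c * x := by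
  constructor
  · intro hz
    obtain ⟨y₁, m₁⟩ := one_of h
    obtain ⟨y₂, m₂⟩ := one_of h'
    obtain ⟨y, e⟩ : ∃ y : O, (1 + c * y₁) * (1 + c * y₂) = 1 + c * y :=
      ⟨y₁ + y₂ + c * y₁ * y₂, by ring⟩
    have m := hz _ (e ▸ Ideal.mul_mem_mul m₁ m₂) (end_Oc.2 ⟨1, y, by simp⟩)
    have l : J β * z ∈ st J b (Oc J 1) := mem_L.2 fun a ha => mem_of_eq (sub_mem
      (mul_O (a * β) (le_O m)) (mul_O y (le_O (hz (c * (a * β)) (Ideal.mul_mem_left _ _
        (Ideal.mul_mem_mul ha (Ideal.mem_span_singleton_self β))) (kl_Oc _)))))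
      (by simp; ring)
    obtain ⟨k, y', p⟩ := m
    refine ⟨k, J (β * y') - J y * (J β * z), sub_mem (le_st (j_O _)) (mul_L y l), ?_⟩
    simp only [map_mul, map_add, map_one, map_natCast] at p ⊢
    linear_combination J β * p
  · rintro ⟨k, x, m, e⟩ a ha p
    obtain ⟨a', n, rfl⟩ := Ideal.mem_mul_span_singleton.1 ha
    obtain ⟨y, q⟩ := ex_J (mem_L.1 m a' n)
    refine mem_of_eq (add_mem (p _ (int_Oc k)) (c_Oc y)) ?_
    rw [q, map_mul]
    linear_combination J a' * e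

/-- the level structure -/
theorem lev (hM : 0 < M) (h : Hom ω (lat τ) Λ) {C D : ℤ}
    (k : ω * (C * τ + D) / M ∈ ov Λ (ω / M)) : (M : ℤ) ∣ C := by
  obtain ⟨a, e⟩ := mem_ov.1 k
  exact ((div_mem (τ := τ) hM (a := C) (b := D - a)).1 ((h.2 _).2 (mem_of_eq e (by
    push_cast; ring)))).1

theorem det_pos {A B C D : ℤ} (e : (C * τ + D : ℂ) * τ' = A * τ + B) (n : (C * τ + D : ℂ) ≠ 0) :
    0 < A * D - B * C := by
  have p := Complex.normSq_pos.2 n
  have e1 := congrArg Complex.re e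
  have e2 := congrArg Complex.im e
  rw [Complex.normSq_apply] at p
  simp at e1 e2 p
  have : ((A * D - B * C : ℤ) : ℝ) * τ.im = ((C * τ.re + D) * (C * τ.re + D) +
      C * τ.im * (C * τ.im)) * τ'.im := by
    push_cast
    linear_combination C * τ.im * e1 - (C * τ.re + D) * e2
  exact_mod_cast (pos_iff_pos_of_mul_pos (this ▸ mul_pos p τ'.im_pos)).2 τ.im_pos

end Geo

open Geo

/-- **the points of conductor `c` over a point of conductor one** -/
theorem geo (hI : IQ) (hJ : JH) (h1 : P004K.RC1) : GEO := by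
  intro K _ _ j q M c I b hM hc co hn cb g₀ σ₀ τ₁ τ₀ ar₀ ex₀ hp₀ cj₀
  obtain ⟨η, B⟩ := bs hI q j
  have pt : ∀ (c : ℕ) (b : Ideal (𝓞 K)) g σ τ τ', 0 < c → b ≠ ⊥ → Ar j c b g → Ex σ g →
      Hp (JJ j) M I c τ → Cj0 σ M τ τ' → ∃ ω, Hom ω (lat τ') (st (JJ j) b (Oc (JJ j) c)) ∧
        st (JJ j) I (st (JJ j) b (Oc (JJ j) c)) = ov (st (JJ j) b (Oc (JJ j) c)) (ω / M) :=
    fun c b g σ τ τ' hc n ar ex hp cj => by
      obtain ⟨ψ, t⟩ := tp_of_j hJ (σ := σ) (B.lat hc) ((B.lat hc).of_between (le_st (J := JJ j))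
        (Nat.pos_of_ne_zero (mt Ideal.absNorm_eq_zero_iff.1 n)) fun z hz => by
          exact_mod_cast st_int (m := Ideal.absNorm b) (by exact_mod_cast b.absNorm_mem) hz)
        (by rw [ar_j h1 q hc ex, ar.2])
      exact at_iff.1 ((st_cj hM hp t (ex.JJ ar.1)).2 cj)
  obtain ⟨ω, h, lv⟩ := pt 1 b g₀ σ₀ τ₁ τ₀ one_pos cb.1 ar₀ ex₀ hp₀ cj₀
  have w0 := h.1
  have crd : ∀ x ∈ st (JJ j) b (Oc (JJ j) 1), ∃ u v : ℤ, x = ω * (u * τ₀ + v) := fun x m => by
    obtain ⟨u, v, e⟩ := mem_lat.1 ((h.symm.2 _).1 m)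
    exact ⟨u, v, by rw [e]; field_simp⟩
  have uq : ∀ {u v u' v' : ℤ}, ω * (u * τ₀ + v) = ω * (u' * τ₀ + v') → u = u' ∧ v = v' :=
    fun e => ind (mul_left_cancel₀ w0 e)
  choose s t st' using fun β : 𝓞 K => crd _ (le_st (j_O β))
  have ad : ∀ x y, s (x + y) = s x + s y ∧ t (x + y) = t x + t y := fun x y => uq (by
    rw [← st', map_add, st' x, st' y]; push_cast; ring)
  have C0 : Co j M c τ₀ (AddMonoidHom.mk' s fun x y => (ad x y).1)
      (AddMonoidHom.mk' t fun x y => (ad x y).2) := by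
    refine ⟨fun π => ?_, fun u v => ?_⟩
    · obtain ⟨A, B, e1⟩ := crd _ (mul_L π ((h.2 _).1 self_lat))
      obtain ⟨C, D, e2⟩ := crd _ (mul_L π ((h.2 _).1 one_lat))
      refine ⟨A, B, C, D, lev hM h (lv ▸ mem_of_eq (st_end (fun _ => mul_L π) _
        (lv.ge self_ov)) (by rw [← e2]; ring)), mul_left_cancel₀ w0 (by linear_combination e1),
        mul_left_cancel₀ w0 (by linear_combination e2), fun β => uq ?_⟩
      simp only [AddMonoidHom.mk'_apply]
      rw [← st', map_mul, st' β]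
      push_cast
      linear_combination s β * e1 + t β * e2
    · obtain ⟨y, m⟩ := one_of cb
      have x := (h.2 _).1 (lat_mem u v)
      obtain ⟨β, e⟩ := ex_J (mem_L.1 x _ m)
      obtain ⟨u', v', e'⟩ := crd _ (mul_L y x)
      have := uq (u := s β) (v := t β) (u' := u + c * u') (v' := v + c * v') (by
        rw [← st', e]
        simp only [map_add, map_mul, map_one, map_natCast]
        push_cast
        linear_combination c * e')
      exact ⟨β, ⟨u', by simp [this.1]⟩, v', by simp [this.2]⟩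
  refine ⟨_, _, C0, fun β g σ τ τ' cβ ar ex hp cj => ?_⟩
  simp only [AddMonoidHom.mk'_apply]
  have b0 : JJ j β ≠ 0 := fun e => cβ.1 (Ideal.span_singleton_eq_bot.2 (B.inj (by rw [e, map_zero])))
  obtain ⟨ω', h', lv'⟩ := pt c _ g σ τ τ' hc (mul_ne_zero cb.1 cβ.1) ar ex hp cj
  have tw : ∀ z ∈ st (JJ j) (b * Ideal.span {β}) (Oc (JJ j) c), ∃ A B a : ℤ,
      JJ j β * z = ω * (A * τ₀ + B) ∧ (c : ℤ) ∣ A - a * s β ∧ (c : ℤ) ∣ B - a * t β := fun z m => by
    obtain ⟨k, x, n, e⟩ := (key cb cβ b0).1 m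
    obtain ⟨u, v, rfl⟩ := crd x n
    refine ⟨k * s β + c * u, k * t β + c * v, k, ?_, ⟨u, by ring⟩, v, by ring⟩
    rw [e, st' β]
    push_cast
    ring
  obtain ⟨A, B', a, e1, r1⟩ := tw _ ((h'.2 _).1 self_lat)
  obtain ⟨C, D, a', e2, r2⟩ := tw _ ((h'.2 _).1 one_lat)
  have fr : ∀ k u v : ℤ, ∃ x y : ℤ, x * A + y * C = k * s β + c * u ∧
      x * B' + y * D = k * t β + c * v := fun k u v => by
    obtain ⟨x, y, e⟩ := mem_lat.1 ((h'.symm.2 ((k * JJ j β + c * (ω * (u * τ₀ + v))) / JJ j β)).1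
      ((key cb cβ b0).2 ⟨k, _, (h.2 _).1 (lat_mem u v), mul_div_cancel₀ _ b0⟩))
    have w1 := h'.1
    refine ⟨x, y, uq ?_⟩
    field_simp at e
    push_cast
    linear_combination e - x * e1 - y * e2 + k * st' β
  have pr : ∃ u v : ℤ, (c : ℤ) ∣ u * s β + v * t β - 1 := by
    obtain ⟨y, m⟩ := one_of cβ
    obtain ⟨y', e⟩ := Ideal.mem_span_singleton'.1 m
    obtain ⟨β₁, ⟨u, d⟩, -⟩ := C0.onto 1 0
    obtain ⟨A, _, C, _, -, -, -, k⟩ := C0.mul (y' * β₁)
    have := (k β).1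
    rw [show β * (y' * β₁) = β₁ + c • (y * β₁) by
      rw [nsmul_eq_mul]; linear_combination β₁ * e, map_add, map_nsmul, nsmul_eq_mul] at this
    simp only [AddMonoidHom.mk'_apply] at this d
    exact ⟨A, C, u + s (y * β₁), by linear_combination d - this⟩
  have eq : (C * τ₀ + D : ℂ) * τ' = A * τ₀ + B' :=
    mul_left_cancel₀ w0 (by linear_combination e1 - τ' * e2)
  have n0 : (C * τ₀ + D : ℂ) ≠ 0 := fun e => mul_ne_zero b0 h'.1 (by
    rw [e] at e2; linear_combination e2)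
  have le : ∀ z ∈ st (JJ j) (b * Ideal.span {β}) (Oc (JJ j) c),
      JJ j β * z ∈ st (JJ j) b (Oc (JJ j) 1) := fun z m => by
    obtain ⟨A, B, -, e, -⟩ := tw z m
    exact e ▸ (h.2 _).1 (lat_mem A B)
  refine ⟨A, B', C, D, lev (D := D) hM h (lv.le fun x m p => bez (Nat.isCoprime_iff_coprime.2 co) ?_ ?_),
    ?_, eq, pr, ⟨a, r1⟩, a', r2⟩
  · refine mem_of_eq (le _ (lv'.ge self_ov _ (I.mul_mem_left c m) (st_end (kl_Oc x)))) ?_
    rw [← e2]
    simp only [map_mul, map_natCast]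
    push_cast
    ring
  · refine mem_of_eq (p _ (le _ (st_int ((hn.1 M).2 dvd_rfl) (lv'.ge self_ov)))) ?_
    rw [← e2]
    ring
  · obtain ⟨x, y, p1, p2⟩ := fr 0 1 0
    obtain ⟨x', y', p3, p4⟩ := fr 0 0 1
    obtain ⟨x'', y'', p5, p6⟩ := fr 1 0 0
    obtain ⟨u, v, w, p⟩ := pr
    obtain ⟨⟨k1, q1⟩, k2, q2⟩ := r1
    obtain ⟨⟨k3, q3⟩, k4, q4⟩ := r2
    refine Int.dvd_antisymm (det_pos eq n0).le (Int.natCast_nonneg c)
      ⟨u * (x'' * y' - y'' * x') + v * (x * y'' - y * x'') - w * (x * y' - y * x'), ?_⟩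
      ⟨k1 * D - k2 * C + a * s β * k4 - a * t β * k3, ?_⟩
    · have d1 : (x'' * y' - y'' * x') * (A * D - B' * C) = c * s β := by
        linear_combination (x' * B' + y' * D) * p5 + s β * p4 - (x'' * B' + y'' * D) * p3
      have d2 : (x * y'' - y * x'') * (A * D - B' * C) = c * t β := by
        linear_combination (x'' * B' + y'' * D) * p1 + c * p6 - (x'' * A + y'' * C) * p2
      have d3 : (x * y' - y * x') * (A * D - B' * C) = c * c := by
        linear_combination (x' * B' + y' * D) * p1 + c * p4 - (x' * A + y' * C) * p2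
      linear_combination -u * d1 - v * d2 + w * d3 - c * p
    · linear_combination D * q1 - C * q2 + a * s β * q4 - a * t β * q3

end Vale.Agent.P014Z.Tz
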