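import Vale.Agent.P014Z.Tz.St

/-! # P014Z, block TZ, row GRP: sums over lines -/

set_option autoImplicit false
set_option linter.all false

open scoped Classical

namespace Vale.Agent.P014Z.Tz

namespace Gp

open Finset

variable {X A κ : Type} [CommRing X] [CommRing A] [Fintype κ] {c : ℕ}

theorem nu [NeZero c] {a : ZMod c} (h : ¬ IsUnit a) :
    ∃ q e : ℕ, q.Prime ∧ c = q * e ∧ (e : ZMod c) * a = 0 := by
  rw [← ZMod.natCast_zmod_val a, ZMod.isUnit_iff_coprime, Nat.Prime.not_coprime_iff_dvd] at h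
  obtain ⟨q, hq, ⟨r, hr⟩, e, he⟩ := h
  refine ⟨q, e, hq, he, ?_⟩
  rw [← ZMod.natCast_zmod_val a, hr, ← Nat.cast_mul, ← mul_assoc, mul_comm e, ← he, Nat.cast_mul,
    ZMod.natCast_self, zero_mul]

theorem un [NeZero c] (φ : ZMod c →+* X) (hφ : Function.Injective φ) {a : ZMod c}
    (h : IsUnit (φ a)) : IsUnit a := by_contra fun k => by
  obtain ⟨q, e, hq, he, z⟩ := nu k
  have a0 : (e : ZMod c) = 0 := hφ (by
    rw [map_zero, ← h.mul_left_eq_zero, ← map_mul, z, map_zero])
  have e0 : 0 < e := Nat.pos_of_ne_zero fun z => NeZero.ne c (by rw [he, z, mul_zero])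
  have := Nat.le_of_dvd e0 ((ZMod.natCast_eq_zero_iff e c).1 a0)
  have := hq.two_le
  nlinarith

/-- multiplication by a unit permutes the lines -/
theorem perm [NeZero c] (φ : ZMod c →+* X) (hφ : Function.Injective φ) {β : κ → X}
    (hβ : ∀ k, IsUnit (β k)) (ex : ∀ x, IsUnit x → ∃! k, ∃ a, x = φ a * β k) (G : X → A)
    (hG : ∀ a x, IsUnit a → IsUnit x → G (φ a * x) = G x) {u : X} (hu : IsUnit u) :
    ∑ k, G (u * β k) = ∑ k, G (β k) := by
  choose π a ha using fun k => (ex _ (hu.mul (hβ k))).exists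
  have ua : ∀ k, IsUnit (a k) := fun k =>
    un φ hφ (isUnit_of_mul_isUnit_left (ha k ▸ hu.mul (hβ k)))
  have inj : Function.Injective π := fun k k' e => by
    obtain ⟨b, hb⟩ := (ua k').exists_right_inv
    refine (ex _ (hβ k)).unique ⟨1, by rw [map_one, one_mul]⟩ ⟨a k * b, hu.mul_left_cancel ?_⟩
    rw [mul_left_comm, ha, ha, e, ← mul_assoc, ← map_mul, mul_assoc, mul_comm b, hb, mul_one]
  rw [← (Finite.injective_iff_bijective.1 inj).sum_comp fun k => G (β k)]
  exact sum_congr rfl fun k _ => by rw [ha, hG _ _ (ua k) (hβ _)]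

end Gp

open Gp Finset in
/-- **row GRP** -/
theorem grp : GRP := by
  intro X A κ _ _ _ _ c m η L β T c0 hc mul one hβ ex hT hu
  have : NeZero c := ⟨c0.ne'⟩
  have : CharP X c := ⟨fun n => by rw [← Int.natCast_dvd_natCast, ← hc, Int.cast_natCast]⟩
  let φ := ZMod.castHom (dvd_refl c) X
  have hφ : Function.Injective φ := ZMod.castHom_injective X
  have ex' : ∀ x, IsUnit x → ∃! k, ∃ a, x = φ a * β k := fun x hx =>
    (existsUnique_congr fun k => ⟨fun ⟨n, h⟩ => ⟨n, by rwa [map_intCast]⟩, fun ⟨a, h⟩ => by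
      obtain ⟨n, rfl⟩ := ZMod.intCast_surjective a
      exact ⟨n, by rwa [map_intCast] at h⟩⟩).1 (ex x hx)
  have one' : ∀ a x, IsUnit a → IsUnit x → η (φ a * x) = η x := fun a x ha hx => by
    rw [mul _ _ (ha.map φ) hx]
    obtain ⟨n, rfl⟩ := ZMod.intCast_surjective a
    have := ha.map φ
    rw [map_intCast] at this ⊢
    rw [one n this, one_mul]
  have e1 : ∀ x, ∑ n ∈ range c, L (n * x) = ∑ a, L (φ a * x) := fun x =>
    sum_nbij' (fun n => (n : ZMod c)) ZMod.val (fun _ _ => mem_univ _)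
      (fun a _ => mem_range.2 a.val_lt) (fun n hn => ZMod.val_cast_of_lt (mem_range.1 hn))
      (fun a _ => ZMod.natCast_zmod_val a) fun n _ => by rw [map_natCast]
  have e2 : ∑ k, η (β k) * ∑ a with IsUnit a, L (φ a * β k) = ∑ x with IsUnit x, η x * L x := by
    simp only [mul_sum]
    rw [← sum_product']
    refine sum_bij (fun z _ => φ z.2 * β z.1) (fun z hz => ?_) (fun z hz z' hz' e => ?_)
      (fun x hx => ?_) fun z hz => ?_
    · exact mem_filter.2 ⟨mem_univ _, ((mem_filter.1 (mem_product.1 hz).2).2.map φ).mul (hβ _)⟩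
    · have k := (ex' _ (((mem_filter.1 (mem_product.1 hz).2).2.map φ).mul (hβ z.1))).unique
        ⟨_, rfl⟩ ⟨_, e⟩
      exact Prod.ext k (hφ ((hβ z.1).mul_right_cancel (e.trans (by rw [k]))))
    · obtain ⟨k, a, h⟩ := (ex' x (mem_filter.1 hx).2).exists
      exact ⟨(k, a), mem_product.2 ⟨mem_univ _, mem_filter.2 ⟨mem_univ _, un φ hφ
        (isUnit_of_mul_isUnit_left (h ▸ (mem_filter.1 hx).2))⟩⟩, h.symm⟩
    · rw [one' _ _ (mem_filter.1 (mem_product.1 hz).2).2 (hβ _)]
  have key : ∀ a₀ : ZMod c, ¬ IsUnit a₀ → T ^ m ∣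
      ∑ k, η (β k) * ∑ a with Ideal.span {a} = Ideal.span {a₀}, L (φ a * β k) := fun a₀ h => by
    obtain ⟨q, e, hq, he, z⟩ := nu h
    obtain ⟨u, y, v, u1, u2, v1, v2⟩ := hu q e hq he
    have p := perm (u := u) φ hφ hβ ex'
      (fun x => η x * ∑ a with Ideal.span {a} = Ideal.span {a₀}, L (φ a * x)) (fun b x hb hx => by
        obtain ⟨b, rfl⟩ := hb
        rw [one' _ _ b.isUnit hx]
        refine congrArg _ (sum_equiv b.mulRight (fun a => ?_) fun a _ => ?_)
        · simp only [mem_filter, mem_univ, true_and, Units.mulRight_apply,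
            Ideal.span_singleton_mul_right_unit b.isUnit]
        · rw [Units.mulRight_apply, map_mul, mul_assoc]) u1
    have p2 : ∀ k, ∑ a with Ideal.span {a} = Ideal.span {a₀}, L (φ a * (u * β k)) =
        ∑ a with Ideal.span {a} = Ideal.span {a₀}, L (φ a * β k) := fun k =>
      sum_congr rfl fun a ha => by
        obtain ⟨r, rfl⟩ := Ideal.mem_span_singleton'.1
          ((mem_filter.1 ha).2 ▸ Ideal.mem_span_singleton_self a)
        have := congrArg φ z
        rw [map_mul, map_natCast, map_zero] at this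
        rw [u2, map_mul]
        exact congrArg L (by linear_combination φ r * y * β k * this)
    simp only [p2, mul _ _ u1 (hβ _), mul_assoc, ← mul_sum] at p
    refine hT _ (v1.mul_right_eq_zero.1 ?_)
    rw [← mul_assoc, mul_comm v, ← v2, sub_mul, p, one_mul, sub_self]
  simp only [e1, ← e2]
  rw [← sum_sub_distrib]
  have e3 : ∀ k, η (β k) * ∑ a, L (φ a * β k) - η (β k) * ∑ a with IsUnit a, L (φ a * β k) =
      ∑ I ∈ (univ.filter fun a : ZMod c => ¬ IsUnit a).image fun a => Ideal.span {a},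
        η (β k) * ∑ a with Ideal.span {a} = I, L (φ a * β k) := fun k => by
    rw [← sum_filter_add_sum_filter_not univ IsUnit, mul_add, add_sub_cancel_left, ← mul_sum,
      ← sum_fiberwise_of_maps_to (g := fun a : ZMod c => Ideal.span {a})
        fun a ha => mem_image_of_mem (fun a : ZMod c => Ideal.span {a}) ha]
    refine congrArg _ (sum_congr rfl fun I hI => sum_congr ?_ fun _ _ => rfl)
    obtain ⟨a₀, h₀, rfl⟩ := mem_image.1 hI
    rw [filter_filter]
    refine filter_congr fun a _ => and_iff_right_of_imp fun e k => (mem_filter.1 h₀).2 ?_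
    rwa [← Ideal.span_singleton_eq_top, ← e, Ideal.span_singleton_eq_top]
  simp only [e3]
  rw [sum_comm]
  refine dvd_sum fun I hI => ?_
  obtain ⟨a₀, h₀, rfl⟩ := mem_image.1 hI
  exact key a₀ (mem_filter.1 h₀).2

end Vale.Agent.P014Z.Tz
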