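import Vale.Agent.P014Z.Tz.Alg

/-! # P014Z, block TZ: one zero for every place (a ring with orthogonal idempotents) -/

set_option autoImplicit false
set_option linter.all false

open Finset
open scoped Classical

namespace Vale.Agent.P014Z.Tz.Lc

variable {X A : Type} [CommRing X] [CommRing A]

/-- the component of `x` at the idempotent `r`, one elsewhere -/
def ph (r x : X) : X := 1 + r * (x - 1)

theorem ph_mul {r : X} (h : r * r = r) (x y : X) : ph r (x * y) = ph r x * ph r y := by
  unfold ph
  linear_combination (-(x - 1) * (y - 1)) * h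

theorem ph_unit {r x : X} (h : r * r = r) (u : IsUnit x) : IsUnit (ph r x) := by
  obtain ⟨y, e⟩ := u.exists_right_inv
  exact IsUnit.of_mul_eq_one (ph r y) (by rw [← ph_mul h, e, ph, sub_self, mul_zero, add_zero])

theorem ph_add {r t : X} (h : r * t = 0) (x : X) : ph r (x + t) = ph r x := by
  unfold ph
  linear_combination h

theorem ph_sum {r t : X} (h : r * t = 0) (x : X) : ph (r + t) x = ph r x * ph t x := by
  unfold ph
  linear_combination (-(x - 1) * (x - 1)) * h

/-- zero at `s`, a unit elsewhere -/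
def Pz (s x : X) : Prop := IsUnit (x + s) ∧ s * x = 0

theorem Pz.mul {s x u : X} (h : s * s = s) (p : Pz s x) (hu : IsUnit u) : Pz s (u * x) :=
  ⟨by
    have := (ph_unit (r := 1 - s) (by linear_combination h) hu).mul p.1
    convert this using 1
    unfold ph
    linear_combination (u - 1) * p.2 + (u - 1) * h, by linear_combination u * p.2⟩

variable [Fintype X]

theorem step {a s u v : X} {F L : X → A} {ε : A} (ha : a * a = a) (hs : s * s = s)
    (o : a * s = 0) (a0 : a ≠ 0) (fld : ∀ x, a * x = 0 ∨ IsUnit (ph a x)) (uv : v * u = 1)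
    (hF : ∀ x y, a * y = y → F (x + y) = F x)
    (hL : ∀ x, a * x = 0 → ∑ y with a * y = y, L (x + y) = L (u * x))
    (hε : ∀ x, Pz (a + s) x → F x = ε * F (u * x)) :
    ∑ x with Pz s x, F x * L x = (ε - 1) * ∑ x with Pz (a + s) x, F x * L x := by
  have ht : (a + s) * (a + s) = a + s := by linear_combination ha + hs + 2 * o
  have z1 : ∀ x, Pz (a + s) x → a * x = 0 := fun x p => by
    linear_combination a * p.2 - x * ha - x * o
  have z2 : ∀ x, Pz (a + s) x → s * x = 0 := fun x p => by linear_combination p.2 - z1 x p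
  have e1 : ∑ x with Pz (a + s) x, F x * L (u * x) = ε * ∑ x with Pz (a + s) x, F x * L x := by
    rw [mul_sum]
    refine sum_nbij' (u * ·) (v * ·) (fun x m => ?_) (fun x m => ?_) (fun x _ => ?_) (fun x _ => ?_)
      fun x m => ?_
    · exact mem_filter.2 ⟨mem_univ _, (mem_filter.1 m).2.mul ht (.of_mul_eq_one_right _ uv)⟩
    · exact mem_filter.2 ⟨mem_univ _, (mem_filter.1 m).2.mul ht (.of_mul_eq_one _ uv)⟩
    · linear_combination x * uv
    · linear_combination x * uv
    · rw [hε x (mem_filter.1 m).2, mul_assoc]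
  have e2 : ∑ x with Pz (a + s) ((1 - a) * x) ∧ s * x = 0, F x * L x =
      ∑ x with Pz (a + s) x, F x * L (u * x) := by
    rw [sum_congr (s₁ := univ.filter (Pz (a + s))) rfl fun x m => show F x * L (u * x) =
      ∑ y with a * y = y, F x * L (x + y) by rw [← hL x (z1 x (mem_filter.1 m).2), mul_sum],
      ← sum_product']
    refine sum_nbij' (fun x => ((1 - a) * x, a * x)) (fun z => z.1 + z.2) (fun x m => ?_)
      (fun z m => ?_) (fun x _ => by ring) (fun z m => ?_) fun x _ => ?_
    · exact mem_product.2 ⟨mem_filter.2 ⟨mem_univ _, (mem_filter.1 m).2.1⟩,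
        mem_filter.2 ⟨mem_univ _, by linear_combination x * ha⟩⟩
    · have p := (mem_filter.1 (mem_product.1 m).1).2
      have q := (mem_filter.1 (mem_product.1 m).2).2
      refine mem_filter.2 ⟨mem_univ _, ?_, by linear_combination z2 _ p - s * q + z.2 * o⟩
      rwa [show (1 - a) * (z.1 + z.2) = z.1 by linear_combination -z1 _ p - q]
    · have p := z1 _ (mem_filter.1 (mem_product.1 m).1).2
      have q := (mem_filter.1 (mem_product.1 m).2).2
      exact Prod.ext (by linear_combination -p - q) (by linear_combination p + q)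
    · rw [← hF ((1 - a) * x) (a * x) (by linear_combination x * ha),
        show (1 - a) * x + a * x = x by ring]
  rw [sub_mul, one_mul, ← e1, ← e2, eq_sub_iff_add_eq, sum_filter, sum_filter, sum_filter,
    ← sum_add_distrib]
  refine sum_congr rfl fun x _ => ?_
  by_cases r : a * x = 0
  · rw [if_neg fun p : Pz s x => a0 ((p.1.mul_left_eq_zero).1 (by linear_combination r + o)),
      zero_add, show (1 - a) * x = x by linear_combination -r]
    exact if_congr ⟨fun p => ⟨p, z2 x p⟩, fun p => p.1⟩ rfl rfl
  · rw [if_neg fun p : Pz (a + s) x => r (z1 x p), add_zero]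
    refine if_congr ⟨fun p => ⟨⟨?_, by linear_combination -x * ha - x * o + p.2⟩, p.2⟩,
      fun p => ⟨?_, p.2⟩⟩ rfl rfl
    · convert ph_unit (r := 1 - a) (by linear_combination ha) p.1 using 1
      unfold ph
      linear_combination o
    · convert ((fld x).resolve_left r).mul p.1.1 using 1
      unfold ph
      linear_combination (x - 1) * (x - 1) * ha - (x - 1) * o

theorem one_mul' {T a b : A} (h : T ∣ a - 1) (k : T ∣ b - 1) : T ∣ a * b - 1 := by
  rw [show a * b - 1 = a * (b - 1) + (a - 1) by ring]
  exact dvd_add (k.mul_left _) h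

/-- **one zero for every idempotent** -/
theorem core {ι : Type} [Fintype ι] (e u v : ι → X) (η L : X → A) (T : A) (he : ∀ i, e i * e i = e i)
    (o : ∀ i j, i ≠ j → e i * e j = 0) (e0 : ∀ i, e i ≠ 0)
    (fld : ∀ i x, e i * x = 0 ∨ IsUnit (ph (e i) x)) (uv : ∀ i, v i * u i = 1) (η1 : η 1 = 1)
    (hη : ∀ x y, IsUnit x → IsUnit y → η (x * y) = η x * η y) (hT : ∀ x, IsUnit x → T ∣ η x - 1)
    (hL : ∀ i x, e i * x = 0 → ∑ y with e i * y = y, L (x + y) = L (u i * x)) :
    T ^ Fintype.card ι ∣ ∑ x with IsUnit x, η x * L x := by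
  have so : ∀ i (D : Finset ι), i ∉ D → e i * ∑ j ∈ D, e j = 0 := fun i D h => by
    rw [mul_sum]
    exact sum_eq_zero fun j m => o i j fun k => h (k ▸ m)
  have si : ∀ i (D : Finset ι), i ∈ D → e i * ∑ j ∈ D, e j = e i := fun i D h => by
    rw [← add_sum_erase _ _ h, mul_add, he, so i _ (notMem_erase _ _), add_zero]
  have ss : ∀ D : Finset ι, (∑ j ∈ D, e j) * ∑ j ∈ D, e j = ∑ j ∈ D, e j := fun D => by
    rw [sum_mul]
    exact sum_congr rfl fun i m => si i D m
  set z : X := 1 - ∑ j, e j with hz
  have zz : z * z = z := by linear_combination ss univ + (z - ∑ j, e j) * hz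
  have ze : ∀ i, z * e i = 0 := fun i => by linear_combination e i * hz - si i univ (mem_univ i)
  have zs : ∀ D : Finset ι, z * ∑ j ∈ D, e j = 0 := fun D => by
    rw [mul_sum]
    exact sum_eq_zero fun j _ => ze j
  have un : ∀ {r t x : X}, r * r = r → r * t = 0 → Pz t x → IsUnit (ph r x) := fun h k p =>
    ph_add k _ ▸ ph_unit h p.1
  have key := Tz.dvd T univ (fun D : Finset ι => univ.filter (Pz (∑ j ∈ Dᶜ, e j)))
    (fun _ x => η (ph z x) * L x) (fun i x => η (ph (e i) x))
    (fun D _ i m x p => hT _ (un (he i) (so i _ (by simpa using m)) (mem_filter.1 p).2))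
    fun D _ E hE i m n => by
      have ui : IsUnit (u i) := .of_mul_eq_one_right _ (uv i)
      have vi : IsUnit (v i) := .of_mul_eq_one _ (uv i)
      have c : ∑ j ∈ (D.erase i)ᶜ, e j = e i + ∑ j ∈ Dᶜ, e j := by
        rw [compl_erase, sum_insert (by simpa using m)]
      have mv : ∀ {r t x : X}, r * r = r → t * t = t → r * t = 0 → Pz t x →
          η (ph r x) = η (ph r (v i)) * η (ph r (u i * x)) := fun h k l p => by
        rw [← hη _ _ (ph_unit h vi) (un h l (p.mul k ui)), ← ph_mul h, ← mul_assoc, uv, one_mul]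
      refine ⟨(∏ j ∈ E, η (ph (e j) (v i))) * η (ph z (v i)) - 1, one_mul' (prod_induction _
        (fun a => T ∣ a - 1) (fun _ _ => one_mul') (by simp) fun j _ => hT _ (ph_unit (he j) vi))
        (hT _ (ph_unit zz vi)), ?_⟩
      simp only [← mul_assoc]
      rw [c]
      refine step (F := fun x => (∏ j ∈ E, η (ph (e j) x)) * η (ph z x)) (he i) (ss _)
        (so i _ (by simpa using m)) (e0 i) (fld i) (uv i) (fun x y h => ?_) (hL i) fun x p => ?_
      · rw [ph_add (by rw [← h, ← mul_assoc, ze, zero_mul]), prod_congr rfl fun j k => by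
          rw [ph_add (by rw [← h, ← mul_assoc, o j i fun l => n (l ▸ k), zero_mul])]]
      · rw [← c] at p
        rw [mv zz (ss _) (zs _) p, prod_congr rfl fun j k => mv (he j) (ss _) (so j _ (by
          simpa using ⟨fun l => n (l ▸ k), hE k⟩)) p, prod_mul_distrib]
        ring
  rw [card_univ, compl_univ, sum_empty] at key
  convert key using 1
  refine sum_congr (filter_congr fun x _ => by simp [Pz]) fun x m => ?_
  have ux : IsUnit x := by simpa [Pz] using m
  have pr : ∀ D : Finset ι, ∏ j ∈ D, η (ph (e j) x) = η (ph (∑ j ∈ D, e j) x) := fun D => by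
    induction D using Finset.induction_on with
    | empty => simp [ph, η1]
    | insert j D h ih =>
      rw [prod_insert h, sum_insert h, ph_sum (so j D h),
        hη _ _ (ph_unit (he j) ux) (ph_unit (ss D) ux), ih]
  rw [pr, ← mul_assoc, ← hη _ _ (ph_unit (ss _) ux) (ph_unit zz ux),
    ← ph_sum (by rw [mul_comm, zs]), hz, add_sub_cancel, ph, one_mul, add_sub_cancel]

end Vale.Agent.P014Z.Tz.Lc
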