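import Vale.Agent.P014Z.Tz.St
import Vale.Agent.P014Z.Tz.Loc0

/-! # P014Z, block TZ: row `LOC` -/

set_option autoImplicit false
set_option linter.all false

open Finset
open scoped Classical

namespace Vale.Agent.P014Z.Tz

/-- **row LOC** -/
theorem loc : LOC := by
  intro O A ι _ _ _ _ c c₀ _ π ρ q η L T c0 hc cop H η1 hη hT hL
  let k := Ideal.Quotient.mk (Ideal.span {c})
  have z : ∀ x, k x = 0 ↔ c ∣ x := fun x =>
    Ideal.Quotient.eq_zero_iff_mem.trans Ideal.mem_span_singleton
  have rp : ∀ i, ρ i * π i = c := fun i => (H i).2.2.2.2.1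
  have p0 : ∀ i, π i ≠ 0 := fun i e => c0 (by rw [← rp i, e, mul_zero])
  have r0 : ∀ i, ρ i ≠ 0 := fun i e => c0 (by rw [← rp i, e, zero_mul])
  have cp : ∀ i, IsCoprime (ρ i) (π i) := fun i => by
    rw [show ρ i = c₀ * ∏ j ∈ univ.erase i, π j from mul_right_cancel₀ (p0 i) (by
      rw [rp, mul_assoc, prod_erase_mul _ _ (mem_univ i), ← hc])]
    exact (H i).1.mul_left (IsCoprime.prod_left fun j m => cop (mem_erase.1 m).1)
  choose a b ab using cp
  have kp : ∀ i, k (ρ i) * k (π i) = 0 := fun i => by rw [← map_mul, rp, z]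
  have kb : ∀ i, k (a i) * k (ρ i) + k (b i) * k (π i) = 1 := fun i => by
    simpa using congrArg k (ab i)
  have kq : ∀ i, k (ρ i) * q i = 0 := fun i => by
    obtain ⟨w, hw⟩ := (H i).2.2.1
    rw [← map_natCast k, hw, map_mul, ← mul_assoc, kp, zero_mul]
  have nd : ∀ i (n : ℤ), π i ∣ n → (q i : ℤ) ∣ n := fun i n h => by
    by_contra d
    obtain ⟨s, t, e⟩ := (Nat.prime_iff_prime_int.1 (H i).2.1).irreducible.coprime_iff_not_dvd.2 d
    refine (H i).2.2.2.1 (isUnit_of_dvd_one ?_)
    have e' : (s : O) * q i + t * n = 1 := by exact_mod_cast congrArg (Int.cast : ℤ → O) e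
    exact e' ▸ dvd_add ((H i).2.2.1.mul_left _) (h.mul_left _)
  have res : ∀ i x, ∃ n : ℤ, k (ρ i) * x = k (ρ i) * n := fun i x => by
    obtain ⟨x, rfl⟩ := Ideal.Quotient.mk_surjective x
    obtain ⟨n, w, hw⟩ := (H i).2.2.2.2.2 x
    refine ⟨n, ?_⟩
    have := congrArg k hw
    rw [map_sub, map_mul, map_intCast] at this
    linear_combination k (ρ i) * this + k w * kp i
  refine Lc.core (fun i => k (a i) * k (ρ i)) (fun i => k (π i) + k (a i) * k (ρ i))
    (fun i => k (b i) * k (b i) * k (π i) + k (a i) * k (ρ i)) η L T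
    (fun i => by linear_combination k (a i) * k (ρ i) * kb i - k (a i) * k (b i) * kp i)
    (fun i j n => ?_) (fun i e => ?_) (fun i x => ?_) (fun i => ?_) η1 hη hT fun i x hx => ?_
  · obtain ⟨w, hw⟩ : π i ∣ ρ j := (cop n).dvd_of_dvd_mul_right ⟨ρ i, by rw [rp, mul_comm, rp]⟩
    rw [hw, map_mul]
    linear_combination k (a i) * k (a j) * k w * kp i
  · rw [← map_mul, z, ← rp i, mul_comm (a i), mul_dvd_mul_iff_left (r0 i)] at e
    exact (H i).2.2.2.1 (isUnit_of_dvd_one (ab i ▸ dvd_add (e.mul_right _) (dvd_mul_left _ _)))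
  · obtain ⟨n, hn⟩ := res i x
    by_cases d : (q i : ℤ) ∣ n
    · obtain ⟨w, rfl⟩ := d
      left
      push_cast at hn
      linear_combination k (a i) * hn + k (a i) * w * kq i
    · obtain ⟨s, t, e⟩ := (Nat.prime_iff_prime_int.1 (H i).2.1).irreducible.coprime_iff_not_dvd.2 d
      have e' : (s : O ⧸ Ideal.span {c}) * q i + t * n = 1 := by
        exact_mod_cast congrArg (Int.cast : ℤ → O ⧸ Ideal.span {c}) e
      refine Or.inr (IsUnit.of_mul_eq_one (Lc.ph (k (a i) * k (ρ i)) t) ?_)
      rw [← Lc.ph_mul (by linear_combination k (a i) * k (ρ i) * kb i - k (a i) * k (b i) * kp i),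
        Lc.ph]
      linear_combination k (a i) * t * hn + k (a i) * k (ρ i) * e' - k (a i) * s * kq i
  · linear_combination (k (a i) * k (ρ i) + k (b i) * k (π i) + 1) * kb i +
      (k (a i) + k (a i) * k (b i) * k (b i) - 2 * k (a i) * k (b i)) * kp i
  · rw [show (k (π i) + k (a i) * k (ρ i)) * x = k (π i) * x by linear_combination hx, hL]
    symm
    refine sum_bij (fun n _ => k (n * ρ i)) (fun n _ => mem_filter.2 ⟨mem_univ _, ?_⟩)
      (fun n hn m hm e => ?_) (fun y hy => ?_) fun _ _ => rfl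
    · rw [map_mul]
      linear_combination k n * k (ρ i) * kb i - k n * k (b i) * kp i
    · rw [← sub_eq_zero, ← map_sub, z, ← rp i, ← sub_mul, mul_comm _ (ρ i),
        mul_dvd_mul_iff_left (r0 i)] at e
      have := nd i (n - m) (by push_cast; exact e)
      have h1 := mem_range.1 hn
      have h2 := mem_range.1 hm
      have := Int.eq_zero_of_dvd_of_natAbs_lt_natAbs this (by omega)
      omega
    · obtain ⟨n, hn⟩ := res i (k (a i) * y)
      have q0 : (0 : ℤ) < q i := by exact_mod_cast (H i).2.1.pos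
      have h1 := Int.emod_nonneg n q0.ne'
      have h2 := Int.emod_lt_of_pos n q0
      refine ⟨(n % q i).toNat, mem_range.2 (by omega), ?_⟩
      have e := congrArg (Int.cast : ℤ → O ⧸ Ideal.span {c}) (Int.emod_add_mul_ediv n (q i))
      rw [map_mul, map_natCast, ← Int.cast_natCast, Int.toNat_of_nonneg h1]
      rw [Int.cast_add, Int.cast_mul, Int.cast_natCast] at e
      linear_combination (mem_filter.1 hy).2 - hn + k (ρ i) * e - ((n / q i : ℤ) : O ⧸ Ideal.span {c}) * kq i

end Vale.Agent.P014Z.Tz
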