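import Vale.Agent.P014Z.Tz.St2
import Vale.Agent.P014Y.Rd.Ext
import Vale.Agent.P014Y.Rd.Bsx
import Vale.Agent.P014Y.Rd.Fld

/-! # P014Z, trivial zeros: the group of a ring class field of split conductor -/

set_option autoImplicit false
set_option linter.all false

open NumberField

noncomputable section

namespace Vale.Agent.P014Z.Tz

open Vale.Agent.P022 (Qb GQ GK below)
open Vale.Agent.P022D.W (dec)
open Vale.Agent.P022E.GW (Ov Fb)
open P004K P004K.Rc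
open Vale.Agent.P022K.G2 (Tv)

namespace Pa

section ring

variable {O : Type} [CommRing O] {Q M : ℕ} {L L' : Ideal O} {x y : O}

theorem cop_sp (h0 : x ≠ 0) (h : IsCoprime x (Q : O)) : Cop Q (Ideal.span {x}) :=
  ⟨Ideal.span_singleton_eq_bot.not.2 h0, (Ideal.sup_eq_top_iff_isCoprime _ _).2 h⟩

theorem cp_of (h : Cop Q (Ideal.span {x})) : x ≠ 0 ∧ IsCoprime x (Q : O) :=
  ⟨Ideal.span_singleton_eq_bot.not.1 h.1, (Ideal.sup_eq_top_iff_isCoprime _ _).1 h.2⟩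

theorem unit_cp (h : IsCoprime x (Q : O)) : IsUnit (Ideal.Quotient.mk (Ideal.span {(Q : O)}) x) := by
  obtain ⟨u, v, e⟩ := h
  refine .of_mul_eq_one_right (Ideal.Quotient.mk _ u) ?_
  rw [← map_mul, ← map_one (Ideal.Quotient.mk _), Ideal.Quotient.eq, Ideal.mem_span_singleton]
  exact ⟨-v, by linear_combination e⟩

theorem unit_of (h : Cop Q (Ideal.span {x})) :
    IsUnit (Ideal.Quotient.mk (Ideal.span {(Q : O)}) x) := unit_cp (cp_of h).2

theorem cp_unit (h : IsUnit (Ideal.Quotient.mk (Ideal.span {(Q : O)}) x)) : IsCoprime x (Q : O) := by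
  obtain ⟨u, e⟩ := h.exists_left_inv
  obtain ⟨u, rfl⟩ := Ideal.Quotient.mk_surjective u
  rw [← map_mul, ← map_one (Ideal.Quotient.mk _), Ideal.Quotient.eq, Ideal.mem_span_singleton] at e
  obtain ⟨v, e⟩ := e
  exact ⟨u, -v, by linear_combination e⟩

end ring

section gal

variable {K : Type} [Field K] [NumberField K] {j : K →+* Qb} {Q M : ℕ} {x y : 𝓞 K} {g g' : GQ}
  {I : Ideal (𝓞 K)}

theorem inv_of (hQ : 0 < Q) (h : IsCoprime x (Q : 𝓞 K)) :
    ∃ y t, Cop Q (Ideal.span {y}) ∧ x * y = 1 + Q * t := by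
  obtain ⟨u, v, e⟩ := h
  by_cases z : u = 0
  · exact ⟨Q, x - v, cop_sp (Nat.cast_ne_zero.2 hQ.ne') ⟨v, 0, by rw [z] at e; linear_combination e⟩,
      by rw [z] at e; linear_combination e⟩
  · exact ⟨u, -v, cop_sp z ⟨x, v, by linear_combination e⟩, by linear_combination e⟩

theorem lift (hQ : 0 < Q) (x : 𝓞 K ⧸ Ideal.span {(Q : 𝓞 K)}) :
    ∃ y, Ideal.Quotient.mk _ y = x ∧ (IsUnit x → Cop Q (Ideal.span {y})) := by
  obtain ⟨y, rfl⟩ := Ideal.Quotient.mk_surjective x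
  by_cases z : y = 0
  · have e : Ideal.Quotient.mk (Ideal.span {(Q : 𝓞 K)}) Q = Ideal.Quotient.mk _ y := by
      rw [z, map_zero, Ideal.Quotient.eq_zero_iff_mem]
      exact Ideal.mem_span_singleton_self _
    exact ⟨Q, e, fun h => cop_sp (Nat.cast_ne_zero.2 hQ.ne') (cp_unit (e ▸ h))⟩
  · exact ⟨y, rfl, fun h => cop_sp z (cp_unit h)⟩

variable (r1 : RC1) (r2 : RC2) (iq : Iq K) (hQ : 0 < Q)
include r1 r2 iq hQ

/-- the symbols of two principal ideals -/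
theorem sym (hx : Cop Q (Ideal.span {x})) (hy : Cop Q (Ideal.span {y}))
    (a : Ar j Q (Ideal.span {x}) g) (b : Ar j Q (Ideal.span {y}) g') :
    ∃ y' t, x * y' = 1 + Q * t ∧
      (g⁻¹ * g' ∈ Hc j Q ↔ ∃ (k : ℤ) (a : 𝓞 K), Ideal.span {y * y'} = Ideal.span {k + Q * a}) := by
  obtain ⟨y', t, c, e⟩ := inv_of hQ (cp_of hx).2
  obtain ⟨ex, -, mul, -, pr, -⟩ := r2 K j iq Q hQ
  have nor := (r1 K j iq Q hQ).2.2.1
  obtain ⟨h, hh⟩ := ex _ c
  have k1 := (pr _ _ (cop_mul hx c) (mul _ _ _ _ hx c a hh)).2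
    ⟨1, t, by rw [Ideal.span_singleton_mul_span_singleton, e, Int.cast_one]⟩
  have k2 := pr _ _ (cop_mul hy c) (mul _ _ _ _ hy c b hh)
  rw [Ideal.span_singleton_mul_span_singleton] at k2
  refine ⟨y', t, e, Iff.trans ?_ k2⟩
  have := nor.conj_mem _ k1 g⁻¹
  rw [← nor.mem_comm_iff (a := h), ← mul_mem_cancel_left (y := g⁻¹ * g') this]
  simp [mul_assoc]

theorem sym_of (hx : Cop Q (Ideal.span {x})) (hy : Cop Q (Ideal.span {y}))
    (a : Ar j Q (Ideal.span {x}) g) (b : Ar j Q (Ideal.span {y}) g') {k : ℤ}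
    (d : (Q : 𝓞 K) ∣ y - k * x) : g⁻¹ * g' ∈ Hc j Q := by
  obtain ⟨y', t, e, h⟩ := sym r1 r2 iq hQ hx hy a b
  obtain ⟨w, d⟩ := d
  exact h.2 ⟨k, k * t + w * y', by congr 2; linear_combination y' * d + k * e⟩

theorem of_sym (up : Upm K) (hx : Cop Q (Ideal.span {x})) (hy : Cop Q (Ideal.span {y}))
    (a : Ar j Q (Ideal.span {x}) g) (b : Ar j Q (Ideal.span {y}) g') (h : g⁻¹ * g' ∈ Hc j Q) :
    ∃ k : ℤ, (Q : 𝓞 K) ∣ y - k * x := by
  obtain ⟨y', t, e, h'⟩ := sym r1 r2 iq hQ hx hy a b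
  obtain ⟨k, w, s⟩ := h'.1 h
  obtain ⟨u, s⟩ := Ideal.span_singleton_eq_span_singleton.1 s
  rcases up u with rfl | rfl
  · rw [Units.val_one, mul_one] at s
    exact ⟨k, w * x - y * t, by linear_combination x * s - y * e⟩
  · rw [Units.val_neg, Units.val_one] at s
    exact ⟨-k, -w * x - y * t, by push_cast; linear_combination -x * s - y * e⟩

omit r1 in
/-- the class of an ideal -/
theorem hc_one (hI : Cop Q I) (a : Ar j Q I g) : g ∈ Hc j 1 ↔ ∃ x, I = Ideal.span {x} := by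
  obtain ⟨-, -, -, -, pr, dn, -⟩ := r2 K j iq 1 one_pos
  have c : Cop (1 * Q) I := by rwa [one_mul]
  rw [pr _ _ (cop_dvd c) (dn Q I g hQ c (by rwa [one_mul]))]
  exact ⟨fun ⟨_, _, e⟩ => ⟨_, e⟩, fun ⟨x, e⟩ => ⟨0, x, by simpa using e⟩⟩

end gal

end Pa

open Pa

/-- **the parametrisation** -/
theorem par (r1 : RC1) (r2 : RC2) : PAR := by
  intro K _ _ j iq up c R hc t
  classical
  obtain ⟨ω, s, q⟩ := P004F.Pt.ex_q j iq
  obtain ⟨ex, on, mul, iff, -⟩ := r2 K j iq c hc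
  have le : Hc j c ≤ Hc j 1 := by simpa using (r1 K j iq 1 one_pos).2.2.2.2.2 c hc
  have pr : ∀ g ∈ Hc j 1, ∃ x, Cop c (Ideal.span {x}) ∧ Ar j c (Ideal.span {x}) g := fun g hg => by
    obtain ⟨I, k, a⟩ := on g hg.1 1 one_pos
    obtain ⟨x, rfl⟩ := (hc_one r2 iq hc (cop_dvd k) a).1 hg
    exact ⟨x, cop_dvd k, a⟩
  choose β β1 β2 using fun k : {r : R // (r : GQ) ∈ Hc j 1} => pr _ k.2
  choose lf l1 l2 using lift (K := K) hc
  choose a ha using fun (x : 𝓞 K ⧸ Ideal.span {(c : 𝓞 K)}) (h : IsUnit x) => ex _ (l2 x h)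
  have a1 : ∀ x h, a x h ∈ Hc j 1 := fun x h => (hc_one r2 iq hc (l2 x h) (ha x h)).2 ⟨_, rfl⟩
  let S : Setoid R := ⟨fun r r' => (r : GQ)⁻¹ * r' ∈ Hc j 1, fun r => by simp [one_mem],
    fun e => by simpa using inv_mem e, fun e e' => by simpa [mul_assoc] using mul_mem e e'⟩
  have om : ∀ i : Quotient S, (i.out : GQ) ∈ GK j := fun i => t.mem _ i.out.2
  choose B B1 B2 using fun i : Quotient S => on _ (om i) 1 one_pos
  choose G G1 G2 using fun x : Quotient S × {r : R // (r : GQ) ∈ Hc j 1} =>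
    t.ex _ (mul_mem (om x.1) x.2.2.1)
  have uq : ∀ k k' : {r : R // (r : GQ) ∈ Hc j 1}, (k.1 : GQ)⁻¹ * k'.1 ∈ Hc j c → k = k' :=
    fun k k' e => Subtype.ext (Subtype.ext (t.un _ k.1.2 _ k'.1.2 e))
  have as : ∀ g ∈ Hc j 1, ∃ k : {r : R // (r : GQ) ∈ Hc j 1}, (k.1 : GQ)⁻¹ * g ∈ Hc j c :=
    fun g hg => by
      obtain ⟨r, hr, m⟩ := t.ex g hg.1
      exact ⟨⟨⟨r, hr⟩, by simpa using mul_mem hg (inv_mem (le m))⟩, m⟩
  have bij : Function.Bijective fun x => (⟨G x, G1 x⟩ : R) := by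
    constructor
    · rintro ⟨i, b⟩ ⟨i', b'⟩ e
      replace e : G (i, b) = G (i', b') := congrArg Subtype.val e
      have k := mul_mem (inv_mem (G2 (i, b))) (G2 (i', b'))
      rw [e] at k
      replace k : (b.1 : GQ)⁻¹ * ((i.out : GQ)⁻¹ * i'.out) * b'.1 ∈ Hc j c := by
        simpa [mul_assoc] using k
      obtain rfl : i = i' := Quotient.out_equiv_out.1 (by
        have := le k
        rwa [mul_mem_cancel_right b'.2, mul_mem_cancel_left (inv_mem b.2)] at this)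
      rw [uq b b' (by simpa using k)]
    · intro r
      obtain ⟨b, e⟩ := as _ (Quotient.mk_out (s := S) r)
      refine ⟨(⟦r⟧, b), Subtype.ext (t.un _ (G1 _) _ r.2 ?_)⟩
      simpa [mul_assoc] using mul_mem (G2 (⟦r⟧, b)) e
  refine ⟨Quotient S, _, inferInstance, inferInstance, B, fun i => i.out, β, .ofBijective _ bij,
    fun i => ⟨cop_dvd (B1 i), (r2 K j iq 1 one_pos).2.2.2.2.2.1 c _ _ hc
      (by rw [one_mul]; exact cop_dvd (B1 i)) (by rw [one_mul]; exact B2 i)⟩, β1, fun i b => ?_,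
    fun x h => ?_, fun A _ e ad e0 => ?_⟩
  · exact (iff _ _ _ (mul _ _ _ _ (cop_dvd (B1 i)) (β1 b) (B2 i) (β2 b))).2
      (by simpa using inv_mem (G2 (i, b)))
  · have w : ∀ k, (∃ n : ℤ, x = n * Ideal.Quotient.mk (Ideal.span {(c : 𝓞 K)}) (β k)) ↔
        (k.1 : GQ)⁻¹ * a x h ∈ Hc j c := fun k => by
        refine Iff.trans (b := ∃ n : ℤ, (c : 𝓞 K) ∣ lf x - n * β k) (exists_congr fun n => ?_)
          ⟨fun ⟨n, d⟩ => sym_of r1 r2 iq hc (β1 k) (l2 x h) (β2 k) (ha x h) (k := n) d,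
            of_sym r1 r2 iq hc up (β1 k) (l2 x h) (β2 k) (ha x h)⟩
        rw [← Ideal.mem_span_singleton, ← Ideal.Quotient.eq, l1, map_mul, map_intCast]
    obtain ⟨k, m⟩ := as _ (a1 x h)
    refine ⟨k, (w k).2 m, fun k' m' => uq _ _ ?_⟩
    simpa [mul_assoc] using mul_mem ((w k').1 m') (inv_mem m)
  have k : ∀ g ∈ GK j, ∀ g', g⁻¹ * g' ∈ Hc j c → e g' = e g := fun g hg g' m => by
    have := ad g hg _ m.1
    rwa [mul_inv_cancel_left, e0 _ m, add_zero] at this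
  let ε : 𝓞 K ⧸ Ideal.span {(c : 𝓞 K)} → A := fun x => if h : IsUnit x then e (a x h) else 0
  have key : ∀ (n : ℤ) y g, Cop c (Ideal.span {y}) → Ar j c (Ideal.span {y}) g →
      IsUnit (n * Ideal.Quotient.mk (Ideal.span {(c : 𝓞 K)}) y) →
      ε (n * Ideal.Quotient.mk (Ideal.span {(c : 𝓞 K)}) y) = e g := fun n y g hy b h => by
    simp only [ε]
    rw [dif_pos h]
    refine k _ b.1 _ (sym_of r1 r2 iq hc hy (l2 _ h) b (ha _ h) (k := n) ?_)
    rw [← Ideal.mem_span_singleton, ← Ideal.Quotient.eq, l1, map_mul, map_intCast]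
  refine ⟨fun i => e i.out, ε, fun x y hx hy => ?_, fun n h => ?_, fun i b => ?_,
    fun n hn g hg => ?_⟩
  · have := key 1 (lf x * lf y) _
      (Ideal.span_singleton_mul_span_singleton (lf x) (lf y) ▸ cop_mul (l2 x hx) (l2 y hy))
      (Ideal.span_singleton_mul_span_singleton (lf x) (lf y) ▸
        mul _ _ _ _ (l2 x hx) (l2 y hy) (ha x hx) (ha y hy))
    rw [Int.cast_one, one_mul, map_mul, l1, l1] at this
    rw [this (hx.mul hy), ad _ (ha x hx).1 _ (ha y hy).1]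
    simp only [ε]
    rw [dif_pos hx, dif_pos hy]
  · have c1 : Cop c (Ideal.span {(1 : 𝓞 K)}) := cop_sp one_ne_zero isCoprime_one_left
    obtain ⟨g, b⟩ := ex _ c1
    have := key n 1 g c1 b
    rw [map_one, mul_one] at this
    rw [this h]
    exact e0 _ (((r2 K j iq c hc).2.2.2.2.1 _ _ c1 b).2 ⟨1, 0, by simp⟩)
  · have := key 1 _ _ (β1 b) (β2 b)
    rw [Int.cast_one, one_mul] at this
    rw [this (unit_of (β1 b))]
    exact (k _ (t.mem _ (G1 _)) _ (G2 (i, b))).symm.trans (ad _ (om i) _ b.2.1)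
  · obtain ⟨m, rfl⟩ := hn
    have n0 := pos_of_mul_pos_right hc n.zero_le
    have n1 := pos_of_mul_pos_left hc m.zero_le
    have : NeZero (n * m) := ⟨hc.ne'⟩
    obtain ⟨I, c1, b⟩ := on g hg.1 1 one_pos
    replace c1 := cop_dvd c1
    obtain ⟨-, -, -, -, pr, dn, -⟩ := r2 K j iq n n1
    obtain ⟨z, w, rfl⟩ := (pr _ _ (cop_dvd c1) (dn m I g n0 c1 b)).1 hg
    obtain ⟨z', ez⟩ := (ZMod.coe_int_isUnit_iff_isCoprime z n).2 (q.cop_int (cop_dvd c1)).symm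
    obtain ⟨v, hv⟩ := ZMod.unitsMap_surjective (dvd_mul_right n m) z'⁻¹
    obtain ⟨r, hr⟩ : (n : ℤ) ∣ (v : ZMod (n * m)).val * z - 1 := by
      rw [← ZMod.intCast_zmod_eq_zero_iff_dvd]
      push_cast
      rw [← ez, ZMod.natCast_val, ← ZMod.castHom_apply (h := dvd_mul_right n m),
        show ZMod.castHom (dvd_mul_right n m) (ZMod n) v = (z'⁻¹ : (ZMod n)ˣ) from
          congrArg Units.val hv, Units.inv_mul, sub_self]
    have u : IsUnit (((v : ZMod (n * m)).val : ℤ) * Ideal.Quotient.mk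
        (Ideal.span {((n * m : ℕ) : 𝓞 K)}) (z + n * w)) := by
      refine .mul ?_ (unit_of c1)
      obtain ⟨x, y, e⟩ := Nat.isCoprime_iff_coprime.2 (ZMod.val_coe_unit_coprime v)
      rw [← map_intCast (Ideal.Quotient.mk (Ideal.span {((n * m : ℕ) : 𝓞 K)}))]
      exact unit_cp ⟨x, y, by exact_mod_cast congrArg (Int.cast : ℤ → 𝓞 K) e⟩
    refine ⟨_, (r : 𝓞 K ⧸ Ideal.span {((n * m : ℕ) : 𝓞 K)}) + ((v : ZMod (n * m)).val : ℤ) * Ideal.Quotient.mk
      (Ideal.span {((n * m : ℕ) : 𝓞 K)}) w, u, ?_, key _ _ _ c1 b u⟩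
    have := congrArg (Int.cast : ℤ → 𝓞 K ⧸ Ideal.span {((n * m : ℕ) : 𝓞 K)}) hr
    rw [Int.cast_sub, Int.cast_mul, Int.cast_mul, Int.cast_one, Int.cast_natCast n] at this
    rw [map_add, map_mul, map_intCast, map_natCast]
    linear_combination this

theorem Pa.gen (r2 : RC2) {K : Type} [Field K] [NumberField K] {j : K →+* Qb} (iq : Iq K)
    {q : ℕ} (hq : q.Prime) (h : ∀ P, Ov q P → dec P ≤ Hc j 1) (I : Ideal (𝓞 K)) (n : I ≠ ⊤)
    (m : (q : 𝓞 K) ∈ I) :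
    ∃ π, I ≤ Ideal.span {π} ∧ ¬ IsUnit π ∧ Ideal.absNorm (Ideal.span {π}) = q := by
  obtain ⟨v, hv, le⟩ := Ideal.exists_le_maximal I n
  have v0 : v ≠ ⊥ := fun z => by
    have := le m
    rw [z, Ideal.mem_bot, Nat.cast_eq_zero] at this
    exact hq.ne_zero this
  obtain ⟨l, P, o, e⟩ := P014Y.Rd.Bx.above j hv.isPrime v0
  replace o : Ov q P := ⟨hq, o.2.1, (P004R.Gl.mem_below (j := j) q).1 (by rw [e]; exact le m)⟩
  have d : dec P ≤ GK j := (h P o).trans inf_le_left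
  obtain ⟨φ, f⟩ := P022D.W.exists_phi hq o.2.1 o.2.2
  obtain ⟨c, a⟩ := P014Y.Rd.Xt.arf r2 iq one_pos o d f hq.not_dvd_one
  obtain ⟨π, e'⟩ := (hc_one r2 iq one_pos c a).1 (h P o (P014Y.Rd.Bx.fb_dec o f))
  have k := P014Y.Rd.Bx.nm iq.two o d
  rw [e'] at k e
  rw [← e] at hv le
  exact ⟨π, le, fun u => hv.ne_top (Ideal.span_singleton_eq_top.2 u), k⟩

theorem Pa.fin {K : Type} [Field K] [NumberField K] (iq : Iq K) {q : ℕ} (hq : q.Prime)
    {π π' : 𝓞 K} {I I' : Ideal (𝓞 K)} (co : I ⊔ I' = ⊤) (e : I * I' = Ideal.span {(q : 𝓞 K)})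
    (a1 : I ≤ Ideal.span {π}) (a2 : ¬ IsUnit π) (a3 : Ideal.absNorm (Ideal.span {π}) = q)
    (b1 : I' ≤ Ideal.span {π'}) (b2 : ¬ IsUnit π') (b3 : Ideal.absNorm (Ideal.span {π'}) = q) :
    ∃ π π' : 𝓞 K, π * π' = q ∧ IsCoprime π π' ∧ ¬ IsUnit π ∧ ¬ IsUnit π' := by
  have z : Ideal.span {(q : 𝓞 K)} = Ideal.span {π} * Ideal.span {π'} := by
    refine P004R.Gl.eq_of_norm (e.ge.trans (Ideal.mul_mono a1 b1)) ?_ fun z => hq.ne_zero ?_
    · rw [map_mul, a3, b3, Ideal.absNorm_span_natCast, RingOfIntegers.rank, iq.two, pow_two]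
    · have := congrArg Ideal.absNorm z
      rw [map_mul, a3, b3, Ideal.absNorm_bot] at this
      exact mul_self_eq_zero.1 this
  rw [Ideal.span_singleton_mul_span_singleton] at z
  obtain ⟨u, y⟩ := Ideal.span_singleton_eq_span_singleton.1 z.symm
  exact ⟨π, π' * u, by rw [← y, mul_assoc], (isCoprime_mul_unit_right_right u.isUnit _ _).2
    ((Ideal.sup_eq_top_iff_isCoprime _ _).1 (top_le_iff.1 (co.ge.trans (sup_le_sup a1 b1)))), a2,
    fun w => b2 (isUnit_of_mul_isUnit_left w)⟩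

theorem Pa.typ (r1 : RC1) {K : Type} [Field K] [NumberField K] {j : K →+* Qb} (iq : Iq K)
    {q : ℕ} (hq : q.Prime) (h : ∀ P, Ov q P → dec P ≤ GK j) : Typ K q (q - 1) := by
  obtain ⟨ω, s, d⟩ := P004F.Pt.ex_q j iq
  obtain ⟨γ, hγ⟩ := P014Y.Rd.Fd.ex_out iq j
  obtain ⟨P, o⟩ := P022.H916.exists_prime hq
  obtain ⟨φ, f⟩ := P022D.W.exists_phi hq o.1 o.2
  exact (P014Y.Rd.Xt.spl r1 iq d hγ ⟨hq, o⟩ (h P ⟨hq, o⟩) f).1

/-- **primes which split in the Hilbert class field** -/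
theorem prin (r1 : RC1) (r2 : RC2) {K : Type} [Field K] [NumberField K] {j : K →+* Qb} (iq : Iq K)
    {q : ℕ} (hq : q.Prime) (h : ∀ P, Ov q P → dec P ≤ Hc j 1) :
    ∃ π π' : 𝓞 K, π * π' = q ∧ IsCoprime π π' ∧ ¬ IsUnit π ∧ ¬ IsUnit π' := by
  rcases (Pa.typ r1 iq hq fun P o => (h P o).trans inf_le_left).2 with z | z
  · exact absurd z.2 (by omega)
  obtain ⟨I, I', co, n, n', e⟩ := z.1
  have m : (q : 𝓞 K) ∈ I * I' := e.ge (Ideal.mem_span_singleton_self _)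
  obtain ⟨π, a1, a2, a3⟩ := Pa.gen r2 iq hq h I n (Ideal.mul_le_left m)
  obtain ⟨π', b1, b2, b3⟩ := Pa.gen r2 iq hq h I' n' (Ideal.mul_le_right m)
  exact Pa.fin iq hq co e a1 a2 a3 b1 b2 b3

end Vale.Agent.P014Z.Tz
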