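import Vale.Agent.P014Z.Tz.St
import Vale.Agent.P004K.Hg.Ft
import Vale.Agent.P004K.Rc.Cyc

/-! # P014Z, block TZ: multiplication by a split prime element (row `SPL`, helper16) -/

set_option autoImplicit false
set_option linter.all false

open UpperHalfPlane NumberField

namespace Vale.Agent.P014Z.Tz

open Vale.Agent.P022 (Qb)
open P004K

namespace Sl

variable {K : Type} [Field K] [NumberField K] {j : K →+* Qb} {τ : ℍ} {π π' : 𝓞 K}
  {A B C D : ℤ} {q : ℕ}

theorem nrm (a : JJ j π * τ = A * τ + B) (b : JJ j π = C * τ + D) :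
    0 ≤ A * D - B * C ∧ (A * D - B * C = 1 → IsUnit π) := by
  refine ⟨?_, fun e => .of_mul_eq_one (A + D - π) (Rc.JJ_inj j ?_)⟩
  · rw [b] at a
    have r := congrArg Complex.re a
    have i := congrArg Complex.im a
    simp at r i
    have k : 2 * C * τ.re + D - A = 0 := mul_right_cancel₀ τ.im_ne_zero (by linear_combination i)
    have : (A * D - B * C : ℝ) = (D + C * τ.re) ^ 2 + (C * τ.im) ^ 2 := by
      linear_combination C * r - (D + C * τ.re) * k
    exact_mod_cast this ▸ (by positivity : (0 : ℝ) ≤ (D + C * τ.re) ^ 2 + (C * τ.im) ^ 2)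
  · have e' : (A * D - B * C : ℂ) = 1 := by exact_mod_cast e
    simp only [map_mul, map_sub, map_add, map_intCast, map_one]
    linear_combination e' - C * a + (A - JJ j π) * b

theorem res (j : K →+* Qb) (iq : Iq K) (hq : q.Prime) (e : π * π' = q)
    (n : ¬ IsUnit π) (n' : ¬ IsUnit π') (a : 𝓞 K) : ∃ k : ℤ, π ∣ a - k := by
  obtain ⟨ω, h, -⟩ := Rc.iq0 j iq
  obtain ⟨u, v, k⟩ := h π
  obtain ⟨x, y, rfl⟩ := h a
  have p := Nat.prime_iff_prime_int.1 hq
  have cp : ∀ z : ℤ, ¬ (q : ℤ) ∣ z → ∃ s t : ℤ, (s * q + t * z : 𝓞 K) = 1 := fun z h =>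
    (p.irreducible.coprime_iff_not_dvd.2 h).imp fun s h => h.imp fun t h => by exact_mod_cast h
  by_cases d : (q : ℤ) ∣ v
  · obtain ⟨v, rfl⟩ := d
    push_cast at k
    by_cases d : (q : ℤ) ∣ u
    · obtain ⟨u, rfl⟩ := d
      push_cast at k
      exact (n' (.of_mul_eq_one (u + v * ω) (mul_left_cancel₀ (Nat.cast_ne_zero.2 hq.ne_zero :
        (q : 𝓞 K) ≠ 0) (by linear_combination e - π' * k)))).elim
    · obtain ⟨s, t, h⟩ := cp u d
      exact (n (.of_mul_eq_one (s * π' + t * (1 - π' * v * ω))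
        (by linear_combination h + (s - t * v * ω) * e + t * k))).elim
  · obtain ⟨s, t, h⟩ := cp v d
    exact ⟨x - y * t * u, y * (s * π' * ω + t), by
      push_cast
      linear_combination -y * ω * h - y * s * ω * e - y * t * k⟩

end Sl

open Sl in
/-- **SPL** -/
theorem spl : SPL := by
  intro K _ _ j iq M c q τ s t co hq d π π' e n n'
  have r := res j iq hq e n n'
  obtain ⟨A, B, C, D, m, a, b, f⟩ := co.mul π'
  obtain ⟨A', B', C', D', -, a', b', -⟩ := co.mul π
  have p := Nat.prime_iff_prime_int.1 hq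
  have ej : JJ j π * JJ j π' = q := by rw [← map_mul, e, map_natCast]
  obtain ⟨x1, x2⟩ := Hg.ind (τ := τ) (a := A * A' + B * C') (b := A * B' + B * D') (c := q) (d := 0)
    (by push_cast; linear_combination τ * ej - JJ j π * a - A * a' - B * b')
  obtain ⟨x3, x4⟩ := Hg.ind (τ := τ) (a := C * A' + D * C') (b := C * B' + D * D') (c := 0) (d := q)
    (by push_cast; linear_combination ej - JJ j π * b - C * a' - D * b')
  have dd : (A * D - B * C) * (A' * D' - B' * C') = q ^ 2 := by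
    linear_combination (C * B' + D * D') * x1 + q * x4 - (C * A' + D * C') * x2
  have dt : A * D - B * C = q := by
    obtain ⟨N, hN⟩ := Int.eq_ofNat_of_zero_le (nrm a b).1
    obtain ⟨i, l, rfl⟩ := (Nat.dvd_prime_pow hq (m := 2)).1
      (Int.natCast_dvd_natCast.1 (⟨_, by rw [← hN, dd]; simp⟩ : (N : ℤ) ∣ (q ^ 2 : ℕ)))
    interval_cases i
    · exact (n' ((nrm a b).2 (by simpa using hN))).elim
    · simpa using hN
    · exact (n ((nrm a' b').2 (mul_left_cancel₀ (pow_ne_zero 2 p.ne_zero)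
        (by rw [mul_one, ← Nat.cast_pow, ← hN, dd, hN, Nat.cast_pow])))).elim
  have row : ∀ u v : ℤ, ∃ k : ℤ, (q : ℤ) ∣ u * A + v * C - k * s π' ∧
      (q : ℤ) ∣ u * B + v * D - k * t π' := fun u v => by
    obtain ⟨β, ⟨x, hx⟩, y, hy⟩ := co.onto u v
    obtain ⟨k, z, hz⟩ := r β
    obtain ⟨c, rfl⟩ := d
    have w : β * π' = k • π' + q • z := by
      rw [zsmul_eq_mul, nsmul_eq_mul]
      linear_combination π' * hz + z * e
    obtain ⟨f1, f2⟩ := f β
    rw [w, map_add, map_zsmul, map_nsmul, smul_eq_mul, nsmul_eq_mul] at f1 f2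
    push_cast at hx hy
    exact ⟨k, ⟨s z - c * (x * A + y * C), by linear_combination -f1 - A * hx - C * hy⟩,
      ⟨t z - c * (x * B + y * D), by linear_combination -f2 - B * hx - D * hy⟩⟩
  refine ⟨r, A, B, C, D, m, ⟨dt, by rw [← b, a], ?_, by simpa using row 1 0, by simpa using row 0 1⟩,
    fun β => ?_⟩
  · by_cases h1 : (q : ℤ) ∣ s π'
    · by_cases h2 : (q : ℤ) ∣ t π'
      · obtain ⟨k, a1, a2⟩ := row 1 0
        obtain ⟨l, a3, a4⟩ := row 0 1
        obtain ⟨A, rfl⟩ : (q : ℤ) ∣ A := by simpa using a1.add (h1.mul_left k)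
        obtain ⟨B, rfl⟩ : (q : ℤ) ∣ B := by simpa using a2.add (h2.mul_left k)
        obtain ⟨C, rfl⟩ : (q : ℤ) ∣ C := by simpa using a3.add (h1.mul_left l)
        obtain ⟨D, rfl⟩ : (q : ℤ) ∣ D := by simpa using a4.add (h2.mul_left l)
        exact (p.not_unit (.of_mul_eq_one (A * D - B * C)
          (mul_left_cancel₀ p.ne_zero (by linear_combination dt)))).elim
      · obtain ⟨u, v, h⟩ := p.irreducible.coprime_iff_not_dvd.2 h2
        exact ⟨0, v, -u, by linear_combination h⟩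
    · obtain ⟨u, v, h⟩ := p.irreducible.coprime_iff_not_dvd.2 h1
      exact ⟨v, 0, -u, by linear_combination h⟩
  · rw [← (f _).1, ← (f _).2, mul_right_comm, e, ← nsmul_eq_mul, map_nsmul, map_nsmul]
    simp

end Vale.Agent.P014Z.Tz
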