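import Vale.Agent.P014Z.Tz.St

/-! # P014Z, block TZ, row YD: the distribution law for the products -/

set_option autoImplicit false
set_option linter.all false

open UpperHalfPlane Finset

namespace Vale.Agent.P014Z.Tz

namespace Yd

theorem shift {M : Type} [CommMonoid M] {n : ℕ} (n0 : 0 < n) (κ : ℕ) : ∀ G : ℕ → M,
    (∀ k, G (k + n) = G k) → ∏ k ∈ range n, G (k + κ) = ∏ k ∈ range n, G k := by
  obtain ⟨m, rfl⟩ : ∃ m, n = m + 1 := ⟨n - 1, by omega⟩
  induction κ with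
  | zero => intro G _; rfl
  | succ κ ih =>
    intro G h
    have := ih (fun k => G (k + 1)) fun k => by rw [add_right_comm, h]
    simp only [← add_assoc]
    rw [this, prod_range_succ, prod_range_succ' G, ← h 0, zero_add]

theorem crt {f n : ℕ} (h : f.Coprime n) {a : ℤ} (h1 : (f : ℤ) ∣ a) (h2 : (n : ℤ) ∣ a) :
    ∃ t, a = f * n * t := (Nat.isCoprime_iff_coprime.2 h).mul_dvd h1 h2

theorem ex_k {f n : ℕ} (h : f.Coprime n) (n0 : 0 < n) (t : ℤ) : ∃ κ : ℕ, (n : ℤ) ∣ t - f * κ := by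
  obtain ⟨u, v, e⟩ := Nat.isCoprime_iff_coprime.2 h
  obtain ⟨w, hw⟩ := (Int.mod_modEq (u * t) n).dvd
  refine ⟨(u * t % n).toNat, v * t + f * w, ?_⟩
  rw [Int.toNat_of_nonneg (Int.emod_nonneg _ (by exact_mod_cast n0.ne'))]
  linear_combination -t * e + f * hw

theorem per {l d : ℕ} {Ψ : ℤ → ℤ → ℍ → ℂ} (S : Sy l d Ψ) {x y x' y' : ℤ} (s t : ℤ) (τ : ℍ)
    (h : x' = x + d * s) (h' : y' = y + d * t) : Ψ x' y' τ = Ψ x y τ := by
  rw [h, h', S.per]

end Yd

open Yd in
theorem yd (dis : DIS) : YD := by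
  intro l f c _ Ψ S cp
  refine ⟨fun ν r s u v τ => ?_, fun n e hc n0 l0 nl A B C D w₁ w₂ τ τ' m lC fB fC ν ν' sh r' s' r s
    h1 h2 => ?_⟩
  · refine prod_congr rfl fun x _ => prod_congr rfl fun y _ => ?_
    congr 1
    exact per S u v τ (by push_cast; ring) (by push_cast; ring)
  have fn : f.Coprime n := (hc ▸ cp).coprime_mul_right_right
  have B0 := (ZMod.intCast_zmod_eq_zero_iff_dvd B f).2 fB
  have C0 := (ZMod.intCast_zmod_eq_zero_iff_dvd C f).2 fC
  have ad : (A : ZMod f) * D = n := by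
    have := congrArg (Int.cast : ℤ → ZMod f) m.det
    push_cast at this
    rwa [B0, zero_mul, sub_zero] at this
  have un : IsUnit (n : ZMod f) := (ZMod.isUnit_iff_coprime n f).2 fn.symm
  have ex : ∀ z : ZMod f, IsUnit z → ∃ α : (ZMod f)ˣ, (n : ZMod f) * α = z := fun z hz =>
    ⟨un.unit⁻¹ * hz.unit, by rw [Units.val_mul, ← mul_assoc, IsUnit.mul_val_inv, one_mul]; rfl⟩
  obtain ⟨α, hα⟩ := ex A (isUnit_of_mul_isUnit_left (ad ▸ un))
  obtain ⟨δ, hδ⟩ := ex D (isUnit_of_mul_isUnit_right (ad ▸ un))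
  have e1 : (n : ZMod f) * α * δ = 1 := un.mul_left_cancel (by
    rw [← hα, ← hδ] at ad
    linear_combination ad)
  obtain ⟨a₁, a1, a2⟩ := m.r1
  obtain ⟨a₂, a3, a4⟩ := m.r2
  simp only [yr]
  rw [prod_comm (s := range n)]
  refine Fintype.prod_equiv (Equiv.mulRight α) _ _ fun x => ?_
  rw [prod_comm]
  refine Fintype.prod_equiv (Equiv.mulRight δ) _ _ fun y => ?_
  rw [Equiv.coe_mulRight, Equiv.coe_mulRight, prod_zpow, sh (x * y) (x * α * (y * δ)) (by
    push_cast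
    linear_combination -(x * y : ZMod f) * e1)]
  congr 1
  generalize hx : ((x : ZMod f).val : ℤ) = X
  generalize hy : ((y : ZMod f).val : ℤ) = Y
  generalize hx' : (((x * α : (ZMod f)ˣ) : ZMod f).val : ℤ) = X'
  generalize hy' : (((y * δ : (ZMod f)ˣ) : ZMod f).val : ℤ) = Y'
  have cs : ∀ {z : ZMod f} {Z : ℤ}, (z.val : ℤ) = Z → (Z : ZMod f) = z := fun h => by
    rw [← h, Int.cast_natCast, ZMod.natCast_zmod_val]
  obtain ⟨κ, hk⟩ := ex_k fn n0 (X * a₁ + Y * a₂)
  obtain ⟨t₁, t1⟩ := crt fn (a := X * A + Y * C - n * X' - f * κ * w₁) (by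
    rw [← ZMod.intCast_zmod_eq_zero_iff_dvd]
    push_cast
    rw [cs hx, cs hx', C0, ZMod.natCast_self, ← hα]
    push_cast
    ring) (by
    rw [show X * A + Y * C - n * X' - f * κ * w₁ = X * (A - a₁ * w₁) + Y * (C - a₂ * w₁) +
      (X * a₁ + Y * a₂ - f * κ) * w₁ - n * X' by ring]
    exact dvd_sub (dvd_add (dvd_add (a1.mul_left _) (a3.mul_left _)) (hk.mul_right _))
      (dvd_mul_right _ _))
  obtain ⟨t₂, t2⟩ := crt fn (a := X * B + Y * D - n * Y' - f * κ * w₂) (by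
    rw [← ZMod.intCast_zmod_eq_zero_iff_dvd]
    push_cast
    rw [cs hy, cs hy', B0, ZMod.natCast_self, ← hδ]
    push_cast
    ring) (by
    rw [show X * B + Y * D - n * Y' - f * κ * w₂ = X * (B - a₁ * w₂) + Y * (D - a₂ * w₂) +
      (X * a₁ + Y * a₂ - f * κ) * w₂ - n * Y' by ring]
    exact dvd_sub (dvd_add (dvd_add (a2.mul_left _) (a4.mul_left _)) (hk.mul_right _))
      (dvd_mul_right _ _))
  subst hc
  rw [dis l _ Ψ S n (f * e) (by ring) n0 l0 nl A B C D w₁ w₂ τ τ' m lC _ _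
    (e * (X * A + Y * C) + f * r) (e * (X * B + Y * D) + f * s)
    (by push_cast; linear_combination f * h1) (by push_cast; linear_combination f * h2),
    ← shift n0 κ (fun k => Ψ ((n * e : ℕ) * X' + f * (r + k * e * w₁))
      ((n * e : ℕ) * Y' + f * (s + k * e * w₂)) τ) fun k =>
      per S w₁ w₂ τ (by push_cast; ring) (by push_cast; ring)]
  exact prod_congr rfl fun k _ => per S t₁ t₂ τ (by push_cast; linear_combination e * t1)
    (by push_cast; linear_combination e * t2)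

end Vale.Agent.P014Z.Tz
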