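import Mathlib

/-! # P014Z, trivial zeros: the combinatorial step -/

set_option autoImplicit false

open Finset Function
open scoped Classical

namespace Vale.Agent.P014Z.Tz

variable {ι A : Type} [Fintype ι] [CommRing A] {X : ι → Type} [∀ i, Fintype (X i)]
  [∀ i, Zero (X i)]

theorem split (j : ι) (F : (∀ i, X i) → A) :
    ∑ R, F R = ∑ R : ∀ i, X i with R j = 0, ∑ x, F (update R j x) := by
  rw [sum_comm, ← sum_fiberwise univ (fun R : ∀ i, X i => R j) F]
  refine sum_congr rfl fun x _ => ?_
  refine sum_nbij' (fun R => update R j 0) (fun R => update R j x) ?_ ?_ ?_ ?_ ?_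
  · intro R _
    simp
  · intro R _
    simp
  · intro R h
    rw [update_idem, ← (mem_filter.1 h).2, update_eq_self]
  · intro R h
    rw [update_idem, ← (mem_filter.1 h).2, update_eq_self]
  · intro R h
    rw [update_idem, ← (mem_filter.1 h).2, update_eq_self]

/-- characters on `D`, non zero coordinates on `U`, zero elsewhere -/
noncomputable def nn (η : ∀ i, X i → A) (L : (∀ i, X i) → A) (D U : Finset ι) : A :=
  ∑ R : ∀ i, X i with (∀ i ∈ U, R i ≠ 0) ∧ ∀ i, i ∉ D → i ∉ U → R i = 0,
    (∏ i ∈ D, η i (R i)) * L R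

variable {η : ∀ i, X i → A} {L : (∀ i, X i) → A} {π : ι → ∀ i, X i ≃ X i} {e : ι → A}
  {ε : ι → ι → A} {T : A}

theorem step (π0 : ∀ j i, π j i 0 = 0) (hη : ∀ j i, i ≠ j → ∀ y, η i y = ε j i * η i (π j i y))
    (hL : ∀ j R, R j = 0 → ∑ x, L (update R j x) = e j * L fun i => π j i (R i))
    {D U : Finset ι} {j : ι} (d : j ∉ D) (u : j ∉ U) :
    nn η L D (insert j U) = (e j * ∏ i ∈ D, ε j i - 1) * nn η L D U := by
  have z (i) (y : X i) : π j i y = 0 ↔ y = 0 := by
    rw [← π0 j i, EmbeddingLike.apply_eq_iff_eq]
    rw [π0]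
  have nd {i} (h : i ∈ D) : i ≠ j := fun k => d (k ▸ h)
  have nu {i} (h : i ∈ U) : i ≠ j := fun k => u (k ▸ h)
  have a : nn η L D (insert j U) + nn η L D U = ∑ R : ∀ i, X i,
      if (∀ i ∈ U, R i ≠ 0) ∧ ∀ i, i ∉ D → i ∉ U → i ≠ j → R i = 0 then
        (∏ i ∈ D, η i (R i)) * L R else 0 := by
    rw [nn, nn, sum_filter, sum_filter, ← sum_add_distrib]
    refine sum_congr rfl fun R _ => ?_
    by_cases r : R j = 0
    · rw [if_neg fun h => h.1 j (mem_insert_self _ _) r, zero_add]
      refine if_congr (and_congr_right fun _ => ⟨fun h i x y _ => h i x y, fun h i x y => ?_⟩) rfl rfl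
      by_cases k : i = j
      · exact k ▸ r
      · exact h i x y k
    · rw [if_neg fun h : _ ∧ ∀ i, i ∉ D → i ∉ U → R i = 0 => r (h.2 j d u), add_zero]
      refine if_congr ⟨fun h => ⟨fun i x => h.1 i (mem_insert_of_mem x), fun i x y k =>
        h.2 i x fun w => (mem_insert.1 w).elim k y⟩, fun h => ⟨fun i x => ?_, fun i x y =>
        h.2 i x (fun w => y (mem_insert_of_mem w)) fun w => y (w ▸ mem_insert_self _ _)⟩⟩ rfl rfl
      rcases mem_insert.1 x with rfl | x
      · exact r
      · exact h.1 i x
  have b : nn η L D (insert j U) + nn η L D U = (e j * ∏ i ∈ D, ε j i) * nn η L D U := by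
    rw [a, split j, nn, mul_sum, sum_filter, sum_filter]
    refine Fintype.sum_equiv (Equiv.piCongrRight (π j)) _ _ fun R => ?_
    simp only [Equiv.piCongrRight_apply, Pi.map_apply, ne_eq, z]
    by_cases r : R j = 0
    · rw [if_pos r]
      by_cases c : (∀ i ∈ U, ¬ R i = 0) ∧ ∀ i, i ∉ D → i ∉ U → R i = 0
      · rw [if_pos c, sum_congr rfl fun x _ => if_pos ⟨fun i h => by
          rw [update_of_ne (nu h)]; exact c.1 i h, fun i x y k => by
          rw [update_of_ne k]; exact c.2 i x y⟩]
        rw [sum_congr rfl fun x _ => show (∏ i ∈ D, η i (update R j x i)) * L (update R j x) =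
          (∏ i ∈ D, ε j i * η i (π j i (R i))) * L (update R j x) from by
            rw [prod_congr rfl fun i h => by rw [update_of_ne (nd h), hη j i (nd h)]],
          ← mul_sum, hL j R r, prod_mul_distrib]
        have : (fun i => π j i (R i)) = Equiv.piCongrRight (π j) R := rfl
        rw [this]
        ring
      · rw [if_neg c]
        refine sum_eq_zero fun x _ => if_neg fun h => c ⟨fun i k => ?_, fun i y w => ?_⟩
        · have := h.1 i k
          rwa [update_of_ne (nu k)] at this
        · by_cases k : i = j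
          · exact k ▸ r
          · have := h.2 i y w k
            rwa [update_of_ne k] at this
    · rw [if_neg r, if_neg fun h => r (h.2 j d u)]
  linear_combination b

/-- **one zero for every place** -/
theorem tz (π0 : ∀ j i, π j i 0 = 0) (hη : ∀ j i, i ≠ j → ∀ y, η i y = ε j i * η i (π j i y))
    (hL : ∀ j R, R j = 0 → ∑ x, L (update R j x) = e j * L fun i => π j i (R i))
    (η0 : ∀ i, η i 0 = 0) (η1 : ∀ i y, y ≠ 0 → T ∣ η i y - 1) (he : ∀ j, T ∣ e j - 1)
    (hε : ∀ j i, T ∣ ε j i - 1) : T ^ Fintype.card ι ∣ ∑ R, (∏ i, η i (R i)) * L R := by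
  have one (j) (D : Finset ι) : T ∣ e j * ∏ i ∈ D, ε j i - 1 := by
    have : T ∣ ∏ i ∈ D, ε j i - 1 := by
      induction D using Finset.induction_on with
      | empty => simp
      | insert i D h k =>
        rw [prod_insert h, show ε j i * ∏ i ∈ D, ε j i - 1 =
          ε j i * (∏ i ∈ D, ε j i - 1) + (ε j i - 1) by ring]
        exact dvd_add (k.mul_left _) (hε j i)
    rw [show e j * ∏ i ∈ D, ε j i - 1 = e j * (∏ i ∈ D, ε j i - 1) + (e j - 1) by ring]
    exact dvd_add (this.mul_left _) (he j)
  have up (D U : Finset ι) (h : T ^ D.card ∣ nn η L D ∅) (d : Disjoint D U) :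
      T ^ (D.card + U.card) ∣ nn η L D U := by
    induction U using Finset.induction_on with
    | empty => simpa using h
    | insert j U u k =>
      rw [disjoint_insert_right] at d
      rw [step π0 hη hL d.1 u, card_insert_of_notMem u, ← add_assoc, pow_succ']
      exact mul_dvd_mul (one j D) (k d.2)
  have key (E : Finset ι) : T ^ E.card ∣ nn η L E ∅ := by
    induction E using Finset.strongInduction with
    | H E ih =>
      have a : T ^ E.card ∣ ∑ D ∈ E.powerset, (-1) ^ (E \ D).card * nn η L D (E \ D) := by
        have : ∑ D ∈ E.powerset, (-1) ^ (E \ D).card * nn η L D (E \ D) =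
            ∑ R : ∀ i, X i with ∀ i, i ∉ E → R i = 0,
              (∏ i ∈ E, (η i (R i) + -if R i = 0 then 0 else 1)) * L R := by
          simp only [prod_add, sum_mul, nn, mul_sum, sum_filter]
          rw [sum_comm]
          refine sum_congr rfl fun R _ => ?_
          by_cases c : ∀ i, i ∉ E → R i = 0
          · rw [if_pos c]
            refine sum_congr rfl fun D d => ?_
            by_cases u : ∀ i ∈ E \ D, R i ≠ 0
            · rw [if_pos ⟨u, fun i x y => c i fun w => y (mem_sdiff.2 ⟨w, x⟩)⟩,
                prod_congr rfl fun i h => show (-if R i = 0 then (0 : A) else 1) = -1 by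
                  rw [if_neg (u i h)], prod_const]
              ring
            · rw [if_neg fun h => u h.1]
              push Not at u
              obtain ⟨i, h, k⟩ := u
              rw [prod_eq_zero h (by rw [if_pos k, neg_zero])]
              ring
          · rw [if_neg c]
            refine sum_eq_zero fun D d => ?_
            rw [if_neg fun h => c fun i x => h.2 i (fun w => x (mem_powerset.1 d w))
              fun w => x (mem_sdiff.1 w).1, mul_zero]
        rw [this]
        refine dvd_sum fun R _ => Dvd.dvd.mul_right ?_ _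
        rw [← prod_const]
        refine prod_dvd_prod_of_dvd _ _ fun i _ => ?_
        by_cases r : R i = 0
        · rw [if_pos r, r, η0, neg_zero, add_zero]
          exact dvd_zero _
        · rw [if_neg r, ← sub_eq_add_neg]
          exact η1 i _ r
      rw [← add_sum_erase _ _ (mem_powerset_self E), sdiff_self, bot_eq_empty, card_empty, pow_zero,
        one_mul] at a
      refine (dvd_add_left (dvd_sum fun D d => Dvd.dvd.mul_left ?_ _)).1 a
      have s := mem_powerset.1 (mem_erase.1 d).2
      have := up D (E \ D) (ih D (ssubset_of_subset_of_ne s (mem_erase.1 d).1)) disjoint_sdiff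
      rwa [add_comm, card_sdiff_add_card_eq_card s] at this
  have := key univ
  rwa [nn, filter_true_of_mem fun R _ => ⟨fun _ h => absurd h (notMem_empty _),
    fun i h => absurd (mem_univ i) h⟩] at this

end Vale.Agent.P014Z.Tz
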