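import Mathlib

/-! # P014Z: trivial zeros from norm relations (algebra) -/

set_option autoImplicit false
set_option linter.all false

open Finset

namespace Vale.Agent.P014Z.Tz

variable {A ι V : Type*} [CommRing A] [DecidableEq ι] [AddCommGroup V] [Module A V]

/-- removing the indices outside `E` -/
theorem down (I : Ideal A) (Q : Finset ι) (M : Finset ι → Finset ι → V) (E : Finset ι) (k : ℕ)
    (h0 : M E E ∈ I ^ k • (⊤ : Submodule A V))
    (h2 : ∀ D ⊆ Q, E ⊆ D → ∀ i ∈ D, i ∉ E → ∃ e ∈ I, M D E = e • M (D.erase i) E) :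
    ∀ (n : ℕ) (D : Finset ι), D ⊆ Q → E ⊆ D → D.card = E.card + n →
      M D E ∈ I ^ (k + n) • (⊤ : Submodule A V) := by
  intro n
  induction n with
  | zero =>
    intro D _ hE c
    obtain rfl : E = D := eq_of_subset_of_card_le hE (by omega)
    simpa using h0
  | succ n ih =>
    intro D hD hE c
    obtain ⟨i, hi, hn⟩ : ∃ i ∈ D, i ∉ E := by
      by_contra h
      push Not at h
      have := card_le_card (show D ⊆ E from h)
      omega
    obtain ⟨e, he, eq⟩ := h2 D hD hE i hi hn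
    have := ih (D.erase i) ((erase_subset _ _).trans hD)
      (fun x hx => mem_erase.2 ⟨fun h => hn (h ▸ hx), hE hx⟩) (by rw [card_erase_of_mem hi]; omega)
    rw [eq, ← add_assoc, pow_succ', Submodule.mul_smul]
    exact Submodule.smul_mem_smul he this

/-- **the induction** -/
theorem alg (I : Ideal A) (Q : Finset ι) (M : Finset ι → Finset ι → V)
    (h1 : ∀ D ⊆ Q, ∑ E ∈ D.powerset, ((-1 : A) ^ (D \ E).card) • M D E ∈
      I ^ D.card • (⊤ : Submodule A V))
    (h2 : ∀ D ⊆ Q, ∀ E ⊆ D, ∀ i ∈ D, i ∉ E → ∃ e ∈ I, M D E = e • M (D.erase i) E) :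
    ∀ D ⊆ Q, M D D ∈ I ^ D.card • (⊤ : Submodule A V) := by
  intro D
  induction D using Finset.strongInduction with
  | H D ih =>
    intro hD
    have h := h1 D hD
    rw [← add_sum_erase _ _ (mem_powerset_self D), sdiff_self, Finset.bot_eq_empty, card_empty,
      pow_zero, one_smul] at h
    refine (Submodule.add_mem_iff_left _ (Submodule.sum_mem _ fun E hE => ?_)).1 h
    obtain ⟨ne, hE⟩ := mem_erase.1 hE
    have sub := mem_powerset.1 hE
    have c := card_le_card sub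
    have := down I Q M E E.card (ih E ⟨sub, fun h => ne (Subset.antisymm sub h)⟩ (sub.trans hD))
      (fun D' h' hE' => h2 D' h' E hE') (D.card - E.card) D hD sub (by omega)
    rw [show E.card + (D.card - E.card) = D.card by omega] at this
    exact Submodule.smul_mem _ _ this

/-- the alternating sum is a product -/
theorem alt (D : Finset ι) (x : ι → A) :
    ∑ E ∈ D.powerset, (-1 : A) ^ (D \ E).card * ∏ j ∈ E, x j = ∏ j ∈ D, (x j - 1) := by
  simp only [sub_eq_add_neg]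
  rw [prod_add]
  refine sum_congr rfl fun E _ => ?_
  rw [prod_const, mul_comm]

theorem prod_mem (I : Ideal A) (D : Finset ι) (x : ι → A) (h : ∀ j ∈ D, x j ∈ I) :
    ∏ j ∈ D, x j ∈ I ^ D.card := by
  rw [← prod_const]
  exact Ideal.prod_mem_prod h

/-- **measures with norm relations vanish to the order of the number of places** -/
theorem mea {G : Type*} (I : Ideal A) (Q : Finset ι) (R : Finset ι → Finset G)
    (μ : Finset ι → G → V) (Ψ : ι → G → A) (h : ∀ D ⊆ Q, ∀ i ∈ D, ∀ g ∈ R D, Ψ i g - 1 ∈ I)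
    (nr : ∀ D ⊆ Q, ∀ E ⊆ D, ∀ i ∈ D, i ∉ E → ∃ e ∈ I, ∑ g ∈ R D, (∏ j ∈ E, Ψ j g) • μ D g =
      e • ∑ g ∈ R (D.erase i), (∏ j ∈ E, Ψ j g) • μ (D.erase i) g) :
    ∑ g ∈ R Q, (∏ j ∈ Q, Ψ j g) • μ Q g ∈ I ^ Q.card • (⊤ : Submodule A V) := by
  refine alg I Q (fun D E => ∑ g ∈ R D, (∏ j ∈ E, Ψ j g) • μ D g) (fun D hD => ?_) nr Q Subset.rfl
  simp only [smul_sum, smul_smul]
  rw [sum_comm]
  refine Submodule.sum_mem _ fun g hg => ?_
  rw [← sum_smul, alt]
  exact Submodule.smul_mem_smul (prod_mem I D _ fun j hj => h D hD j hj g hg) trivial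

/-- the same for a principal ideal -/
theorem dvd {G : Type*} (t : A) (Q : Finset ι) (R : Finset ι → Finset G)
    (μ : Finset ι → G → A) (Ψ : ι → G → A) (h : ∀ D ⊆ Q, ∀ i ∈ D, ∀ g ∈ R D, t ∣ Ψ i g - 1)
    (nr : ∀ D ⊆ Q, ∀ E ⊆ D, ∀ i ∈ D, i ∉ E → ∃ e, t ∣ e ∧ ∑ g ∈ R D, (∏ j ∈ E, Ψ j g) * μ D g =
      e * ∑ g ∈ R (D.erase i), (∏ j ∈ E, Ψ j g) * μ (D.erase i) g) :
    t ^ Q.card ∣ ∑ g ∈ R Q, (∏ j ∈ Q, Ψ j g) * μ Q g := by
  have := mea (V := A) (Ideal.span {t}) Q R μ Ψ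
    (fun D hD i hi g hg => Ideal.mem_span_singleton.2 (h D hD i hi g hg))
    (fun D hD E hE i hi hn => by
      obtain ⟨e, he, eq⟩ := nr D hD E hE i hi hn
      exact ⟨e, Ideal.mem_span_singleton.2 he, eq⟩)
  rwa [Ideal.span_singleton_pow, smul_eq_mul, Ideal.mul_top, Ideal.mem_span_singleton] at this

end Vale.Agent.P014Z.Tz
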