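import Vale.Agent.P014Z.Tz.St

/-! # P014Z, block TZ: the distribution laws at the points `f τ` (helper29) -/

set_option autoImplicit false
set_option linter.all false

open UpperHalfPlane NumberField

noncomputable section

namespace Vale.Agent.P014Z.Tz.Mf

open Vale.Agent.P022 (Qb)

/-- conjugation by `diag (f, 1)` -/
theorem up {n f : ℕ} {A B C D w₁ w₂ : ℤ} {τ τ' z z' : ℍ} (h : Mv n A B (f * C) D w₁ w₂ τ τ')
    (co : f.Coprime n) (e : (z : ℂ) = f * τ) (e' : (z' : ℂ) = f * τ') :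
    Mv n A (f * B) C D w₁ (f * w₂) z z' := by
  obtain ⟨x, y, p⟩ := Nat.isCoprime_iff_coprime.2 co
  obtain ⟨u, v, k, q⟩ := h.pr
  obtain ⟨a, a1, a2⟩ := h.r1
  obtain ⟨b, ⟨k1, b1⟩, k2, b2⟩ := h.r2
  refine ⟨by linear_combination h.det, ?_, ⟨u, v * x, k - v * w₂ * y, by
    linear_combination q + v * w₂ * p⟩, ⟨a, a1, by
      rw [mul_left_comm, ← mul_sub]; exact a2.mul_left _⟩, b * x,
    ⟨x * k1 + y * C, by linear_combination x * b1 - C * p⟩, k2 + b * w₂ * y, by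
      linear_combination b2 - b * w₂ * p⟩
  have := h.eq
  rw [e, e']
  push_cast at this ⊢
  linear_combination f * this

variable (yd : YD) {l f c M : ℕ} [NeZero f] {Ψ : ℤ → ℤ → ℍ → ℂ} (sy : Sy l (f * c) Ψ)
  (co : c.Coprime M) (hM : 0 < M) (ff : f * f ∣ M) (lf : l * f ∣ M)

include yd sy co hM ff lf

/-- **the law at `f τ`** -/
theorem law {n e : ℕ} (hc : c = n * e) (hn : 0 < n) {A B C D w₁ w₂ : ℤ} {τ τ' z z' : ℍ}
    (h : Mv n A B C D w₁ w₂ τ τ') (d : (M : ℤ) ∣ C) (ez : (z : ℂ) = f * τ) (ez' : (z' : ℂ) = f * τ')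
    {ν ν' : (ZMod f)ˣ → ℤ} (sh : Sh n ν ν') {r' s' r s : ℤ} (e1 : r' * A + s' * C = n * r)
    (e2 : r' * B + s' * D = n * s) : yr Ψ f c ν r' (f * s') z' =
      ∏ k ∈ Finset.range n, yr Ψ f c ν' (r + k * e * w₁) (f * (s + k * e * w₂)) z := by
  have fM : f ∣ M := (dvd_mul_left f f).trans ff
  have cn : n.Coprime M := Nat.Coprime.coprime_dvd_left ⟨e, hc⟩ co
  obtain ⟨C, rfl⟩ := (Int.natCast_dvd_natCast.2 fM).trans d
  have f0 : (f : ℤ) ≠ 0 := by exact_mod_cast NeZero.ne f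
  have k : ∀ m : ℕ, m * f ∣ M → (m : ℤ) ∣ C := fun m p => by
    have := (Int.natCast_dvd_natCast.2 p).trans d
    rwa [Nat.cast_mul, mul_comm, mul_dvd_mul_iff_left f0] at this
  rw [(yd l f c Ψ sy (co.coprime_dvd_right fM).symm).2 n e hc hn
    (Nat.pos_of_dvd_of_pos ((dvd_mul_right l f).trans lf) hM)
    (cn.coprime_dvd_right ((dvd_mul_right l f).trans lf)) _ _ _ _ _ _ _ _
    (up h (cn.coprime_dvd_right fM).symm ez ez') (k l lf) (dvd_mul_right _ _) (k f ff) ν ν' sh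
    r' (f * s') r (f * s) (by linear_combination e1) (by linear_combination f * e2)]
  exact Finset.prod_congr rfl fun k _ => by congr 1; ring

/-- the value at a point of conductor `c` -/
theorem top (hc : 0 < c) {O : Type} [CommRing O] (s t : O →+ ℤ) {β : O} {A B C D : ℤ} {τ τ' z z' : ℍ}
    (h : Mv c A B C D (s β) (t β) τ τ') (d : (M : ℤ) ∣ C) (ez : (z : ℂ) = f * τ)
    (ez' : (z' : ℂ) = f * τ') {ν ν' : (ZMod f)ˣ → ℤ} (sh : Sh c ν ν') : yr Ψ f c ν 0 0 z' =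
      ∏ k ∈ Finset.range c, yr Ψ f c ν' (s (k * β)) (f * t (k * β)) z := by
  have := law yd sy co hM ff lf (mul_one c).symm hc h d ez ez' sh (r' := 0) (s' := 0) (r := 0)
    (s := 0) (by ring) (by ring)
  rw [mul_zero] at this
  rw [this]
  exact Finset.prod_congr rfl fun k _ => by
    rw [← nsmul_eq_mul k β, map_nsmul, map_nsmul]; congr 1 <;> simp

/-- the values only depend on the class modulo `c` -/
theorem per {O : Type} [CommRing O] (s t : O →+ ℤ) (ν : (ZMod f)ˣ → ℤ) (z : ℍ) {x y : O}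
    (h : (c : O) ∣ x - y) :
    yr Ψ f c ν (s x) (f * t x) z = yr Ψ f c ν (s y) (f * t y) z := by
  obtain ⟨u, e⟩ := h
  rw [show x = y + c • u by rw [nsmul_eq_mul]; linear_combination e, map_add, map_add, map_nsmul,
    map_nsmul, ← (yd l f c Ψ sy (co.coprime_dvd_right ((dvd_mul_left f f).trans ff)).symm).1 ν
      (s y) (f * t y) (s u) (f * t u)]
  congr 1 <;> simp [mul_add, mul_left_comm]

/-- **multiplication by a split prime element** -/
theorem spl (sp : SPL) {K : Type} [Field K] [NumberField K] {j : K →+* Qb} (iq : P004K.Iq K)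
    {τ z : ℍ} {s t : 𝓞 K →+ ℤ} (C0 : Co j M c τ s t) {q e : ℕ} (hq : q.Prime) (hc : c = q * e)
    {π π' : 𝓞 K} (pp : π * π' = q) (u : ¬ IsUnit π) (u' : ¬ IsUnit π') (ez : (z : ℂ) = f * τ)
    {ν : (ZMod f)ˣ → ℤ} (sh : Sh q ν ν) (β : 𝓞 K) :
    yr Ψ f c ν (s (π * β)) (f * t (π * β)) z = ∏ k ∈ Finset.range q,
      yr Ψ f c ν (s (β + k * (e * π'))) (f * t (β + k * (e * π'))) z := by
  obtain ⟨-, A, B, C, D, d, h, k⟩ := sp K j iq M c q τ s t C0 hq ⟨e, hc⟩ π π' pp u u'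
  rw [law yd sy co hM ff lf hc hq.pos h d ez ez sh (k β).1 (k β).2]
  exact Finset.prod_congr rfl fun k _ => by
    rw [← nsmul_eq_mul e π', ← nsmul_eq_mul k (e • π'), map_add, map_add, map_nsmul, map_nsmul, map_nsmul,
      map_nsmul]
    congr 1 <;> simp [mul_assoc]

end Vale.Agent.P014Z.Tz.Mf
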