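import Vale.Agent.P014Z.Tz.St2
import Vale.Agent.P014Z.Tz.Mvf
import Vale.Agent.P004Z.Fin.Bas

/-! # P014Z, block TZ: the core at a place (helper81) -/

set_option autoImplicit false
set_option linter.all false

open UpperHalfPlane NumberField
open scoped Classical

noncomputable section

namespace Vale.Agent.P014Z.Tz

open Vale.Agent.P022 (Qb GQ GK)
open P027H P027M.M P004K
open P004Z.Fin (vO vO_lt)

namespace Cr

variable {V : AbsoluteValue ℂ ℝ} (h : IsNonarchimedean V)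

/-- the residue of a number -/
def rv (z : ℂ) : IsLocalRing.ResidueField (vO h) :=
  if e : V z ≤ 1 then IsLocalRing.residue (vO h) ⟨z, e⟩ else 0

theorem rs_coe (z : vO h) : rv h z = IsLocalRing.residue (vO h) z := dif_pos z.2

theorem rs_zero (z : vO h) : IsLocalRing.residue (vO h) z = 0 ↔ V z < 1 := by
  rw [IsLocalRing.residue_eq_zero_iff, ValuationSubring.valuation_lt_one_iff, vO_lt]

theorem rs_near {x y : ℂ} (hy : V y ≤ 1) (e : V (x - y) < 1) : V x ≤ 1 ∧ rv h x = rv h y := by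
  have hx : V x ≤ 1 := by
    simpa using (h (x - y) y).trans (max_le e.le hy)
  refine ⟨hx, ?_⟩
  rw [rs_coe h ⟨x, hx⟩, rs_coe h ⟨y, hy⟩, ← sub_eq_zero, ← map_sub, rs_zero]
  exact e

theorem rs_add {x y : ℂ} (hx : V x ≤ 1) (hy : V y ≤ 1) : rv h (x + y) = rv h x + rv h y := by
  rw [rs_coe h ⟨x, hx⟩, rs_coe h ⟨y, hy⟩, ← map_add, ← rs_coe]
  rfl

/-- the numbers which are `1` modulo `w` -/
def sw {w : ℂ} (w1 : V w < 1) : Submonoid ℂ where
  carrier := {z | V (z - 1) ≤ V w}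
  one_mem' := by simp
  mul_mem' {a b} ha hb := by
    change V (a * b - 1) ≤ V w
    rw [show a * b - 1 = (a - 1) * (b - 1) + ((a - 1) + (b - 1)) by ring]
    refine (h _ _).trans (max_le ?_ ((h _ _).trans (max_le ha hb)))
    rw [map_mul]
    exact (mul_le_of_le_one_left (V.nonneg _) (le_trans ha w1.le)).trans hb

theorem quo {w z : ℂ} (w0 : w ≠ 0) (e : V (z - 1) ≤ V w) : V ((z - 1) / w) ≤ 1 := by
  rw [map_div₀]
  exact div_le_one_of_le₀ e (V.nonneg _)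

theorem lg {w : ℂ} (w0 : w ≠ 0) (w1 : V w < 1) {a b : ℂ} (ha : V (a - 1) ≤ V w)
    (hb : V (b - 1) ≤ V w) :
    rv h ((a * b - 1) / w) = rv h ((a - 1) / w) + rv h ((b - 1) / w) := by
  have A := quo w0 ha
  have B := quo w0 hb
  rw [← rs_add h A B]
  refine (rs_near h ((h _ _).trans (max_le A B)) ?_).2
  rw [show (a * b - 1) / w - ((a - 1) / w + (b - 1) / w) = (a - 1) * ((b - 1) / w) by
    field_simp; ring, map_mul]
  exact (mul_le_of_le_one_right (V.nonneg _) B).trans_lt (ha.trans_lt w1)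

end Cr

open Cr

/-- the value at a point of conductor `c` lies in the monoid of the values of conductor one -/
theorem mem (geo : GEO) (yd : YD) (r2 : RC2) (hg1 : HG1) (cj : CJ0) {K : Type} [Field K]
    [NumberField K] {j : K →+* Qb} (iq : Iq K) {M c f l : ℕ} [NeZero f] {I : Ideal (𝓞 K)}
    {Ψ : ℤ → ℤ → ℍ → ℂ} {ν ν' : (ZMod f)ˣ → ℤ} (hM : 0 < M) (cn : Cn M I) (hc : 0 < c)
    (co : c.Coprime M) (ff : f * f ∣ M) (lf : l * f ∣ M) (sy : Sy l (f * c) Ψ) (sh : Sh c ν ν')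
    (S : Submonoid ℂ) (hS : ∀ g ∈ GK j, ∀ σ (τ₁ τ₀ τ' : ℍ), Ex σ g → Hp (JJ j) M I 1 τ₁ →
      Cj0 σ M τ₁ τ₀ → (τ' : ℂ) = f * τ₀ → ∀ r s, yr Ψ f c ν' r s τ' ∈ S)
    {g : GQ} (hg : g ∈ GK j) {σ : ℂ ≃+* ℂ} {τ τ₀ τ' : ℍ} (ex : Ex σ g) (hp : Hp (JJ j) M I c τ)
    (c0 : Cj0 σ M τ τ₀) (e : (τ' : ℂ) = f * τ₀) : yr Ψ f c ν 0 0 τ' ∈ S := by
  obtain ⟨b, cb, ar⟩ := (r2 K j iq c hc).2.1 g hg 1 one_pos
  rw [mul_one] at cb
  have a1 := (r2 K j iq 1 one_pos).2.2.2.2.2.1 c b g hc (by rwa [one_mul]) (by rwa [one_mul])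
  obtain ⟨τ₁, h1⟩ := (hg1 K j iq M 1 I hM one_pos (Nat.coprime_one_left M) cn).1
  obtain ⟨t₀, c1⟩ := (cj σ M hM).1 τ₁
  obtain ⟨s, t, -, k⟩ := geo K j iq M c I b hM hc co cn cb g σ τ₁ t₀ a1 ex h1 c1
  obtain ⟨A, B, C, D, d, mv⟩ := k 1 g σ τ τ₀ (by simp [Cop]) (by simpa using ar) ex hp c0
  have f0 : (0 : ℝ) < f := Nat.cast_pos.2 (NeZero.pos f)
  let z : ℍ := ⟨f * t₀, by simpa using mul_pos f0 t₀.im_pos⟩
  rw [Mf.top yd sy co hM ff lf hc s t mv d (z := z) rfl e sh]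
  exact S.prod_mem fun k _ => hS g hg σ τ₁ t₀ z ex h1 c1 rfl _ _

/-- **the core** -/
theorem cor (cr0 : CR0) (geo : GEO) (yd : YD) (r2 : RC2) (hg1 : HG1) (cj : CJ0) : COR := by
  intro K _ _ j iq up p k M c f l _ I e R P V w Ψ ν ν' Q h hp hM cn sq co ff lf ea e0 e1 tv pP vp
    w0 w1 sy sh hQ hS hR lt i hi
  have hV := vp.1
  have p1 : V p < 1 := by
    obtain ⟨s, -, n, -⟩ := (vp.2 0).1.2 (by simp)
    simpa using (vp.2 p).2.1 ⟨s, s * p, n, P.mul_mem_left _ pP, by simp⟩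
  have key : ∀ g ∈ R, V (io (h g)) ≤ 1 ∧ ∃ σ, ∃ τ τ₀ τ' : ℍ, Ex σ g ∧ Hp (JJ j) M I c τ ∧
      Cj0 σ M τ τ₀ ∧ (τ' : ℂ) = f * τ₀ ∧
      rv hV (io (h g)) = rv hV ((yr Ψ f c ν 0 0 τ' - 1) / w) := fun g hg => by
    obtain ⟨σ, τ, τ₀, τ', ex, h1, c0, ez, v⟩ := hR g hg
    have m := mem geo yd r2 hg1 cj iq hM cn (Nat.pos_of_ne_zero sq.ne_zero) co ff lf sy sh
      (sw hV w1) hS (tv.mem g hg) ex h1 c0 ez
    have := rs_near hV (x := io (h g)) (quo w0 m) (by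
      rw [show io (h g) - (yr Ψ f c ν 0 0 τ' - 1) / w =
        (w * io (h g) - (yr Ψ f c ν 0 0 τ' - 1)) / w by field_simp, map_div₀]
      exact (div_lt_one (V.pos w0)).2 v)
    exact ⟨this.1, σ, τ, τ₀, τ', ex, h1, c0, ez, this.2⟩
  have z := cr0 K j iq up p k M c f l I e R _ (sw hV w1) (fun z => rv hV ((z - 1) / w)) Ψ ν ν' Q
    (fun g => rv hV (io (h g))) hp hM cn sq co ff lf ea e0 e1 tv (by
      rw [← map_natCast (IsLocalRing.residue (vO hV)), rs_zero]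
      simpa using p1) (fun a ha b hb => lg hV w0 w1 ha hb) sy sh hQ hS (fun g hg => (key g hg).2)
    lt i hi
  let u : GQ → vO hV := fun g => if m : g ∈ R then ⟨io (h g), (key g m).1⟩ else 0
  have uu : ∀ g ∈ R, (u g : ℂ) = io (h g) := fun g m => by simp [u, m]
  have y : IsLocalRing.residue (vO hV) (∑ g ∈ R, ((e g).val.choose i : vO hV) * u g) = 0 := by
    rw [map_sum, ← z]
    exact Finset.sum_congr rfl fun g m => by rw [map_mul, map_natCast, ← rs_coe, uu g m]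
  rw [rs_zero] at y
  refine (vp.2 _).2.2 ?_
  convert y using 2
  rw [map_sum]
  push_cast
  exact Finset.sum_congr rfl fun g m => by rw [map_mul, map_natCast, uu g m]

end Vale.Agent.P014Z.Tz
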