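import Vale.Agent.P014Z.Tz.Cr0
import Vale.Agent.P014Z.Tz.Cor
import Vale.Agent.P014Z.Tz.Par
import Vale.Agent.P014Z.Tz.Geo
import Vale.Agent.P014Z.Tz.Grp
import Vale.Agent.P014Z.Tz.Spl
import Vale.Agent.P014Z.Tz.Yd
import Vale.Agent.P014Z.Tz.Dis
import Vale.Agent.P014Z.Tz.Loc
import Vale.Agent.P014Z.Tz.Sys
import Vale.Agent.P014Z.Tz.Lnk
import Vale.Agent.P004K.All

/-! # P014Z, block TZ: closed terms -/

set_option autoImplicit false

namespace Vale.Agent.P014Z.Tz

open P004K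

theorem yd_all : YD := yd dis

theorem geo_all : GEO := geo Rc.iq jh x_rc1

theorem par_all : PAR := par x_rc1 x_rc2

theorem cr0_all : CR0 := cr0 y_hg1 cj0 par_all geo_all yd_all spl grp loc

theorem cor_all : COR := cor cr0_all geo_all yd_all x_rc2 y_hg1 cj0

end Vale.Agent.P014Z.Tz
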