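import Vale.Agent.P014Z.Tz.Ind0
import Vale.Agent.P014Z.Tz.St

/-! # P014Z, block TZ: the row IND -/

set_option autoImplicit false
set_option linter.all false

open UpperHalfPlane hiding I
open CongruenceSubgroup PowerSeries
open scoped MatrixGroups Classical

noncomputable section

namespace Vale.Agent.P014Z.Tz

open Vale.Agent.P022 H236 H218.L3 H236.L3 H542.L3 Vale.Agent.P027M.M P004Z.Fin P004F.Qx
open P014T.Sg Su Su.Dp Su.It

namespace Id

variable {p d : ℕ}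

theorem pd_mm (p0 : 0 < p) (d0 : 0 < d) {x : ℤ} (k : ¬ (d : ℤ) ∣ x) (y : ℤ) :
    Mm (Gamma (d ^ 2 * p)) (pd p d x y) := by
  have a := g_mm d0 x y
  have b := Mm.dg (pow_pos d0 2) p0 (g := g12 (x / d) ((p * y : ℤ) / d)) (g_mm d0 x (p * y))
  have a' : Mm (Gamma (d ^ 2 * p)) fun τ => g12 (x / d) (y / d) τ :=
    ⟨a.1, MF_mono (fun γ m => by
      have := Gamma_mem.1 m
      have c := fun z => ZMod.cast_intCast (R := ZMod (d ^ 2)) (dvd_mul_right (d ^ 2) p) z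
      refine Gamma_mem.2 ⟨?_, ?_, ?_, ?_⟩ <;> rw [← c]
      · rw [this.1, ZMod.cast_one (dvd_mul_right _ _)]
      · rw [this.2.1, ZMod.cast_zero]
      · rw [this.2.2.1, ZMod.cast_zero]
      · rw [this.2.2.2, ZMod.cast_one (dvd_mul_right _ _)]) a.2⟩
  have i : ∀ τ : ℍ, 0 < ((p : ℂ) * τ).im := fun τ => by
    simpa using mul_pos (Nat.cast_pos.2 p0) τ.2
  have := ((a'.pow p).div b fun τ => g12_ne (i τ) (nl (i τ) d0.ne' fun e => k e.1)).pow d
  push_cast at this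
  exact this

theorem quo_ex {R : Type} [CommRing R] (ι : R →+* ℂ) (p0 : p ≠ 0) {F G W : R⟦X⟧}
    (h : Dw p F (expand p p0 G) W) (g : constantCoeff G = 1) (n : ℕ) :
    constantCoeff (expand p p0 (map ι G)) ≠ 0 ∧ ∃ W' : R⟦X⟧,
      (map ι F ^ p * (expand p p0 (map ι G))⁻¹) ^ n = 1 + C (p : ℂ) * map ι W' := by
  obtain ⟨r, e⟩ := h
  have c : expand p p0 (map ι G) = map ι (expand p p0 G) := by
    ext n
    simp only [coeff_expand, coeff_map]
    split_ifs <;> simp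
  have z : constantCoeff (expand p p0 (map ι G)) ≠ 0 := by
    rw [← coeff_zero_eq_constantCoeff_apply, coeff_expand, if_pos (dvd_zero _), Nat.zero_div,
      coeff_map, coeff_zero_eq_constantCoeff_apply, g, map_one]
    exact one_ne_zero
  obtain ⟨W', k⟩ : (p : R⟦X⟧) ∣ (1 + p * W + p ^ 2 * r) ^ n - 1 := by
    have := sub_dvd_pow_sub_pow (1 + p * W + p ^ 2 * r) 1 n
    rw [one_pow] at this
    exact Dvd.dvd.trans ⟨W + p * r, by ring⟩ this
  refine ⟨z, W', ?_⟩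
  rw [← map_pow, e, map_mul, ← c, mul_right_comm, PowerSeries.mul_inv_cancel _ z, one_mul,
    ← map_pow, eq_add_of_sub_eq' k, map_add, map_one, map_mul, map_natCast, map_natCast]

theorem pd_eq (a : ℕ) (y : ℤ) {τ τ' : ℍ} (hu : (τ' : ℂ) = p * τ) : pd p d a y τ =
    (bq d a (y / d) τ ^ p * (bq d a (p * (y / d)) τ')⁻¹) ^ (12 * d) := by
  have k1 := g12_bq (d := d) a (y / d) τ
  have k2 := g12_bq (d := d) a (p * (y / d)) τ'
  rw [hu] at k2
  generalize bq d a (y / d) τ = B at k1 ⊢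
  generalize bq d a (p * (y / d)) τ' = B' at k2 ⊢
  push_cast at k1 k2
  rw [pd, Int.cast_natCast, mul_div_assoc, k1, k2, mul_pow (ee _), ← ee_nat,
    show (p : ℂ) * (τ + 6 * (a / d - 1) * (a / d * τ + y / d)) =
      p * τ + 6 * (a / d - 1) * (a / d * (p * τ) + p * (y / d)) by ring,
    mul_div_mul_left _ _ (ee_ne _), pow_right_comm, ← div_pow, ← pow_mul, div_eq_mul_inv]

theorem pd_iq (O : ValuationSubring ℂ) (hp : p.Prime) (h2 : p ≠ 2) {a : ℕ} (a0 : 0 < a)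
    (h : a < d) (y : ℤ) : (fun τ => (pd p d a y τ - 1) / p) ∈ Iq O := by
  have d0 : 0 < d := by omega
  have hu : ∀ z, (mo !![(p : ℤ), 0; 0, ((1 : ℕ) : ℤ)] z : ℂ) = p * z := fun z =>
    (tri_coe 0 hp.pos one_pos z).trans (by simp)
  obtain ⟨z, W, k⟩ := quo_ex O.subtype hp.ne_zero (bs_dw O hp h2 a0 h (y / d)) (bs0 O a0 h _) (12 * d)
  have e3 := (((bq_exq O h (y / d)).pow p).mul
    (((bq_exq O h (p * (y / d))).mulTau hp.ne_zero hu).inv d0.ne' z).2).pow (12 * d)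
  rw [k, mul_zero, neg_zero, add_zero, mul_zero] at e3
  exact iq_quo d0 (Nat.cast_ne_zero.2 hp.ne_zero)
    (e3.congr (.of_forall fun τ => (pd_eq a y (hu τ)).symm))

end Id

open Id in
/-- **IND** -/
theorem ind (sys : SYS) : IND := by
  intro V p M f d h h2 f1 fd d0 pd' M0 dv D τ τ' H e x y cp
  have hp := h.prime
  have s := (sys d d0).2 p hp.pos
  have nd : ∀ x : ℤ, IsCoprime x f → ¬ (d : ℤ) ∣ x := fun x c k => by
    have := Int.isUnit_iff_natAbs_eq.1
      (c.isUnit_of_dvd' ((Int.natCast_dvd_natCast.2 fd).trans k) dvd_rfl)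
    rw [Int.natAbs_natCast] at this
    omega
  have md : ∀ x y : ℤ, pd p d x y = pd p d (x % d) (y % d) := fun x y => funext fun τ => by
    rw [← s.per (x % d) (y % d) (x / d) (y / d), Int.emod_add_mul_ediv, Int.emod_add_mul_ediv]
  have d1 : (d : ℤ) ≠ 0 := by omega
  have k := famv (l := p * f) h M0 (((dvd_mul_right p f).mul_right f).trans dv)
    (Nat.mul_pos (pow_pos d0 2) hp.pos) (by omega) dv
    (S := {F | ∃ x y : ℤ, IsCoprime x f ∧ F = fun τ => (pd p d x y τ - 1) / p})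
    ((((Set.finite_Ico (0 : ℤ) d).prod (Set.finite_Ico (0 : ℤ) d)).image
      fun z τ => (pd p d z.1 z.2 τ - 1) / p).subset (by
        rintro _ ⟨x, y, -, rfl⟩
        exact ⟨(x % d, y % d), ⟨⟨Int.emod_nonneg _ d1, Int.emod_lt_of_pos _ (by omega)⟩,
          Int.emod_nonneg _ d1, Int.emod_lt_of_pos _ (by omega)⟩, by rw [md x y]⟩))
    (by
      rintro _ ⟨x, y, c, rfl⟩
      refine ⟨mm_quo (pd_mm hp.pos d0 (nd x c) y) p, ?_⟩
      obtain ⟨a, ha⟩ := Int.eq_ofNat_of_zero_le (Int.emod_nonneg x d1)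
      have := Int.emod_lt_of_pos x (show (0 : ℤ) < d by omega)
      have := mt Int.dvd_of_emod_eq_zero (nd x c)
      rw [md, ha]
      exact pd_iq _ hp h2 (by omega) (by omega) _)
    (by
      rintro γ ⟨c, hc⟩ ⟨b, hb⟩ _ ⟨x, y, k, rfl⟩
      have dt : γ 0 0 * γ 1 1 - γ 0 1 * γ 1 0 = 1 := (Matrix.det_fin_two _).symm.trans γ.det_coe
      push_cast at hc
      refine ⟨x * γ 0 0 + y * γ 1 0, x * γ 0 1 + y * γ 1 1, ?_, funext fun τ =>
        congrArg (fun z => (z - 1) / (p : ℂ)) (s.law γ ⟨f * c, by rw [hc]; ring⟩ x y τ)⟩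
      rw [hc, show y * (p * f * c) = y * p * c * f by ring]
      exact (k.mul_left ⟨γ 1 1, -(b * γ 1 0), by
        rw [hb] at dt; linear_combination dt⟩).add_mul_right_left _)
    H e _ ⟨x, y, cp, rfl⟩
  have p0 : 0 < V p := V.pos (Nat.cast_ne_zero.2 hp.ne_zero)
  rwa [map_div₀, div_le_one p0] at k

end Vale.Agent.P014Z.Tz
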