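import Vale.Agent.P014Z.Tz.Holv
import Vale.Agent.P014Z.Su.Mod
import Vale.Agent.P014Z.Su.Int
import Vale.Agent.P014Z.Su.Dep0

/-! # P014Z, block TZ: integrality of families of functions of `f τ` (kit) -/

set_option autoImplicit false
set_option linter.all false

open UpperHalfPlane hiding I
open CongruenceSubgroup PowerSeries
open scoped MatrixGroups Classical

noncomputable section

namespace Vale.Agent.P014Z.Tz

open Vale.Agent.P022 H236 H218.L3 H236.L3 H542.L3 Vale.Agent.P027M.M P004Z P004Z.Fin P004F.Qx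
open Vale.Agent.P022K.F0.Cf (jm)
open P014T.Sg Su Su.Dp Su.It

variable {V : AbsoluteValue ℂ ℝ} {p M L f l : ℕ} {D : ℤ} {τ τ' : ℍ}

/-- a finite stable set of functions -/
theorem hols (h : Ov V p) (M0 : 0 < M) (d : p ∣ M) (L0 : 0 < L) {S : Set (ℍ → ℂ)} (fin : S.Finite)
    (mm : ∀ F ∈ S, Mm (Gamma L) F ∧ F ∈ Iq (vO h.na))
    (st : ∀ γ ∈ Gamma0 M, ∀ F ∈ S, (fun τ => F (γ • τ)) ∈ S) (H : Ty V M D τ) :
    ∀ F ∈ S, V (F τ) ≤ 1 := fun F m => by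
  haveI := fin.fintype
  refine holv h M0 d L0 (fun i : S => ⟨i.1, (mm i i.2).1.1⟩) (fun i => (mm i i.2).1.2)
    (fun γ k => ⟨Equiv.ofBijective (fun i : S => (⟨_, st γ k i i.2⟩ : S))
      (Finite.injective_iff_bijective.1 fun a b e => Subtype.ext (funext fun z => ?_)),
      fun _ _ => rfl⟩) (fun i => (mm i i.2).2) H ⟨F, m⟩
  simpa using congrFun (congrArg Subtype.val e) (γ⁻¹ • z)

/-- **families of functions of `τ' = f τ`** -/
theorem famv (h : Ov V p) (M0 : 0 < M) (d : p ∣ M) (L0 : 0 < L) (f0 : 0 < f) (lf : l * f ∣ M)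
    {S : Set (ℍ → ℂ)} (fin : S.Finite) (mm : ∀ F ∈ S, Mm (Gamma L) F ∧ F ∈ Iq (vO h.na))
    (st : ∀ γ : SL(2, ℤ), (l : ℤ) ∣ γ 1 0 → (f : ℤ) ∣ γ 0 1 → ∀ F ∈ S, (fun τ => F (γ • τ)) ∈ S)
    (H : Ty V M D τ) (e : (τ' : ℂ) = f * τ) : ∀ F ∈ S, V (F τ') ≤ 1 := fun F m => by
  let u : ℍ → ℍ := mo !![(f : ℤ), 0; 0, ((1 : ℕ) : ℤ)]
  have hu : ∀ z, (u z : ℂ) = f * z := fun z => by simpa [u] using tri_coe 0 f0 one_pos z
  rw [show τ' = u τ from UpperHalfPlane.ext (e.trans (hu τ).symm)]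
  refine hols h M0 d (Nat.mul_pos L0 f0) (fin.image fun F z => F (u z)) ?_ ?_ H _ ⟨F, m, rfl⟩
  · rintro _ ⟨F, m, rfl⟩
    refine ⟨?_, Iq_tri 0 f0 one_pos (mm F m).2⟩
    have := Mm.dg L0 f0 (g := fun z => F (ofComplex z)) (by simpa using (mm F m).1)
    simpa only [← hu, ofComplex_apply] using this
  · rintro γ k _ ⟨F, m, rfl⟩
    obtain ⟨c, hc⟩ := (Int.natCast_dvd_natCast.2 lf).trans
      ((ZMod.intCast_zmod_eq_zero_iff_dvd _ _).1 (Gamma0_mem.1 k))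
    have dt : γ 0 0 * γ 1 1 - γ 0 1 * γ 1 0 = 1 := (Matrix.det_fin_two _).symm.trans γ.det_coe
    let g : SL(2, ℤ) := ⟨!![γ 0 0, f * γ 0 1; l * c, γ 1 1], by
      rw [Matrix.det_fin_two_of]; push_cast at hc; linear_combination dt + γ 0 1 * hc⟩
    refine ⟨_, st g (dvd_mul_right _ c) (dvd_mul_right _ _) F m, funext fun z => congrArg F ?_⟩
    exact UpperHalfPlane.ext ((f_smul f0 γ g rfl rfl (by
      rw [hc]; change _ = (f : ℤ) * (l * c); push_cast; ring) rfl (hu z)).symm.trans (hu _).symm)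

/-- `(u - 1) / c` -/
theorem mm_quo {Γ : Subgroup SL(2, ℤ)} {u : ℍ → ℂ} (a : Mm Γ u) (c : ℂ) :
    Mm Γ fun τ => (u τ - 1) / c := by
  have hW : (fun τ => (u τ - 1) / c) ∈ Hol := by
    convert Hol.smul_mem (sub_mem a.1 (one_mem Hol)) c⁻¹ using 2 with τ
    simp [div_eq_mul_inv, mul_comm]
  refine ⟨hW, ?_⟩
  have q : inc _ hW = (inc u a.1 - 1) * algebraMap ℂ Mer c⁻¹ := by
    rw [sub_mul, one_mul, eq_sub_iff_add_eq, ← inc_const, ← inc_mul, ← inc_add]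
    refine inc_congr _ (funext fun τ => ?_)
    simp only [Pi.mul_apply, Pi.add_apply]
    ring
  rw [q]
  exact mul_mem (sub_mem a.2 (one_mem _)) (algebraMap_mem _ _)

/-- the expansion of `(u - 1) / c` -/
theorem exq_quo {N : ℕ} {u : ℍ → ℂ} {W : ℂ⟦X⟧} {c : ℂ} (c0 : c ≠ 0) (a : Exq N 0 (1 + C c * W) u) :
    Exq N 0 W fun τ => (u τ - 1) / c := by
  filter_upwards [a] with τ a
  have b := (a.add (Ev.one.smul (-1))).smul c⁻¹
  simp only [neg_zero, zpow_zero, mul_one] at b ⊢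
  convert b using 1
  · rw [neg_one_smul ℂ, add_neg_cancel_comm, smul_eq_C_mul, ← mul_assoc, ← map_mul,
      inv_mul_cancel₀ c0, map_one, one_mul]
  · field_simp
    ring

theorem iq_quo {O : ValuationSubring ℂ} {N : ℕ} (hN : 0 < N) {u : ℍ → ℂ} {W : O⟦X⟧} {c : ℂ}
    (c0 : c ≠ 0) (a : Exq N 0 (1 + C c * map O.subtype W) u) : (fun τ => (u τ - 1) / c) ∈ Iq O :=
  iq_of hN (exq_quo c0 a)

/-- the product part of the Siegel function -/
def bq (d a : ℕ) (β : ℚ) (τ : ℍ) : ℂ := po τ (a * τ / d + β) * po τ (τ - (a * τ / d + β))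

/-- its series -/
def bs (O : ValuationSubring ℂ) (d a : ℕ) (β : ℚ) : O⟦X⟧ := pq ⟨_, ee_mem β⟩ ⟨_, ee_mem (-β)⟩ a d

theorem bq_exq (O : ValuationSubring ℂ) {d a : ℕ} (h : a < d) (β : ℚ) :
    Exq d 0 (map O.subtype (bs O d a β)) (bq d a β) := by
  rw [bs, pq, map_mul, pf_map, pf_map]
  exact exq_pq h β

theorem bs0 (O : ValuationSubring ℂ) {d a : ℕ} (a0 : 0 < a) (h : a < d) (β : ℚ) :
    constantCoeff (bs O d a β) = 1 := by
  rw [bs, pq, map_mul, pf_zero, pf_zero, if_neg (by omega), if_neg (by omega), mul_one]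

theorem bs_dw (O : ValuationSubring ℂ) (hp : p.Prime) (h2 : p ≠ 2) {d a : ℕ} (a0 : 0 < a)
    (h : a < d) (β : ℚ) : Dw p (bs O d a β) (expand p hp.ne_zero (bs O d a (p * β)))
      (wf p ⟨_, ee_mem β⟩ a d + wf p ⟨_, ee_mem (-β)⟩ (d - a) d) := by
  have e : ∀ β : ℚ, (⟨_, ee_mem (p * β)⟩ : O) = ⟨_, ee_mem β⟩ ^ p := fun β => Subtype.ext (by
    change P014T.Sg.ee _ = P014T.Sg.ee _ ^ p
    rw [← ee_nat]
    push_cast
    rfl)
  have := dw_pq hp h2 (⟨_, ee_mem β⟩ : O) ⟨_, ee_mem (-β)⟩ a0 h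
  rw [← e, ← e] at this
  simpa only [bs, mul_neg] using this

theorem g12_bq {d : ℕ} (a : ℕ) (β : ℚ) (τ : ℍ) : g12 (a / d) β τ =
    P014T.Sg.ee (τ + 6 * (a / d - 1) * (a / d * τ + β)) * bq d a β τ ^ 12 := by
  rw [g12_eq, bq, div_mul_eq_mul_div]

end Vale.Agent.P014Z.Tz
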