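import Vale.Agent.P014Z.Tz.St
import Vale.Agent.P014Z.Tz.Ind0

/-! # P014Z, block TZ: integrality when `p` divides the level -/

set_option autoImplicit false
set_option linter.all false

open UpperHalfPlane hiding I
open CongruenceSubgroup PowerSeries Finset
open scoped MatrixGroups Classical

noncomputable section

namespace Vale.Agent.P014Z.Tz

open Vale.Agent.P022 H236 H218.L3 H236.L3 H542.L3 Vale.Agent.P027M.M P004F.Qx
open P004Z.Fin (Iq vO mem_vO Ov)
open P014T.Sg Su Su.Dp Su.It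

namespace Ig

section alg

variable {A : Type} [CommRing A] {p : ℕ}

theorem dw_z {F G : Aˣ} {W : A} (h : Dw p (F : A) G W) (n : ℤ) :
    Dw p ((F ^ n : Aˣ) : A) (G ^ n : Aˣ) (n * W) := by
  obtain ⟨n, rfl | rfl⟩ := n.eq_nat_or_neg
  · simpa using h.pow n
  · have := (h.pow n).inv (F' := (F ^ n)⁻¹.1) (G' := (G ^ n)⁻¹.1)
      (by rw [← Units.val_pow_eq_pow_val, Units.mul_inv])
      (by rw [← Units.val_pow_eq_pow_val, Units.mul_inv])
    simpa using this

theorem z_sum {G ι : Type} [CommGroup G] (s : Finset ι) (n : ι → ℤ) (a : G) :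
    ∏ i ∈ s, a ^ n i = a ^ ∑ i ∈ s, n i := by
  induction s using Finset.induction_on with
  | empty => simp
  | insert i s m e => rw [prod_insert m, sum_insert m, zpow_add, e]

/-- the sums over the fibres vanish -/
theorem fib {ι κ : Type} [Fintype ι] [Fintype κ] [DecidableEq κ] (F : ι → Aˣ) (G : κ → Aˣ) (φ : ι → κ) (W : ι → A)
    (n : ι → ℤ) (h : ∀ i, Dw p (F i : A) (G (φ i)) (W i)) (z : ∀ k, ∑ i with φ i = k, n i = 0) :
    ∃ r, ((∏ i, F i ^ n i : Aˣ) : A) ^ p = 1 + p * ∑ i, n i * W i + p ^ 2 * r := by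
  obtain ⟨r, e⟩ := Dw.prod univ fun i _ => dw_z (h i) (n i)
  have g : ∏ i, G (φ i) ^ n i = 1 := by
    rw [← prod_fiberwise univ φ]
    refine prod_eq_one fun k _ => ?_
    rw [prod_congr rfl fun i m => by rw [(mem_filter.1 m).2], z_sum, z, zpow_zero]
  rw [← Units.coe_prod, ← Units.coe_prod, g, Units.val_one, one_mul] at e
  exact ⟨r, e⟩

theorem one_prod {ι : Type} (s : Finset ι) {t : A} {F : ι → A} (h : ∀ i, t ∣ F i - 1) :
    t ∣ ∏ i ∈ s, F i - 1 :=
  prod_induction F (fun a => t ∣ a - 1) (fun a b x y => by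
    rw [show a * b - 1 = (a - 1) * b + (b - 1) by ring]
    exact (x.mul_right b).add y) (by simp) fun i _ => h i

end alg

variable {O : ValuationSubring ℂ} {N : ℕ}

theorem exq_z (hN : N ≠ 0) (F : O⟦X⟧ˣ) {g : ℍ → ℂ} (h : Exq N 0 (map O.subtype F) g) (n : ℤ) :
    Exq N 0 (map O.subtype (F ^ n : O⟦X⟧ˣ)) fun τ => g τ ^ n := by
  have k : ∀ n : ℕ, Exq N 0 (map O.subtype (F ^ n : O⟦X⟧ˣ)) fun τ => g τ ^ n := fun n => by
    simpa using h.pow n
  obtain ⟨n, rfl | rfl⟩ := n.eq_nat_or_neg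
  · simpa using k n
  have e : map O.subtype ((F ^ n)⁻¹ : O⟦X⟧ˣ) * map O.subtype (F ^ n : O⟦X⟧ˣ) = 1 := by
    rw [← map_mul, Units.inv_mul, map_one]
  have c : constantCoeff (map O.subtype (F ^ n : O⟦X⟧ˣ)) ≠ 0 := fun z => by
    have := congrArg constantCoeff e
    rw [map_mul, z, mul_zero, map_one] at this
    exact zero_ne_one this
  have := ((k n).inv hN c).2
  rw [← (PowerSeries.eq_inv_iff_mul_eq_one c).2 e, neg_zero] at this
  simpa only [zpow_neg, zpow_natCast] using this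

theorem mm_z {Γ : Subgroup SL(2, ℤ)} {g : ℍ → ℂ} (h : Mm Γ g) (g0 : ∀ τ, g τ ≠ 0) (n : ℤ) :
    Mm Γ fun τ => g τ ^ n := by
  obtain ⟨n, rfl | rfl⟩ := n.eq_nat_or_neg
  · simpa using h.pow n
  · simpa using (h.pow 0).div (h.pow n) fun τ => pow_ne_zero n (g0 τ)

/-- the monomials cancel -/
theorem lead {ι : Type} [Fintype ι] {d : ℕ} (d0 : d ≠ 0) (a : ℕ) (Y n : ι → ℤ) (h : ∑ i, n i = 0)
    (k : (d : ℤ) ∣ ∑ i, n i * Y i) (τ : ℍ) :
    ∏ i, pg d a (Y i) τ ^ n i = (∏ i, bq d a (Y i / d) τ ^ n i) ^ (12 * d) := by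
  have d1 : (d : ℂ) ≠ 0 := Nat.cast_ne_zero.2 d0
  obtain ⟨k, e⟩ := k
  have e : ∑ i, (n i : ℂ) * Y i = d * k := by exact_mod_cast e
  have h : ∑ i, (n i : ℂ) = 0 := by exact_mod_cast h
  have q : ∀ i, pg d a (Y i) τ ^ n i = ee ((d * τ + 6 * (a - d) * (a / d * τ)) * n i +
      6 * (a - d) / d * (n i * Y i)) * (bq d a (Y i / d) τ ^ n i) ^ (12 * d) := fun i => by
    have := g12_bq (d := d) a (Y i / d) τ
    rw [Rat.cast_div, Rat.cast_intCast, Rat.cast_natCast] at this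
    rw [pg, Int.cast_natCast, this, mul_pow, mul_zpow, ← ee_nat, ← ee_zpow, ← pow_mul,
      ← zpow_natCast, ← zpow_natCast, ← zpow_mul, ← zpow_mul, mul_comm (n i)]
    congr 2
    field_simp
    ring
  simp only [q]
  rw [prod_mul_distrib, prod_pow, ← ee_sum, sum_add_distrib, ← mul_sum, ← mul_sum, h, e,
    ee_one.2 ⟨6 * (a - d) * k, by push_cast; field_simp; ring⟩, one_mul]

/-- the unit -/
def bu (O : ValuationSubring ℂ) {d a : ℕ} (a0 : 0 < a) (h : a < d) (β : ℚ) : O⟦X⟧ˣ :=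
  ⟨bs O d a β, invOfUnit (bs O d a β) 1, mul_invOfUnit _ _ (bs0 O a0 h β),
    invOfUnit_mul _ _ (bs0 O a0 h β)⟩

theorem bs_congr {d a : ℕ} {β β' : ℚ} (k : ℤ) (h : β = β' + k) : bs O d a β = bs O d a β' := by
  rw [bs, bs]
  congr 1 <;> refine Subtype.ext ?_
  · exact ee_congr k (by rw [h]; push_cast; rfl)
  · exact ee_congr (-k) (by rw [h]; push_cast; ring)

/-- a series whose coefficients are multiples of `w` -/
theorem c_dvd {w : O} {F : O⟦X⟧} (h : ∀ k, w ∣ coeff k F) : C w ∣ F := by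
  choose s e using h
  exact ⟨PowerSeries.mk s, PowerSeries.ext fun k => by rw [coeff_C_mul, coeff_mk, e]⟩

theorem wf_dvd {ι : Type} [Fintype ι] {w : O} (p a d : ℕ) (u : ι → O) (n : ι → ℤ)
    (h : ∀ m : ℕ, w ∣ ∑ i, n i * u i ^ m) : C w ∣ ∑ i, (n i : O⟦X⟧) * wf p (u i) a d :=
  c_dvd fun k => by
    have e : ∀ (z : ℤ) (s : O⟦X⟧), coeff k ((z : O⟦X⟧) * s) = z * coeff k s := fun z s => by
      rw [← coeff_C_mul, map_intCast]
    simp only [map_sum, e, wf, coeff_mk, mul_sum]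
    rw [sum_comm]
    refine dvd_sum fun x _ => ?_
    simp only [mul_left_comm _ (cw p x.2 : O), ← mul_sum]
    exact (h _).mul_left _

/-- one row of the product -/
theorem row {p f c a : ℕ} [NeZero f] (hp : p.Prime) (h2 : p ≠ 2) (pf : p ∣ f) (a0 : 0 < a)
    (h : a < f * c) (n : (ZMod f)ˣ → ℤ) {w : O} (pw : w ∣ p)
    (h1 : ∀ z : ZMod f, ∑ y : (ZMod f)ˣ with (p : ZMod f) * y.1 = z, n y = 0)
    (h2' : ∑ y : (ZMod f)ˣ, (n y : ZMod f) * y = 0)
    (h3 : ∀ m : ℕ, ∃ t ∈ O, ∑ y : (ZMod f)ˣ, (n y : ℂ) * ee (y.1.val * m / f) = w * t) (s : ℤ) :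
    ∃ F : O⟦X⟧, C (p * w) ∣ F - 1 ∧ Exq (f * c) 0 (map O.subtype F)
      fun τ => ∏ y : (ZMod f)ˣ, pg (f * c) a (c * (y : ZMod f).val + f * s) τ ^ n y := by
  have d0 : f * c ≠ 0 := by omega
  have f0 : (f : ℚ) ≠ 0 := NeZero.ne _
  have c0 : (c : ℚ) ≠ 0 := Nat.cast_ne_zero.2 (right_ne_zero_of_mul d0)
  have s0 : ∑ y, n y = 0 := by
    rw [← sum_fiberwise univ fun y : (ZMod f)ˣ => (p : ZMod f) * y.1]
    exact sum_eq_zero fun z _ => h1 z
  let β : (ZMod f)ˣ → ℚ := fun y => ((c * (y : ZMod f).val + f * s : ℤ) : ℚ) / (f * c : ℕ)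
  have eβ : ∀ y, β y = (y : ZMod f).val / f + s / c := fun y => by
    simp only [β]; push_cast; field_simp
  obtain ⟨r, e⟩ := fib (p := p) (fun y => bu O a0 h (β y))
    (fun z : ZMod f => Units.map (expand p hp.ne_zero : O⟦X⟧ →ₐ[O] O⟦X⟧).toRingHom.toMonoidHom
      (bu O a0 h (z.val / f + p * s / c))) (fun y => (p : ZMod f) * y.1) _ n (fun y => by
      have := bs_dw O hp h2 a0 h (β y)
      obtain ⟨k, hk⟩ := (ZMod.intCast_eq_intCast_iff_dvd_sub ((p : ZMod f) * y.1).val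
        (p * (y : ZMod f).val) f).1 (by simp)
      have hk : (p : ℚ) * (y : ZMod f).val - ((p : ZMod f) * y.1).val = f * k := by
        exact_mod_cast hk
      rw [bs_congr (β := p * β y) (β' := ((p : ZMod f) * y.1).val / f + p * s / c) k (by
        rw [eβ]; field_simp; linear_combination c * hk)] at this
      exact this) h1
  have v : ∀ (ε : ℤ) (e : ℕ) (k : ℤ), e = ε + f * k → ∀ m : ℕ,
      w ∣ ∑ y, n y * (⟨_, ee_mem (ε * β y)⟩ : O) ^ m := fun ε e k he m => by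
    obtain ⟨t, mt, et⟩ := h3 (e * m)
    refine ⟨⟨t, mt⟩ * ⟨_, ee_mem (ε * m * s / c)⟩, Subtype.ext ?_⟩
    have he : (e : ℂ) = ε + f * k := by exact_mod_cast he
    have f1 : (f : ℂ) ≠ 0 := NeZero.ne _
    push_cast
    rw [← mul_assoc, ← et, sum_mul]
    refine sum_congr rfl fun y _ => ?_
    rw [mul_assoc, ← ee_add, ← ee_nat, eβ]
    congr 1
    refine ee_congr (-(k * m * (y : ZMod f).val)) ?_
    push_cast
    rw [he]
    field_simp
    ring
  obtain ⟨q, rfl⟩ := pf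
  refine ⟨((∏ y, bu O a0 h (β y) ^ n y : O⟦X⟧ˣ) : O⟦X⟧) ^ (12 * (p * q * c)), ?_, ?_⟩
  · rw [show 12 * (p * q * c) = p * (12 * (q * c)) by ring, pow_mul, e]
    refine Dvd.dvd.trans ?_ (sub_one_dvd_pow_sub_one _ _)
    rw [map_mul, map_natCast, add_assoc, add_sub_cancel_left, pow_two,
      mul_assoc (p : O⟦X⟧), ← mul_add]
    refine mul_dvd_mul_left _ (dvd_add ?_ (Dvd.dvd.mul_right ?_ _))
    · simp only [mul_add, sum_add_distrib]
      refine dvd_add (wf_dvd _ _ _ _ n ?_) (wf_dvd _ _ _ _ n ?_)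
      · simpa only [Int.cast_one, one_mul] using v 1 1 0 (by simp)
      · simpa only [Int.cast_neg, Int.cast_one, neg_one_mul] using v (-1) (p * q - 1) 1 (by
          rw [Nat.cast_sub (NeZero.pos (p * q))]; push_cast; ring)
    · rw [← map_natCast (C : O →+* O⟦X⟧)]
      exact map_dvd _ pw
  · have := (exq_prod univ fun y => exq_z d0 (bu O a0 h (β y)) (bq_exq O h (β y)) (n y)).pow
      (12 * (p * q * c))
    rw [mul_zero, ← map_prod, ← Units.coe_prod, ← map_pow] at this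
    refine this.congr (.of_forall fun τ => (lead d0 a _ n s0 ?_ τ).symm)
    simp only [mul_add, sum_add_distrib, ← sum_mul, s0, zero_mul, add_zero,
      mul_left_comm _ (c : ℤ), ← mul_sum]
    rw [Nat.cast_mul, mul_comm]
    exact mul_dvd_mul_left _ ((ZMod.intCast_zmod_eq_zero_iff_dvd _ _).1 (by simpa using h2'))

end Ig

open Ig

theorem ing (sys : SYS) (yd : YD) : ING := by
  intro V p M f c _ ν w h h2 pf c0 co M0 fM pw h1 h2' h3 D τ τ' H e r s
  have p0 : (p : ℂ) ≠ 0 := Nat.cast_ne_zero.2 h.prime.ne_zero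
  wlog w1 : V w ≤ 1 generalizing w
  · refine (this 1 (by rw [map_one]; exact h.lt.le) (fun a m => ?_) V.map_one.le).trans ?_
    · rw [map_one]
      refine (mem_vO (h := h.na)).1 (sum_mem fun y _ => mul_mem (intCast_mem _ _) ?_)
      have := ee_mem (O := vO h.na) (y.1.val * m / f)
      rwa [Rat.cast_div, Rat.cast_mul, Rat.cast_natCast, Rat.cast_natCast, Rat.cast_natCast] at this
    · rw [map_mul, map_mul, map_one]
      exact mul_le_mul_of_nonneg_left (not_le.1 w1).le (V.nonneg _)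
  have w0 : w ≠ 0 := V.pos_iff.1 ((V.pos p0).trans_le pw)
  have dv : ∀ z, V z ≤ V w → z / w ∈ vO h.na := fun z l => by
    rw [mem_vO, map_div₀]; exact div_le_one_of_le₀ l (V.nonneg _)
  have f0 := NeZero.pos f
  have f1 : 1 < f := h.prime.one_lt.trans_le (Nat.le_of_dvd f0 pf)
  have d0 : 0 < f * c := Nat.mul_pos f0 c0
  have sy := (sys _ d0).1
  obtain ⟨y1, y2⟩ := yd 1 f c _ sy co
  have nz : ∀ (x : (ZMod f)ˣ) (r : ℤ), ¬ ((f * c : ℕ) : ℤ) ∣ c * (x : ZMod f).val + f * r :=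
    fun x r k => by
      have k := (Int.natCast_dvd_natCast.2 (dvd_mul_right f c)).trans k
      rw [dvd_add_left (dvd_mul_right _ _)] at k
      exact nd f1 x ((Nat.isCoprime_iff_coprime.2 co).dvd_of_dvd_mul_left k)
  let Φ : ℤ → ℤ → ℍ → ℂ := fun r s z => (yr (pg (f * c)) f c ν r s z - 1) / (p * w)
  have key := famv (l := f) (S := {F | ∃ r s, F = Φ r s}) h M0 (pf.trans ((dvd_mul_right f f).trans fM))
    (pow_pos d0 2) f0 fM ((Set.finite_range fun i : Fin c × Fin c => Φ i.1 i.2).subset (by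
      rintro _ ⟨r, s, rfl⟩
      have c1 : (0 : ℤ) < c := Nat.cast_pos.2 c0
      have q : ∀ r : ℤ, ∃ i : Fin c, ∃ u, r = i + c * u := fun r =>
        ⟨⟨(r % c).toNat, by have := Int.emod_lt_of_pos r c1; omega⟩, r / c, by
          have := Int.emod_nonneg r c1.ne'
          rw [Int.toNat_of_nonneg this, Int.emod_add_mul_ediv]⟩
      obtain ⟨i, u, rfl⟩ := q r
      obtain ⟨j, v, rfl⟩ := q s
      exact ⟨(i, j), funext fun z => by simp only [Φ, y1]⟩)) ?_ ?_ H e _ ⟨r, s, rfl⟩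
  · rw [map_div₀, div_le_one (V.pos (mul_ne_zero p0 w0))] at key
    exact key
  · rintro _ ⟨r, s, rfl⟩
    refine ⟨mm_quo (Mm.prod _ fun x => Mm.prod _ fun y => mm_z ((g_mm d0 _ _).pow _) (fun z =>
      pow_ne_zero _ (g12_ne z.2 (nl z.2 d0.ne' fun k => nz x r k.1))) _) _, ?_⟩
    have q : ∀ x : (ZMod f)ˣ, ∃ F : (vO h.na)⟦X⟧, C (p * ⟨w, w1⟩ : vO h.na) ∣ F - 1 ∧
        Exq (f * c) 0 (map (vO h.na).subtype F) fun τ => ∏ y : (ZMod f)ˣ, pg (f * c)
          (c * (x : ZMod f).val + f * r) (c * (y : ZMod f).val + f * s) τ ^ ν (x * y) := fun x => by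
      have d1 : (0 : ℤ) < (f * c : ℕ) := Nat.cast_pos.2 d0
      have n := nz x r
      generalize (c * (x : ZMod f).val + f * r : ℤ) = A at n ⊢
      obtain ⟨a, ea⟩ := Int.eq_ofNat_of_zero_le (Int.emod_nonneg A d1.ne')
      have l : a < f * c := by have := Int.emod_lt_of_pos A d1; omega
      have a0 : 0 < a := Nat.pos_of_ne_zero fun z => n (Int.dvd_of_emod_eq_zero (by rw [ea, z]; rfl))
      have pe : ∀ y z, pg (f * c) A y z = pg (f * c) a y z := fun y z => by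
        have := sy.per a y (A / (f * c : ℕ)) 0 z
        rwa [← ea, Int.emod_add_mul_ediv, mul_zero, add_zero, ea] at this
      simp only [pe]
      refine row h.prime h2 pf a0 l (fun y => ν (x * y))
        ⟨⟨_, dv p pw⟩, Subtype.ext (mul_div_cancel₀ _ w0).symm⟩ (h1 x) ?_
        (fun m => ⟨_, dv _ (h3 x m), (mul_div_cancel₀ _ w0).symm⟩) s
      rw [← Equiv.sum_comp (Equiv.mulLeft x)] at h2'
      refine (Units.mul_right_eq_zero x).1 ?_
      rw [← h2', mul_sum]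
      exact sum_congr rfl fun y _ => by simp [mul_left_comm]
    choose F hF hE using q
    obtain ⟨W, eW⟩ := one_prod univ hF
    have := exq_prod univ hE
    rw [← map_prod, eq_add_of_sub_eq' eW, map_add, map_one, map_mul, map_C] at this
    exact iq_quo d0 (mul_ne_zero p0 w0) this
  · rintro γ k1 k2 _ ⟨r, s, rfl⟩
    refine ⟨r * γ 0 0 + s * γ 1 0, r * γ 0 1 + s * γ 1 1, funext fun z => ?_⟩
    have := y2 1 c (one_mul c).symm one_pos one_pos (Nat.coprime_one_left 1) (γ 0 0) (γ 0 1) (γ 1 0)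
      (γ 1 1) 0 0 z (γ • z) ⟨(Matrix.det_fin_two _).symm.trans γ.det_coe, ?_, ⟨0, 0, one_dvd _⟩,
        ⟨0, one_dvd _, one_dvd _⟩, 0, one_dvd _, one_dvd _⟩ (one_dvd _) k2 k1 ν ν
      (fun a a' e => by rw [Units.ext (e.trans (by simp) : (a : ZMod f) = a')]) r s _ _
      (one_mul _).symm (one_mul _).symm
    · simp only [Φ, this, prod_range_one, mul_zero, add_zero]
    · rw [coe_specialLinearGroup_apply]
      simp only [eq_intCast, Complex.ofReal_intCast]
      exact mul_div_cancel₀ _ (by simpa [denom] using denom_ne_zero γ z)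

end Vale.Agent.P014Z.Tz
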