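import Vale.Agent.P014Z.Tz.Cor
import Vale.Agent.P014Z.Tz.Cr0
import Vale.Agent.P014Z.Tz.Par
import Vale.Agent.P014Z.Tz.Dis
import Vale.Agent.P014Z.Tz.Geo
import Vale.Agent.P014Z.Tz.Grp
import Vale.Agent.P014Z.Tz.Ind
import Vale.Agent.P014Z.Tz.Ing
import Vale.Agent.P014Z.Tz.Loc
import Vale.Agent.P014Z.Tz.Spl
import Vale.Agent.P014Z.Tz.Sys
import Vale.Agent.P014Z.Tz.Yd
import Vale.Agent.P004K.All

/-! # P014Z, block TZ: closed terms (helper81) -/

set_option autoImplicit false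

namespace Vale.Agent.P014Z.Tz

open P004K

theorem x_yd : YD := yd dis

theorem x_geo : GEO := geo Rc.iq jh x_rc1

theorem x_par : PAR := par x_rc1 x_rc2

theorem x_cr0 : CR0 := cr0 y_hg1 cj0 x_par x_geo x_yd spl grp loc

theorem x_cor : COR := cor x_cr0 x_geo x_yd x_rc2 y_hg1 cj0

theorem x_ind : IND := ind sys

theorem x_ing : ING := ing sys x_yd

end Vale.Agent.P014Z.Tz
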