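import Mathlib

/-! # P014Z, block TZ: the truncated group ring (helper29) -/

set_option autoImplicit false
set_option linter.all false

open Polynomial

namespace Vale.Agent.P014Z.Tz

/-- **the ring `A [T] / T ^ (p ^ k)` and the character `(1 + T) ^ x`** -/
theorem trn {p : ℕ} (hp : p.Prime) (k : ℕ) (A : Type) [CommRing A] (h0 : (p : A) = 0) :
    ∃ (B : Type) (_ : CommRing B) (ι : A →+* B) (T : B) (η : ZMod (p ^ k) → B),
      η 0 = 1 ∧ (∀ x y, η (x + y) = η x * η y) ∧ (∀ x, T ∣ η x - 1) ∧ η 1 - 1 = T ∧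
      (∀ m < p ^ k, ∀ a, T * a = 0 → T ^ m ∣ a) ∧
      ∀ (G : Type) (R : Finset G) (e : G → ZMod (p ^ k)) (h : G → A), ∀ m ≤ p ^ k,
        T ^ m ∣ ∑ g ∈ R, η (e g) * ι (h g) →
        ∀ i < m, ∑ g ∈ R, ((e g).val.choose i : A) * h g = 0 := by
  haveI : NeZero (p ^ k) := ⟨pow_ne_zero k hp.ne_zero⟩
  let π := Ideal.Quotient.mk (Ideal.span {(X : A[X]) ^ p ^ k})
  have ker : ∀ a, π a = 0 ↔ X ^ p ^ k ∣ a := fun a =>
    Ideal.Quotient.eq_zero_iff_mem.trans Ideal.mem_span_singleton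
  have one : π (1 + X) ^ p ^ k = 1 := by
    obtain ⟨r, e⟩ := exists_add_pow_prime_pow_eq hp (1 : A[X]) X k
    rw [← map_pow, e, ← C_eq_natCast, h0, map_zero, zero_mul, zero_mul, zero_mul, add_zero,
      one_pow, map_add, (ker _).2 dvd_rfl, add_zero, map_one]
  have nat : ∀ n : ℕ, π (1 + X) ^ (n : ZMod (p ^ k)).val = π (1 + X) ^ n := fun n => by
    rw [ZMod.val_natCast, ← pow_eq_pow_mod n one]
  refine ⟨_, inferInstance, π.comp C, π X, fun x => π (1 + X) ^ x.val, by simp, fun x y => ?_,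
    fun x => ?_, ?_, fun m lt a e => ?_, fun G R e h m le d i hi => ?_⟩
  · rw [← pow_add, ← nat, Nat.cast_add, ZMod.natCast_zmod_val, ZMod.natCast_zmod_val]
  · have := sub_dvd_pow_sub_pow (π (1 + X)) 1 x.val
    rwa [one_pow, map_add, map_one, add_sub_cancel_left, ← map_one π, ← map_add] at this
  · have := nat 1
    rw [Nat.cast_one] at this
    simp only [this, pow_one]
    rw [map_add, map_one, add_sub_cancel_left]
  · obtain ⟨a, rfl⟩ := Ideal.Quotient.mk_surjective a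
    obtain ⟨n, q⟩ := Nat.exists_eq_add_of_lt lt
    obtain ⟨w, d⟩ := (ker (X * a)).1 (by rw [map_mul]; exact e)
    rw [← map_pow]
    exact map_dvd π ⟨X ^ n * w, monic_X.isRegular.left (by simp only [d, q]; ring)⟩
  · obtain ⟨w, d⟩ := d
    obtain ⟨w, rfl⟩ := Ideal.Quotient.mk_surjective w
    have : X ^ m ∣ ∑ g ∈ R, (1 + X) ^ (e g).val * C (h g) := by
      have := (pow_dvd_pow X le).trans ((ker (∑ g ∈ R, (1 + X) ^ (e g).val * C (h g) - X ^ m * w)).1
        (by simpa [sub_eq_zero] using d))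
      simpa using dvd_add this (dvd_mul_right (X ^ m) w)
    simpa [finset_sum_coeff, coeff_one_add_X_pow] using X_pow_dvd_iff.1 this i hi

end Vale.Agent.P014Z.Tz
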