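import Vale.Agent.P014Z.Su.Dpr

/-! # P014Z, block TZ: exponents, Gauss sums and products at a nonarchimedean place -/

set_option autoImplicit false
set_option linter.all false

open Finset AddChar
open scoped Classical

noncomputable section

namespace Vale.Agent.P014Z.Tz.Xp

section val

variable {V : AbsoluteValue ℂ ℝ} (h : IsNonarchimedean V) {p : ℕ} {r : ℝ} {x y : ℂ}

/-- the closed ball -/
def bl (r : ℝ) (r0 : 0 ≤ r) : AddSubgroup ℂ where
  carrier := {x | V x ≤ r}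
  add_mem' {a b} k l := (h a b).trans (max_le k l)
  zero_mem' := V.map_zero.trans_le r0
  neg_mem' {a} k := (V.map_neg a).trans_le k

/-- the open ball -/
def bo (r : ℝ) (r0 : 0 < r) : AddSubgroup ℂ where
  carrier := {x | V x < r}
  add_mem' {a b} k l := (h a b).trans_lt (max_lt k l)
  zero_mem' := V.map_zero.trans_lt r0
  neg_mem' {a} k := (V.map_neg a).trans_lt k

/-- the integers -/
def og : Subring ℂ where
  carrier := {x | V x ≤ 1}
  mul_mem' {a b} k l := (V.map_mul a b).trans_le (mul_le_one₀ k (V.nonneg _) l)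
  one_mem' := V.map_one.le
  add_mem' {a b} k l := (h a b).trans (max_le k l)
  zero_mem' := V.map_zero.trans_le zero_le_one
  neg_mem' {a} k := (V.map_neg a).trans_le k

theorem ml (a : V x ≤ 1) (b : V y ≤ r) : V (x * y) ≤ r :=
  (V.map_mul x y).trans_le ((mul_le_of_le_one_left (V.nonneg _) a).trans b)

theorem ml' (a : V x ≤ 1) (b : V y < r) : V (x * y) < r :=
  (ml a le_rfl).trans_lt b

theorem rt {n : ℕ} (n0 : n ≠ 0) (e : x ^ n = 1) : V x = 1 :=
  (pow_eq_one_iff_of_nonneg (V.nonneg x) n0).1 (by rw [← V.map_pow, e, V.map_one])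

include h

theorem ad (a : V x ≤ r) (b : V y ≤ r) : V (x + y) ≤ r := (h x y).trans (max_le a b)

theorem ad' (a : V x < r) (b : V y < r) : V (x + y) < r := (h x y).trans_lt (max_lt a b)

theorem sb (a : V x ≤ r) (b : V y ≤ r) : V (x - y) ≤ r :=
  sub_mem (S := AddSubgroup ℂ) (H := bl h r ((V.nonneg _).trans a)) a b

theorem sm {ι : Type} (s : Finset ι) {g : ι → ℂ} (r0 : 0 ≤ r) (k : ∀ i ∈ s, V (g i) ≤ r) :
    V (∑ i ∈ s, g i) ≤ r := sum_mem (S := bl h r r0) k

theorem sm' {ι : Type} (s : Finset ι) {g : ι → ℂ} (r0 : 0 < r) (k : ∀ i ∈ s, V (g i) < r) :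
    V (∑ i ∈ s, g i) < r := sum_mem (S := bo h r r0) k

theorem vi (n : ℤ) : V n ≤ 1 := intCast_mem (og h) n

theorem vn (n : ℕ) : V n ≤ 1 := natCast_mem (og h) n

theorem vu (hp : p.Prime) (l : V p < 1) {n : ℤ} (k : ¬ (p : ℤ) ∣ n) : V n = 1 := by
  refine (vi h n).antisymm (not_lt.1 fun c => ?_)
  obtain ⟨a, b, e⟩ := (Nat.prime_iff_prime_int.1 hp).irreducible.coprime_iff_not_dvd.2 k
  have e' : (a : ℂ) * p + b * n = 1 := by exact_mod_cast congrArg (Int.cast : ℤ → ℂ) e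
  have := ad' h (ml' (vi h a) l) (ml' (vi h b) c)
  rw [e', V.map_one] at this
  exact this.false

theorem vr (hp : p.Prime) (l : V p < 1) (e : x ^ p = 1) : V (x - 1) < 1 := by
  have a : x - 1 ∈ og h := sub_mem (rt hp.ne_zero e).le (one_mem _)
  obtain ⟨r, k⟩ := exists_add_pow_prime_eq hp (⟨_, a⟩ : og h) 1
  have k' : (x - 1) ^ p = -((x - 1) * r) * p := by
    have := congrArg Subtype.val k
    push_cast at this
    rw [sub_add_cancel, e] at this
    linear_combination -this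
  have := ml' (neg_mem (mul_mem a r.2) : -((x - 1) * r) ∈ og h) l
  rw [← k', V.map_pow] at this
  exact (pow_lt_one_iff_of_nonneg (V.nonneg _) hp.ne_zero).1 this

theorem vo (l : V (x - 1) < 1) : V x = 1 := by
  refine le_antisymm (by simpa using ad h l.le V.map_one.le) (not_lt.1 fun c => ?_)
  have := ad' h c ((V.map_neg _).trans_lt l)
  simp at this

end val

section rel

variable {S : Subring ℂ} {p u u' x x' : ℂ}

/-- `u = 1 + p x` modulo `p ^ 2` -/
def Rl (S : Subring ℂ) (p u x : ℂ) : Prop :=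
  x ∈ S ∧ u ≠ 0 ∧ u⁻¹ ∈ S ∧ ∃ r ∈ S, u = 1 + p * x + p ^ 2 * r

theorem Rl.one : Rl S p 1 0 :=
  ⟨zero_mem _, one_ne_zero, by simpa using one_mem S, 0, zero_mem _, by simp⟩

variable (hp : p ∈ S)

include hp

theorem Rl.mul : Rl S p u x → Rl S p u' x' → Rl S p (u * u') (x + x')
  | ⟨a, b, c, r, d, e⟩, ⟨a', b', c', r', d', e'⟩ => ⟨add_mem a a', mul_ne_zero b b',
    mul_inv u u' ▸ mul_mem c c', r + r' + (x + p * r) * (x' + p * r'),
    add_mem (add_mem d d') (mul_mem (add_mem a (mul_mem hp d)) (add_mem a' (mul_mem hp d'))),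
    by rw [e, e']; ring⟩

theorem Rl.inv : Rl S p u x → Rl S p u⁻¹ (-x)
  | ⟨a, b, c, r, d, e⟩ => ⟨neg_mem a, inv_ne_zero b, by
      rw [inv_inv, e]
      exact add_mem (add_mem (one_mem _) (mul_mem hp a)) (mul_mem (pow_mem hp 2) d),
    u⁻¹ * (x * (x + p * r) - r), mul_mem c (sub_mem (mul_mem a (add_mem a (mul_mem hp d))) d), by
      have := mul_inv_cancel₀ b
      linear_combination (1 - p * x) * this - u⁻¹ * (1 - p * x) * e⟩

theorem Rl.pow (k : Rl S p u x) (n : ℕ) : Rl S p (u ^ n) (n * x) := by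
  induction n with
  | zero => simpa using Rl.one
  | succ n i => simpa only [pow_succ, Nat.cast_succ, add_one_mul] using i.mul hp k

theorem Rl.zpow (k : Rl S p u x) (n : ℤ) : Rl S p (u ^ n) (n * x) := by
  rcases n.eq_nat_or_neg with ⟨m, rfl | rfl⟩
  · simpa using k.pow hp m
  · simpa using (k.pow hp m).inv hp

theorem Rl.prod {ι : Type} (s : Finset ι) {U X : ι → ℂ} (k : ∀ i, Rl S p (U i) (X i)) :
    Rl S p (∏ i ∈ s, U i) (∑ i ∈ s, X i) := by
  induction s using Finset.induction_on with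
  | empty => simpa using Rl.one
  | insert i s n c =>
    rw [prod_insert n, sum_insert n]
    exact (k i).mul hp c

end rel

theorem rl {V : AbsoluteValue ℂ ℝ} (h : IsNonarchimedean V) {p u : ℂ} (p0 : p ≠ 0) (l : V p < 1)
    (k : V (u - 1) ≤ V p) : Rl (og h) p u ((u - 1) / p) := by
  have a := vo h (k.trans_lt l)
  refine ⟨?_, fun e => by simp [e] at a, ?_, 0, zero_mem _, by field_simp; ring⟩
  · exact (map_div₀ V _ _).trans_le (div_le_one_of_le₀ k (V.nonneg _))
  · exact ((map_inv₀ V u).trans (by rw [a, inv_one])).le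

theorem Rl.le {V : AbsoluteValue ℂ ℝ} {h : IsNonarchimedean V} {p u x : ℂ} (l : V p ≤ 1)
    (k : Rl (og h) p u x) : V (u - 1) ≤ V p := by
  obtain ⟨a, -, -, r, d, e⟩ := k
  rw [show u - 1 = (x + p * r) * p by rw [e]; ring]
  exact ml (ad h a (ml l d)) le_rfl

section chr

variable {f p : ℕ} [NeZero f] [hp : Fact p.Prime] {ψ : DirichletCharacter (ZMod p) f}

/-- **exponents with vanishing sums over the fibres** -/
theorem ex_n (pr : ψ.IsPrimitive) : ∃ φ : ZMod p → ℤ, φ 0 = 0 ∧ (∀ z, (φ z : ZMod p) = z) ∧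
    (p ∣ f → ∀ (a : (ZMod f)ˣ) (z : ZMod f),
      ∑ y : (ZMod f)ˣ with (p : ZMod f) * y.1 = z, φ (ψ (a * y).1) = 0) := by
  by_cases d : p ∣ f
  swap
  · exact ⟨fun z => z.val, by simp, by simp, fun k => (d k).elim⟩
  obtain ⟨u, u1, u2⟩ := Su.Dr.ex_u d pr
  refine ⟨fun z => (1 - ψ u)⁻¹.val * (z.val - (z * ψ u).val), by simp, fun z => ?_, fun _ a z => ?_⟩
  · have := sub_ne_zero.2 u2.symm
    push_cast
    simp only [ZMod.natCast_zmod_val]
    field_simp
  rw [← mul_sum, sum_sub_distrib]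
  refine mul_eq_zero_of_right _ (sub_eq_zero.2 (sum_equiv (Equiv.mulRight u) (fun y => ?_)
    fun y _ => ?_).symm)
  · simp only [mem_filter, mem_univ, true_and, Equiv.coe_mulRight, Units.val_mul]
    rw [mul_comm y.1, ← mul_assoc, u1]
  · rw [← map_mul]
    simp only [Equiv.coe_mulRight, Units.val_mul, mul_assoc]

theorem gs_mod {A : Type} [CommRing A] (pr : ψ.IsPrimitive) (e : AddChar (ZMod f) A)
    {n n' : ZMod f → ℤ} (hn : ∀ a, (n a : ZMod p) = ψ a) (hn' : ∀ a, (n' a : ZMod p) = ψ⁻¹ a)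
    (t : ZMod f) : (p : A) ∣ ∑ a, n a * e (t * a) - n' t * ∑ a, n a * e a := by
  let φ := Ideal.Quotient.mk (Ideal.span {(p : A)})
  have p0 : (p : A ⧸ Ideal.span {(p : A)}) = 0 :=
    (map_natCast φ p).symm.trans (Ideal.Quotient.eq_zero_iff_mem.2 (Ideal.mem_span_singleton_self _))
  let χ := ZMod.castHom (ringChar.dvd p0) (A ⧸ Ideal.span {(p : A)})
  have a1 : ∀ a, ((n a : ℤ) : A ⧸ Ideal.span {(p : A)}) = ψ.ringHomComp χ a := fun a => by
    rw [MulChar.ringHomComp_apply, ← hn, map_intCast]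
  have a2 : ((n' t : ℤ) : A ⧸ Ideal.span {(p : A)}) = χ (ψ⁻¹ t) := by rw [← hn', map_intCast]
  have := Su.Dp.gs_shift χ pr (φ.toMonoidHom.compAddChar e) t
  rw [← Ideal.mem_span_singleton, ← Ideal.Quotient.eq]
  simpa [gaussSum, a1, a2] using this

variable {V : AbsoluteValue ℂ ℝ} (h : IsNonarchimedean V) (l : V p < 1) (pr : ψ.IsPrimitive)
  {e : AddChar (ZMod f) ℂ} {n : ZMod f → ℤ} (hn : ∀ a, (n a : ZMod p) = ψ a)

theorem e_pow (e : AddChar (ZMod f) ℂ) (a : ZMod f) : e a ^ f = 1 := by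
  rw [← e.map_nsmul_eq_pow]
  simp

include h pr hn

theorem gs_le (t : ZMod f) : V (∑ a, n a * e (t * a)) ≤ max (V (∑ a, n a * e a)) (V p) := by
  let e' : AddChar (ZMod f) (og h) := ⟨fun a => ⟨e a, (rt (NeZero.ne f) (e_pow e a)).le⟩,
    Subtype.ext e.map_zero_eq_one, fun a b => Subtype.ext (e.map_add_eq_mul a b)⟩
  obtain ⟨r, k⟩ := gs_mod pr e' hn (n' := fun a => (ψ⁻¹ a).val) (by simp) t
  have := congrArg Subtype.val k
  push_cast at this
  rw [sub_eq_iff_eq_add.1 (show ∑ a, n a * e (t * a) - _ * ∑ a, n a * e a = _ from this), mul_comm]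
  exact ad h (ml r.2 (le_max_right _ _)) (ml (vn h _) (le_max_left _ _))

omit h pr hn in
theorem inv_f (he : e.IsPrimitive) (n : ZMod f → ℤ) (b : ZMod f) :
    ∑ t, e (-(t * b)) * ∑ a, n a * e (t * a) = f * n b := by
  have : ∀ a, ∑ t, e (-(t * b)) * (n a * e (t * a)) = n a * ∑ t, e (t * (a - b)) := fun a => by
    rw [mul_sum]
    refine sum_congr rfl fun t _ => ?_
    rw [mul_left_comm, ← e.map_add_eq_mul, mul_sub, neg_add_eq_sub]
  simp only [mul_sum]
  rw [sum_comm, sum_congr rfl fun a _ => this a]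
  simp [AddChar.sum_mulShift _ he, sub_eq_zero, mul_comm (f : ℂ)]

include l

/-- **the size of the Gauss sum** -/
theorem gs_big (he : e.IsPrimitive) (n0 : ∀ a, ¬ IsUnit a → n a = 0) (sq : ¬ p ^ 2 ∣ f) :
    V p < V (∑ a, n a * e a) ∧ (¬ p ∣ f → 1 ≤ V (∑ a, n a * e a)) := by
  have n1 : V (n 1) = 1 := vu h hp.1 l fun d => by
    have := (ZMod.intCast_zmod_eq_zero_iff_dvd _ _).2 d
    rw [hn, map_one] at this
    exact one_ne_zero this
  have ev : ∀ a, V (e a) ≤ 1 := fun a => (rt (NeZero.ne f) (e_pow e a)).le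
  have one : ¬ p ∣ f → 1 ≤ V (∑ a, n a * e a) := fun d => by
    have := sm h univ (le_max_of_le_left (V.nonneg _)) fun t _ =>
      ml (ev (-(t * 1))) (gs_le h pr hn (e := e) t)
    rw [inv_f he, V.map_mul, n1, ← Int.cast_natCast,
      vu h hp.1 l (mt Int.natCast_dvd_natCast.1 d), mul_one, le_max_iff] at this
    exact this.resolve_right l.not_ge
  refine ⟨?_, one⟩
  by_cases d : p ∣ f
  swap
  · exact l.trans_le (one d)
  obtain ⟨g, hg⟩ := d
  have nd : ¬ p ∣ g := fun ⟨k, c⟩ => sq ⟨k, by rw [hg, c]; ring⟩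
  obtain ⟨u, v, c⟩ := Nat.isCoprime_iff_coprime.2 (hp.1.coprime_iff_not_dvd.2 nd)
  have c' : (u : ZMod f) * p + v * g = 1 := by exact_mod_cast congrArg (Int.cast : ℤ → ZMod f) c
  have z : (p : ZMod f) * g = 0 := by rw [← Nat.cast_mul, ← hg, ZMod.natCast_self]
  have b0 : n (u * p) = 0 := n0 _ fun k => hp.1.one_lt.ne'
    (((ZMod.isUnit_iff_coprime p f).1 (isUnit_of_mul_isUnit_right k)).eq_one_of_dvd ⟨g, hg⟩)
  have p0 : 0 < V p := V.pos (Nat.cast_ne_zero.2 hp.1.ne_zero)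
  by_contra k
  have := sm' h univ p0 fun t _ => show V (e (-(t * 1)) * ∑ a, n a * e (t * a) -
      e (-(t * (u * p))) * ∑ a, n a * e (t * a)) < V p by
    have a := vr h hp.1 l (x := e (-(t * (v * g)))) (by
      rw [← e.map_nsmul_eq_pow, nsmul_eq_mul,
        show (p : ZMod f) * -(t * (v * g)) = 0 by linear_combination -(t * v) * z]
      exact e.map_zero_eq_one)
    rw [← sub_mul, ← c', mul_add, neg_add, e.map_add_eq_mul, ← mul_sub_one, mul_assoc]
    refine ml' (ev _) ?_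
    rw [V.map_mul]
    exact (mul_le_mul_of_nonneg_left ((gs_le h pr hn t).trans (max_le (not_lt.1 k) le_rfl))
      (V.nonneg _)).trans_lt (mul_lt_of_lt_one_left p0 a)
  rw [sum_sub_distrib, inv_f he, inv_f he, b0, Int.cast_zero, mul_zero, sub_zero, V.map_mul, n1,
    hg, Nat.cast_mul, V.map_mul, ← Int.cast_natCast g,
    vu h hp.1 l (mt Int.natCast_dvd_natCast.1 nd), mul_one, mul_one] at this
  exact this.false

end chr

end Vale.Agent.P014Z.Tz.Xp
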