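import Vale.Agent.P014Z.Tz.Ex0
import Vale.Agent.P014Z.Su.Dpf
import Vale.Agent.P014Z.Qf.Valu

/-! # P014Z, block TZ: the leading term of a product of units at a typical point -/

set_option autoImplicit false
set_option linter.all false

open PowerSeries Finset UpperHalfPlane CongruenceSubgroup
open scoped MatrixGroups Classical

noncomputable section

namespace Vale.Agent.P014Z.Tz.Xp

open Vale.Agent.P014T.Sg Vale.Agent.P022 H236 H236.L3 H218.L3 H542.L3 P027M.M Su Su.Dp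
open P004F.Qx (Ty)
open P004Z.Fin (Ov)

variable {V : AbsoluteValue ℂ ℝ} {p f M m c : ℕ} [NeZero f] {D : ℤ} {τ : ℍ}

theorem ze_pow (f : ℕ) [NeZero f] : ee (1 / f) ^ f = 1 := by
  rw [← ee_nat, mul_one_div_cancel (Nat.cast_ne_zero.2 (NeZero.ne f))]
  simpa using ee_int 1

theorem wu_le (o : Ov V p) (h2 : p ≠ 2) (hf : 1 < f) (hm : f ∣ m * Su.sq f) (M0 : 0 < M)
    (d : p * f ^ 2 ∣ M) (H : Ty V M D τ) (a : ZMod f) : V (wu f o.prime.pos c m a τ) ≤ 1 := by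
  obtain ⟨r, ⟨a1, a2⟩, x⟩ := wu_spec hf hm o.prime h2 (og o.na).subtype
    (ζ := ⟨_, (rt (NeZero.ne f) (ze_pow f)).le⟩) (Subtype.ext (ze_pow f)) rfl c a
  refine Qf.mph o M0 ((dvd_mul_right _ _).trans d) a1 (MF_mono (g0_le d) a2) (x.exL.exM_inc a1)
    (fun n => ?_) H
  rcases lt_or_ge n 0 with k | k
  · simp [coeff_ls_of_lt 0 _ k]
  obtain ⟨n, rfl⟩ := Int.eq_ofNat_of_zero_le k
  rw [← zero_add (n : ℤ), coeff_ls, coeff_map]
  exact Subtype.property (p := (· ∈ og o.na)) _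

/-- **the leading term** -/
theorem key [Fact p.Prime] (o : Ov V p) (h2 : p ≠ 2) (hf : 1 < f) (hm : f ∣ m * Su.sq f) (M0 : 0 < M)
    (d : p * f ^ 2 ∣ M) {ψ : DirichletCharacter (ZMod p) f} (pr : ψ.IsPrimitive) (hc : ψ c = 1)
    (u : c.Coprime f) {n : ZMod f → ℤ} (hn : ∀ a, (n a : ZMod p) = ψ a)
    (n0 : ∀ a, ¬ IsUnit a → n a = 0) {W : ℍ → ℂ} (hW : W ∈ Hol)
    (mW : inc W hW ∈ MF (Gamma0 M)) {s : LS} (xW : ExM 1 s (inc W hW))
    (s0 : ∀ k < 0, s.coeff k = 0) {π : ℂ} (π1 : V π < 1) {E : ℕ → ZMod p}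
    (hE : ∀ k, E k = -∑ x ∈ k.divisorsAntidiagonal, cw p x.2 * ψ x.1 * ψ⁻¹ x.2)
    (hs : ∀ k : ℕ, V (s.coeff k - (E k).val) ≤ V π) {G : ℂ}
    (hG : G = ∑ a, n a * ee (1 / f) ^ a.val) (big : V p < V G) (H : Ty V M D τ) (N : ℕ) :
    V (p * G * ((-(24 * m * (c - 1) * N) : ℤ) * W τ) - ((∏ a : (ZMod f)ˣ, (us f c m a τ ^ p /
      us f c m (p * a) (vp o.prime.pos τ)) ^ n a) ^ N - 1)) < V (p * G) := by
  have h := o.na
  have p0 : (p : ℂ) ≠ 0 := Nat.cast_ne_zero.2 o.prime.ne_zero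
  have g0 : 0 < V G := (V.nonneg _).trans_lt big
  obtain ⟨ϖ, a0, a1, a2, a3⟩ : ∃ ϖ : ℂ, ϖ ≠ 0 ∧ V ϖ < V G ∧ V p ≤ V ϖ ∧ V (G * π) ≤ V ϖ := by
    rcases le_total (V p) (V (G * π)) with k | k
    · exact ⟨_, V.ne_zero_iff.1 ((V.pos p0).trans_le k).ne',
        (V.map_mul _ _).trans_lt (mul_lt_of_lt_one_right g0 π1), k, le_rfl⟩
    · exact ⟨_, p0, big, le_rfl, k⟩
  obtain ⟨W₁, ⟨b1, b2, b3⟩, co⟩ := dep hf hm h2 (og h).subtype
    (ζ := ⟨_, (rt (NeZero.ne f) (ze_pow f)).le⟩) (Subtype.ext (ze_pow f)) rfl pr hc u hn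
    (n' := fun a => (ψ⁻¹ a).val) (by simp)
  let κ : ℤ := -(24 * m * (c - 1))
  have c1 : (fun _ => κ * G) * W ∈ Hol := mul_mem (Bdd.const _).1 hW
  have c2 : inc _ c1 = algebraMap ℂ Mer (κ * G) * inc W hW := by rw [← inc_const, ← inc_mul]
  have ag := Qf.agree o M0 ((dvd_mul_right _ _).trans d) b1 c1 (MF_mono (g0_le d) b2)
    (c2 ▸ mul_mem (algebraMap_mem _ _) mW) b3 (c2 ▸ (ExM.const 1 _).mul xW) a0 (fun k => by
      rw [HahnSeries.C_mul_eq_smul, HahnSeries.coeff_smul, smul_eq_mul]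
      rcases lt_or_ge k 0 with l | l
      · simp [coeff_ls_of_lt 0 _ l, s0 k l]
      obtain ⟨k, rfl⟩ := Int.eq_ofNat_of_zero_le l
      obtain ⟨r, e⟩ := co k
      obtain ⟨t, e'⟩ := (ZMod.intCast_zmod_eq_zero_iff_dvd (∑ x ∈ k.divisorsAntidiagonal,
        cw p x.2 * n x.1 * (ψ⁻¹ x.2).val + (E k).val) p).1 (by simp [hE, hn])
      rw [eq_sub_of_add_eq e'] at e
      have e := congrArg Subtype.val e
      push_cast at e
      rw [← hG, show ((24 : og h) : ℂ) = 24 from rfl] at e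
      conv_lhs => rw [← zero_add (k : ℤ), coeff_ls, coeff_map, zero_add]
      rw [show (og h).subtype (coeff k W₁) - κ * G * s.coeff k = (r - κ * G * t) * p -
        κ * (G * (s.coeff k - (E k).val)) by
          simp only [κ, Subring.coe_subtype]
          push_cast
          linear_combination e]
      have g1 : V G ≤ 1 := hG ▸ sm h _ zero_le_one fun a _ =>
        ml (vi h _) (pow_mem (S := og h) (rt (NeZero.ne f) (ze_pow f)).le _)
      refine sb h (ml (sb h r.2 (ml (ml (vi h _) g1) (vi h _))) a2) (ml (vi h _) (le_trans ?_ a3))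
      rw [V.map_mul, V.map_mul]
      exact mul_le_mul_of_nonneg_left (hs k) g0.le) H
  have pm : (p : ℂ) ∈ og h := o.lt.le
  obtain ⟨-, -, -, r, r1, e⟩ := (Rl.prod pm univ fun a : (ZMod f)ˣ => (rl h p0 o.lt (by
    have := wu_le (c := c) o h2 hf hm M0 d H a
    rwa [wu, map_div₀, div_le_one (V.pos p0)] at this)).zpow pm (n a)).pow pm N
  rw [e, show p * G * ((-(24 * m * (c - 1) * N) : ℤ) * W τ) - (1 + p * (N * ∑ a : (ZMod f)ˣ,
      n a * ((us f c m a τ ^ p / us f c m (p * a) (vp o.prime.pos τ) - 1) / p)) + p ^ 2 * r - 1) =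
      p * (-N * (∑ a, n a * wu f o.prime.pos c m a τ - κ * G * W τ) + -r * p) by
    rw [← Dr.sum_units (k := ℤ) _ fun a l => by rw [n0 a l, Int.cast_zero, zero_mul]]
    simp only [κ, wu]
    push_cast
    ring, V.map_mul, V.map_mul]
  exact mul_lt_mul_of_pos_left (ad' h (ml' ((V.map_neg _).trans_le (vn h N)) (ag.trans_lt a1))
    (ml' ((V.map_neg _).trans_le r1) big)) (V.pos p0)

end Vale.Agent.P014Z.Tz.Xp
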