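import Vale.Agent.P014Z.Tz.Exp
import Vale.Agent.P014Z.Tz.All0
import Vale.Agent.P014Z.Tz.Lnk
import Vale.Agent.P004F.Qx.Vex

/-! # P014Z, block TZ: the export, closed -/

set_option autoImplicit false

namespace Vale.Agent.P014Z.Tz

open P004K Vale.Agent.P014U

theorem x_tz [Pp] : Gl.TZ := tz x_cor sys x_ind x_ing lnk P004F.Qx.vex x_rc2 y_hg1

end Vale.Agent.P014Z.Tz
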