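import Vale.Agent.P014Z.Tz.Ex1
import Vale.Agent.P014Z.Tz.St
import Vale.Agent.P014Z.Tz.Frm
import Vale.Agent.P014Z.Lk.Fn1
import Vale.Agent.P014Z.Lk.Hol
import Vale.Agent.P014Z.Lk.Br0

/-! # P014Z, block TZ: the export -/

set_option autoImplicit false
set_option linter.all false

noncomputable section

namespace Vale.Agent.P014Z.Tz

open NumberField UpperHalfPlane CongruenceSubgroup Finset AddChar
open scoped Classical
open Vale.Agent.P022 (Qb GQ)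
open Vale.Agent.P022K.G2 (zt)
open Vale.Agent.P014T.Sg (ee ee_nat ee_prim)
open Vale.Agent.P014U P004K P004F.Qx
open P027M.M (io)
open P014Y.Mu (F)
open Gl Su Su.Dp Lk Xp

namespace Xp

variable {f p : ℕ} [NeZero f] {V : AbsoluteValue ℂ ℝ} {n : ZMod f → ℤ}

theorem fib1 (h : ∀ z : ZMod f, ∑ y : (ZMod f)ˣ with (p : ZMod f) * y.1 = z, n y = 0)
    {g : ZMod f → ℂ} (g0 : ∀ z, g z ≠ 0) : ∏ a : (ZMod f)ˣ, g (p * a) ^ n a = 1 := by
  rw [← prod_fiberwise univ fun a : (ZMod f)ˣ => (p : ZMod f) * a]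
  refine prod_eq_one fun z _ => ?_
  have k : ∀ s : Finset (ZMod f)ˣ, ∏ a ∈ s, g z ^ n a = g z ^ ∑ a ∈ s, n a := fun s => by
    induction s using Finset.induction_on with
    | empty => simp
    | insert i s m c => rw [prod_insert m, sum_insert m, c, zpow_add₀ (g0 z)]
  rw [prod_congr rfl fun a m => by rw [(mem_filter.1 m).2], k, h z, zpow_zero]

theorem fou {e : AddChar (ZMod f) ℂ} {r : ℝ} (n0 : ∀ a, ¬ IsUnit a → n a = 0)
    (h : ∀ t, V (∑ a, n a * e (t * a)) ≤ r) (b : (ZMod f)ˣ) (t : ZMod f) :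
    V (∑ y : (ZMod f)ˣ, n (b * y).1 * e (t * y)) ≤ r := by
  have := h (t * (b⁻¹).1)
  rw [← Dr.sum_units (k := ℤ) _ fun a l => by rw [n0 a l, Int.cast_zero, zero_mul],
    ← Equiv.sum_comp (Equiv.mulLeft b)] at this
  simpa [mul_assoc] using this

end Xp

variable [Pp]

/-- **the trivial zeros** -/
theorem tz (cor : COR) (sys : SYS) (ind : IND) (ing : ING) (lnk : LNK) (vex : VEX) (r2 : RC2)
    (hg1 : HG1) : TZ := by
  intro e D b k L a Φ ha ⟨W, hW, s, mW, xW, s0, co, val⟩ lt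
  obtain ⟨V, hV⟩ := vex (e.P pp) (e.ov pp e.pm).2.1 (Ho.p0 e)
  have o := Ho.ov hV
  have h := o.na
  have pr := Fo.prim D ha
  have hf := D.dc.one
  have f0 := NeZero.pos D.f
  have p5 := D.five
  have h2 : pp ≠ 2 := by omega
  have c0 : 0 < L.c := zero_lt_one.trans L.lz.one
  have cp := Fr.cop L.lz
  have pc : ¬ pp ∣ L.c := pp_prime.coprime_iff_not_dvd.1 cp.coprime_mul_left_right.symm
  have fp : 0 < D.f * pp := Nat.mul_pos f0 pp_prime.pos
  have M0 := pow_pos fp 2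
  have p0 : (pp : ℂ) ≠ 0 := Nat.cast_ne_zero.2 pp_prime.ne_zero
  obtain ⟨φ, φ0, φ1, fib⟩ := ex_n pr
  obtain ⟨n, hn⟩ : ∃ n : ZMod D.f → ℤ, ∀ x, n x = φ ((D.ψ⁻¹ ^ a) x) := ⟨_, fun _ => rfl⟩
  have n0 : ∀ x, ¬ IsUnit x → n x = 0 := fun x l => by rw [hn, MulChar.map_nonunit _ l, φ0]
  have n1 : ∀ x, (n x : ZMod pp) = (D.ψ⁻¹ ^ a) x := fun x => by rw [hn, φ1]
  simp only [← hn] at fib
  let u := ZMod.unitOfCoprime _ L.sm.cop
  have hu : (u : ZMod D.f) = L.c₀ := rfl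
  obtain ⟨ν, hν⟩ : ∃ ν : (ZMod D.f)ˣ → ℤ, ∀ x, ν x = L.m * (L.c₀ * n x - n (u⁻¹ * x).1) :=
    ⟨_, fun _ => rfl⟩
  have one : ∀ q : ℕ, D.ψ q = 1 → (D.ψ⁻¹ ^ a) q = 1 := fun q l => by
    rw [Fo.ch D ha, l, inv_one, one_pow]
  have sh : ∀ q : ℕ, D.ψ q = 1 → Sh q ν ν := fun q l x y c => by
    simp only [hν, hn, Units.val_mul, c, map_mul, one q l, one_mul]
  let E := zmodChar D.f (ze_pow D.f)
  obtain ⟨G, hG⟩ : ∃ G : ℂ, G = ∑ x, n x * E x := ⟨_, rfl⟩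
  obtain ⟨big, g1⟩ := hG ▸ gs_big h o.lt pr n1 (e := E)
    (zmodChar_primitive_of_primitive_root _ (by simpa using ee_prim f0 (Nat.coprime_one_right _)))
    n0 D.dc.sq
  have g0 : G ≠ 0 := V.ne_zero_iff.1 ((V.nonneg _).trans_lt big).ne'
  have g2 : V G ≤ 1 := hG ▸ sm h _ zero_le_one fun x _ =>
    ml (vi h _) (rt f0.ne' (e_pow E x)).le
  have z0 : io (zt pp - 1) ≠ 0 := (map_ne_zero _).2 Br.pi_ne
  have main : ∀ (l N : ℕ) Ψ, Sy l (D.f * L.c) Ψ → l * D.f ∣ (D.f * pp) ^ 2 → ¬ pp ∣ N →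
      (∀ (A : ℤ) (τ τ' : ℍ), Ty V ((D.f * pp) ^ 2) A τ → (τ' : ℂ) = D.f * τ → ∀ r s,
        V (yr Ψ D.f L.c ν r s τ' - 1) ≤ V (pp * G)) →
      (∀ τ τ' : ℍ, (τ' : ℂ) = D.f * τ → (∏ x : (ZMod D.f)ˣ, (us D.f L.c₀ L.m x τ ^ pp /
        us D.f L.c₀ L.m (pp * x) (vp pp_prime.pos τ)) ^ n x) ^ N = yr Ψ D.f L.c ν 0 0 τ') →
      P004R.Vn (e.P pp) L.R L.χ Φ L.t := fun l N Ψ sy lf pN hS hY i hi => by
    have κ1 : V (-(24 * L.m * (L.c₀ - 1) * N) : ℤ) = 1 := vu h pp_prime o.lt fun d =>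
      Fo.un D L.sm (G := N) (by exact_mod_cast Fo.nm (e := e) (n := N) (by
        exact_mod_cast mt (ZMod.natCast_eq_zero_iff N pp).1 pN)) (by
        obtain ⟨t, d⟩ := d
        have := congrArg (Int.cast : ℤ → 𝓞 Qb) d
        push_cast at this
        exact this ▸ Ideal.mul_mem_right _ _ (e.ov pp e.pm).2.2)
    have := cor b.K b.j b.iq b.upm pp (k + 1) _ L.c D.f l _ L.χ L.R _ V (pp * G) Ψ ν ν
      L.c.primeFactors (fun g => (-(24 * L.m * (L.c₀ - 1) * N) : ℤ) * Φ g) pp_prime M0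
      (Fr.sp2 D b).choose_spec.cn L.lz.sq (cp.pow_right 2) ⟨pp ^ 2, by ring⟩ lf L.lz.add L.lz.ker
      (Fr.ram r2 L.lz) L.tv (e.ov pp e.pm).2.2 hV (mul_ne_zero p0 g0)
      (mul_comm (pp : ℂ) G ▸ ml' g2 o.lt) sy (sh _ (Fr.psi r2 L.lz dvd_rfl))
      (fun q m => by
        obtain ⟨m1, m2, -⟩ := Nat.mem_primeFactors.1 m
        exact ⟨m1, m2, sh q (Fr.prm r2 L.lz q m1 m2).1, (Fr.prm r2 L.lz q m1 m2).2⟩)
      (fun g m σ τ₁ τ₀ τ' x1 x2 x3 x4 => by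
        obtain ⟨A, H⟩ := Ho.ty b fp (dvd_mul_left _ _) (Fr.sup D) pp_prime.not_dvd_one hV m x1 x2 x3
        exact hS A _ _ H x4)
      (fun g m => by
        obtain ⟨σ, τ, τ₀, x1, x2, x3⟩ := Br.ex_pt b hg1 fp (Fr.sup D) c0 cp g
        obtain ⟨A, H⟩ := Ho.ty b fp (dvd_mul_left _ _) (Fr.sup D) pc hV (L.tv.mem g m) x1 x2 x3
        refine ⟨σ, τ, τ₀, vp f0 τ₀, x1, x2, x3, vp_coe f0 τ₀, ?_⟩
        rw [← hY τ₀ _ (vp_coe f0 τ₀), map_mul io, map_intCast, val g (L.tv.mem g m) σ τ τ₀ x1 x2 x3]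
        refine key o h2 hf L.sm.dv M0 ⟨pp, by ring⟩ pr (one _ L.sm.ker) L.sm.cop n1 n0 hW mW xW s0
          ((hV.2 _).2.1 (Ho.pi_zp (e.ov pp e.pm).2.1 (e.ov pp e.pm).2.2)) (E := ec D.ψ a)
          (fun k => ?_) (fun k => ?_) hG big H N
        · rw [ec, ← sum_neg_distrib]
          refine sum_congr rfl fun x _ => ?_
          rw [Fo.cw_eq, MulChar.inv_apply_eq_inv', Fo.ch D ha, Fo.ch D ha, inv_pow (D.ψ x.2), inv_inv]
          ring
        · obtain ⟨z, e1, e2⟩ := co k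
          have := (hV.2 _).1.1 e2
          rwa [map_div₀, map_div₀, div_le_one (V.pos z0), map_sub io, map_natCast, ← e1] at this)
      (lt.lt_of_ne fun c => h2 ((Nat.prime_dvd_prime_iff_eq Nat.prime_two pp_prime).1
        (Nat.prime_two.dvd_of_dvd_pow ⟨_, c.symm⟩)).symm) i hi
    simp only [mul_left_comm _ ((_ : ℤ) : Qb), ← mul_sum] at this
    rwa [(hV.2 _).2, map_mul io, map_intCast, V.map_mul, κ1, one_mul, ← (hV.2 _).2] at this
  have lk := lnk D.f L.c L.c₀ L.m (fun x => n x) ν u hf c0 hu hν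
  by_cases d : pp ∣ D.f
  · obtain ⟨g, hg⟩ := id d
    refine main 1 (g * L.c) _ (sys _ (Nat.mul_pos f0 c0)).1 ⟨D.f * pp ^ 2, by ring⟩ (fun l =>
      (pp_prime.dvd_mul.1 l).elim (fun ⟨t, l⟩ => D.dc.sq ⟨t, by rw [hg, l]; ring⟩) pc)
      (ing V pp _ D.f L.c ν G o h2 d c0 cp.coprime_mul_right_right.symm M0 ⟨pp ^ 2, by ring⟩ big.le
        (fun x z => ?_) ?_ fun x t => ?_) fun τ τ' x => ?_
    · simp only [hν, ← mul_sum, sum_sub_distrib, ← mul_assoc, fib d, mul_zero, sub_zero]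
    · simp only [hν, Int.cast_mul, Int.cast_sub, Int.cast_natCast, mul_assoc, sub_mul, ← mul_sum,
        sum_sub_distrib]
      rw [← Equiv.sum_comp (Equiv.mulLeft u) fun x : (ZMod D.f)ˣ => (n (u⁻¹ * x).1 : ZMod D.f) * x]
      simp [← hu, mul_sum, mul_left_comm]
    · have w := fou (V := V) n0 fun t => (gs_le h pr n1 (e := E) t).trans
        (max_le (congrArg V hG).ge big.le)
      have q : ∀ y : ZMod D.f, ee (y.val * t / D.f) = E (t * y) := fun y => by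
        rw [← Nat.cast_mul, ← mul_one_div, ee_nat, ← zmodChar_apply' (ze_pow D.f), Nat.cast_mul,
          ZMod.natCast_zmod_val, mul_comm]
      simp only [hν, q, ← mul_assoc u⁻¹]
      simp only [Int.cast_mul, Int.cast_sub, Int.cast_natCast, mul_assoc (_ : ℂ), sub_mul, ← mul_sum,
        sum_sub_distrib]
      exact ml (vn h _) (sb h (ml (vn h _) (w x t)) (w _ t))
    · rw [← (lk τ τ' x).1, show D.f * L.c = pp * (g * L.c) by rw [← mul_assoc, ← hg], pow_mul _ pp]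
      simp only [div_zpow, prod_div_distrib]
      rw [fib1 (by simpa using fib d 1) fun z => us_ne hf _ _ z _, div_one, ← prod_pow _ pp]
      simp only [← zpow_natCast _ pp, ← zpow_mul, mul_comm]
  · refine main pp (D.f * L.c) _ ((sys _ (Nat.mul_pos f0 c0)).2 pp pp_prime.pos)
      ⟨D.f * pp, by ring⟩ (fun l => (pp_prime.dvd_mul.1 l).elim d pc) (fun A τ τ' H x r s => ?_)
      fun τ τ' x => (lk τ τ' x).2 pp _ (pp_prime.coprime_iff_not_dvd.2 d) (vp_coe _ τ)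
    refine (Rl.le o.lt.le (Rl.prod (S := og h) o.lt.le _ fun x => Rl.prod (S := og h) o.lt.le _
      fun y => (rl h p0 o.lt (ind V pp _ D.f _ o h2 hf (dvd_mul_right _ _) (Nat.mul_pos f0 c0)
        (fun l => (pp_prime.dvd_mul.1 l).elim d pc) M0 ⟨pp, by ring⟩ A τ τ' H ‹_› _ _ ?_)).zpow
          (S := og h) o.lt.le _)).trans ?_
    · exact IsCoprime.add_mul_left_left (by
        exact_mod_cast Nat.isCoprime_iff_coprime.2 (cp.coprime_mul_right_right.mul_left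
          (ZMod.val_coe_unit_coprime x))) r
    · rw [V.map_mul]
      exact le_mul_of_one_le_right (V.nonneg _) (g1 d)

end Vale.Agent.P014Z.Tz
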