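import Vale.Agent.P004F.Qx.Mpv

/-! # P014Z: the maximum principle for holomorphic functions, without exceptional fields -/

set_option autoImplicit false
set_option linter.all false

open UpperHalfPlane hiding I
open CongruenceSubgroup Polynomial
open scoped MatrixGroups Classical

noncomputable section

namespace Vale.Agent.P014Z.Tz

open Vale.Agent.P022 Vale.Agent.P022.H218.L3 Vale.Agent.P022.H236.L3 Vale.Agent.P022.H542.L3
  Vale.Agent.P027M.M P004Z P004Z.Fin P004F.Qx P004F.Qx.Mp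
open Vale.Agent.P022K.F0.Cf (jm)

variable {V : AbsoluteValue ℂ ℝ} {p M L : ℕ} {D : ℤ} {τ : ℍ}

/-- one function -/
theorem hol1 (h : Ov V p) (M0 : 0 < M) (d : p ∣ M) (f : Hol) (mf : jm f ∈ MF (Gamma0 M))
    (hi : f.1 ∈ Iq (vO h.na)) (H : Ty V M D τ) : V (f.1 τ) ≤ 1 := by
  haveI : NeZero M := ⟨M0.ne'⟩
  obtain ⟨l, b1, b2, -, b3, -, b4⟩ := form h d H
  have dn := disc_neg b1 b2
  obtain ⟨k, N, hN, e1⟩ := Nat.exists_eq_pow_mul_and_not_dvd M0.ne' p h.prime.ne_one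
  exact hol h f mf hi e1 hN (h.cm dn b2) (h.typF dn b2 (pow_pos h.prime.pos k)
    ((Int.natCast_dvd_natCast.2 (Dvd.intro _ e1.symm)).trans b3) b4)

/-- composition with `γ` -/
def cm (γ : SL(2, ℤ)) : Hol →+* Hol where
  toFun f := ⟨fun τ => f.1 (γ • τ), comp_mem γ f.2⟩
  map_one' := rfl
  map_mul' _ _ := rfl
  map_zero' := rfl
  map_add' _ _ := rfl

/-- evaluation -/
def ev (τ : ℍ) : Hol →+* ℂ := (Pi.evalRingHom (fun _ : ℍ => ℂ) τ).comp Hol.val.toRingHom

/-- **a family which is permuted by `Γ₀(M)`** -/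
theorem holv (h : Ov V p) (M0 : 0 < M) (d : p ∣ M) (L0 : 0 < L) {ι : Type} [Fintype ι]
    (F : ι → Hol) (mf : ∀ i, jm (F i) ∈ MF (Gamma L))
    (pm : ∀ γ ∈ Gamma0 M, ∃ e : ι ≃ ι, ∀ i τ, (F i).1 (γ • τ) = (F (e i)).1 τ)
    (hi : ∀ i, (F i).1 ∈ Iq (vO h.na)) (H : Ty V M D τ) (i : ι) : V ((F i).1 τ) ≤ 1 := by
  haveI : NeZero L := ⟨L0.ne'⟩
  let A : Subring Hol := (MF (Gamma L)).toSubalgebra.toSubring.comap (algebraMap Hol Mer) ⊓
    (Iq (vO h.na)).comap Hol.val.toRingHom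
  obtain ⟨Φ, hΦ⟩ : ∃ Φ : Hol[X], Φ = ∏ i, (X - C (F i)) := ⟨_, rfl⟩
  have a : ∀ k, Φ.coeff k ∈ A := fun k => by
    have : Φ = (∏ i, (X - C (⟨F i, mf i, hi i⟩ : A))).map A.subtype := by
      simp [hΦ, Polynomial.map_prod]
    rw [this, coeff_map]
    exact Subtype.property _
  have b : ∀ k, V ((Φ.coeff k).1 τ) ≤ 1 := fun k =>
    hol1 h M0 d _ (mem_MF_of_fixed _ (a k).1 fun γ hγ => by
      obtain ⟨e, he⟩ := pm γ⁻¹ (inv_mem hγ)
      have k1 : Φ.map (cm γ⁻¹) = Φ := by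
        rw [hΦ, Polynomial.map_prod]
        refine Fintype.prod_equiv e _ _ fun i => ?_
        rw [Polynomial.map_sub, map_X, map_C]
        exact congrArg (fun y : Hol => X - C y) (Subtype.ext (_root_.funext (he i)))
      have k2 := congrArg (·.coeff k) k1
      simp only [coeff_map] at k2
      have := Exp.act_inc γ⁻¹ (Φ.coeff k).2
      rw [inv_inv] at this
      exact this.trans (congrArg (algebraMap Hol Mer) k2)) (a k).2 H
  have m : (Φ.map (ev τ)).Monic :=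
    (hΦ ▸ monic_prod_of_monic _ _ fun i _ => monic_X_sub_C _ : Φ.Monic).map _
  have s : ((Φ.map (ev τ)).coeffs : Set ℂ) ⊆ (vO h.na).toSubring := fun x hx => by
    obtain ⟨k, -, rfl⟩ := mem_coeffs_iff.1 hx
    rw [coeff_map]
    exact b k
  have t : IsIntegral (vO h.na) ((F i).1 τ) :=
    ⟨(Φ.map (ev τ)).toSubring _ s, (monic_toSubring _ _ s).2 m, by
      rw [eval₂_eq_eval_map]
      change eval _ (((Φ.map (ev τ)).toSubring _ s).map (Subring.subtype _)) = 0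
      rw [map_toSubring, hΦ, Polynomial.map_prod, eval_prod]
      exact Finset.prod_eq_zero (Finset.mem_univ i) (by simp [ev])⟩
  obtain ⟨y, hy⟩ := IsIntegrallyClosed.isIntegral_iff.1 t
  exact hy ▸ y.2

end Vale.Agent.P014Z.Tz
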