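import Vale.Agent.P014Z.Tz.St

/-! # P014Z, block TZ: the parametrisation of the Galois group and the abstract core -/

set_option autoImplicit false
set_option linter.all false

open UpperHalfPlane NumberField
open scoped MatrixGroups Classical

noncomputable section

namespace Vale.Agent.P014Z.Tz

open Vale.Agent.P022 (Qb GQ GK)
open P027H P027M.M P004K
open Vale.Agent.P022K.G2 (Tv)

/-- the classes modulo `c` -/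
abbrev Xc (K : Type) [Field K] (c : ℕ) : Type := 𝓞 K ⧸ Ideal.span {(c : 𝓞 K)}

/-- the class of an integer -/
abbrev mc {K : Type} [Field K] (c : ℕ) : 𝓞 K →+* Xc K c := Ideal.Quotient.mk _

/-- **the Galois group of the ring class field in coordinates** -/
def PAR : Prop := ∀ (K : Type) [Field K] [NumberField K] (j : K →+* Qb), Iq K → Upm K →
  ∀ (c : ℕ) (R : Finset GQ), 0 < c → Tv (GK j) (Hc j c) R →
  ∃ (ι κ : Type) (_ : Fintype ι) (_ : Fintype κ) (B : ι → Ideal (𝓞 K)) (g₀ : ι → GQ)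
    (β : κ → 𝓞 K) (G : ι × κ ≃ R), (∀ i, Cop c (B i) ∧ Ar j 1 (B i) (g₀ i)) ∧
    (∀ k, Cop c (Ideal.span {β k})) ∧ (∀ i k, Ar j c (B i * Ideal.span {β k}) (G (i, k))) ∧
    (∀ x : Xc K c, IsUnit x → ∃! k, ∃ n : ℤ, x = n * mc c (β k)) ∧
    ∀ (A : Type) [AddCommGroup A] (e : GQ → A),
      (∀ g ∈ GK j, ∀ g' ∈ GK j, e (g * g') = e g + e g') → (∀ g ∈ Hc j c, e g = 0) →
      ∃ (e₀ : ι → A) (ε : Xc K c → A), (∀ x y, IsUnit x → IsUnit y → ε (x * y) = ε x + ε y) ∧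
        (∀ n : ℤ, IsUnit (n : Xc K c) → ε n = 0) ∧
        (∀ i k, e (G (i, k)) = e₀ i + ε (mc c (β k))) ∧
        ∀ n : ℕ, n ∣ c → ∀ t ∈ Hc j n, ∃ u y : Xc K c, IsUnit u ∧ u = 1 + n * y ∧ ε u = e t

/-- **the core**, for any additive function `ℓ` on a monoid which contains the values -/
def CR0 : Prop := ∀ (K : Type) [Field K] [NumberField K] (j : K →+* Qb), Iq K → Upm K →
  ∀ (p k M c f l : ℕ) [NeZero f] (I : Ideal (𝓞 K)) (e : GQ → ZMod (p ^ k)) (R : Finset GQ)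
    (A : Type) [CommRing A] (S : Submonoid ℂ) (ℓ : ℂ → A) Ψ (ν ν' : (ZMod f)ˣ → ℤ) (Q : Finset ℕ)
    (h : GQ → A), p.Prime → 0 < M → Cn M I → Squarefree c → c.Coprime M → f * f ∣ M → l * f ∣ M →
  (∀ g ∈ GK j, ∀ g' ∈ GK j, e (g * g') = e g + e g') → (∀ g ∈ Hc j c, e g = 0) →
  (∀ q n : ℕ, q.Prime → c = q * n → ∃ t ∈ Hc j n, e t = 1) → Tv (GK j) (Hc j c) R →
  (p : A) = 0 → (∀ z ∈ S, ∀ w ∈ S, ℓ (z * w) = ℓ z + ℓ w) → Sy l (f * c) Ψ → Sh c ν ν' →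
  (∀ q ∈ Q, q.Prime ∧ q ∣ c ∧ Sh q ν' ν' ∧ ∃ π π' : 𝓞 K, π * π' = q ∧ IsCoprime π π' ∧
    ¬ IsUnit π ∧ ¬ IsUnit π') →
  (∀ g ∈ GK j, ∀ σ (τ₁ τ₀ τ' : ℍ), Ex σ g → Hp (JJ j) M I 1 τ₁ → Cj0 σ M τ₁ τ₀ → (τ' : ℂ) = f * τ₀ →
    ∀ r s, yr Ψ f c ν' r s τ' ∈ S) →
  (∀ g ∈ R, ∃ σ, ∃ τ τ₀ τ' : ℍ, Ex σ g ∧ Hp (JJ j) M I c τ ∧ Cj0 σ M τ τ₀ ∧ (τ' : ℂ) = f * τ₀ ∧
    h g = ℓ (yr Ψ f c ν 0 0 τ')) →
  2 * Q.card < p ^ k → ∀ i < 2 * Q.card, ∑ g ∈ R, ((e g).val.choose i : A) * h g = 0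

end Vale.Agent.P014Z.Tz
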